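import Mathlib

/-!
# P205I module IA3: general position, dimension of the source smaller than the dimension of the target

Locally as in `IA1_local` (right inverse `j` of `L x₀`, `σ x = -(L x ∘ j)⁻¹ (L x A + c x)`): the values `σ x` are avoided
for a dense set of `z` (`ContDiffOn.dense_compl_image_of_dimH_lt_finrank` and its relatives in Mathlib); openness and the
finite covering by compactness.
-/

open scoped ContDiff Topology
open Set Module

namespace P205F

variable {Λ X F : Type} [NormedAddCommGroup Λ] [NormedSpace ℝ Λ] [FiniteDimensional ℝ Λ]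
  [NormedAddCommGroup X] [NormedSpace ℝ X] [FiniteDimensional ℝ X]
  [NormedAddCommGroup F] [NormedSpace ℝ F] [FiniteDimensional ℝ F]

private theorem IA3_open {U K : Set X} (hU : IsOpen U) (hK : IsCompact K) (hKU : K ⊆ U)
    {L : X → Λ →L[ℝ] F} {c : X → F} (hL : ContDiffOn ℝ ∞ L U) (hc : ContDiffOn ℝ ∞ c U) :
    IsOpen {A : Λ | ∀ x ∈ K, L x A + c x ≠ 0} := by
  rw [isOpen_iff_mem_nhds]
  intro A₀ hA₀
  have key : ∀ᶠ A in 𝓝 A₀, ∀ x ∈ K, L x A + c x ≠ 0 := by
    refine hK.eventually_forall_of_forall_eventually fun x hx => ?_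
    have hxU : x ∈ U := hKU hx
    have cL : ContinuousAt L x := hL.continuousOn.continuousAt (hU.mem_nhds hxU)
    have cc : ContinuousAt c x := hc.continuousOn.continuousAt (hU.mem_nhds hxU)
    have hG : ContinuousAt (fun z : Λ × X => L z.2 z.1 + c z.2) (A₀, x) := by
      have a1 : ContinuousAt (fun z : Λ × X => L z.2) (A₀, x) :=
        ContinuousAt.comp (f := fun z : Λ × X => z.2) (g := L) cL continuousAt_snd
      have a2 : ContinuousAt (fun z : Λ × X => c z.2) (A₀, x) :=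
        ContinuousAt.comp (f := fun z : Λ × X => z.2) (g := c) cc continuousAt_snd
      exact (a1.clm_apply continuousAt_fst).add a2
    exact hG.eventually (isOpen_ne.mem_nhds (hA₀ x hx))
  exact key

private theorem IA3_local {U : Set X} (hU : IsOpen U) {L : X → Λ →L[ℝ] F} {c : X → F}
    (hL : ContDiffOn ℝ ∞ L U) (hc : ContDiffOn ℝ ∞ c U) (hd : finrank ℝ X < finrank ℝ F) {x₀ : X}
    (hx₀ : x₀ ∈ U) (hs : Function.Surjective (L x₀)) :
    ∃ W ∈ 𝓝 x₀, W ⊆ U ∧ Dense {A : Λ | ∀ x ∈ W, L x A + c x ≠ 0} := by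
  have : CompleteSpace F := FiniteDimensional.complete ℝ F
  obtain ⟨j0, hj0⟩ := LinearMap.exists_rightInverse_of_surjective (L x₀ : Λ →ₗ[ℝ] F)
    (LinearMap.range_eq_top.2 hs)
  let j : F →L[ℝ] Λ := LinearMap.toContinuousLinearMap j0
  have hj : ∀ z, L x₀ (j z) = z := fun z => DFunLike.congr_fun hj0 z
  let P : X → (F →L[ℝ] F) := fun x => (L x).comp j
  have hP : ContDiffOn ℝ ∞ P U := hL.clm_comp contDiffOn_const
  have hPx : P x₀ = 1 := by
    ext z
    exact hj z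
  have hW0 : IsOpen (U ∩ P ⁻¹' {T | IsUnit T}) :=
    hP.continuousOn.isOpen_inter_preimage hU Units.isOpen
  have hx₀W : x₀ ∈ U ∩ P ⁻¹' {T | IsUnit T} := ⟨hx₀, by
    show IsUnit (P x₀)
    rw [hPx]
    exact isUnit_one⟩
  obtain ⟨r, hr, hrW⟩ := Metric.isOpen_iff.1 hW0 x₀ hx₀W
  let W : Set X := Metric.ball x₀ r
  have hW : IsOpen W := Metric.isOpen_ball
  refine ⟨W, Metric.ball_mem_nhds x₀ hr, fun x hx => (hrW hx).1, ?_⟩
  rw [Metric.dense_iff]
  intro A₀ δ hδ
  let b : X → F := fun x => L x A₀ + c x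
  let σ : X → F := fun x => -(Ring.inverse (P x)) (b x)
  have hLa : ∀ x ∈ U, ContDiffAt ℝ ∞ L x := fun x hx => hL.contDiffAt (hU.mem_nhds hx)
  have hca : ∀ x ∈ U, ContDiffAt ℝ ∞ c x := fun x hx => hc.contDiffAt (hU.mem_nhds hx)
  have hPa : ∀ x ∈ U, ContDiffAt ℝ ∞ P x := fun x hx => hP.contDiffAt (hU.mem_nhds hx)
  have hba : ∀ x ∈ U, ContDiffAt ℝ ∞ b x := fun x hx =>
    ((hLa x hx).clm_apply contDiffAt_const).add (hca x hx)
  have hσa : ∀ x ∈ W, ContDiffAt ℝ ∞ σ x := by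
    intro x hxW
    obtain ⟨hx, u, hu⟩ := hrW hxW
    have h1 : ContDiffAt ℝ ∞ (fun y => Ring.inverse (P y)) x := by
      have h2 := contDiffAt_ringInverse (n := ∞) ℝ u
      rw [hu] at h2
      exact h2.comp x (hPa x hx)
    exact (h1.clm_apply (hba x hx)).neg
  have hPσ : ∀ x ∈ W, P x (σ x) = - b x := by
    intro x hxW
    obtain ⟨hx, hu⟩ := hrW hxW
    have h1 : P x * Ring.inverse (P x) = 1 := Ring.mul_inverse_cancel _ hu
    have h2 := DFunLike.congr_fun h1 (b x)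
    show P x (-(Ring.inverse (P x)) (b x)) = - b x
    rw [map_neg]
    exact congrArg Neg.neg h2
  have hσ1 : ContDiffOn ℝ 1 σ W := fun x hx =>
    ((hσa x hx).of_le (by simp)).contDiffWithinAt
  have hdim : dimH W < finrank ℝ F := by
    rw [Real.dimH_of_mem_nhds (Metric.ball_mem_nhds x₀ hr)]
    exact_mod_cast hd
  have hdense : Dense (σ '' W)ᶜ :=
    hσ1.dense_compl_image_of_dimH_lt_finrank (convex_ball x₀ r) Subset.rfl hdim
  have hop : IsOpen {z : F | ‖j z‖ < δ} := isOpen_lt (j.continuous.norm) continuous_const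
  obtain ⟨z, hz1, hz2⟩ := hdense.inter_open_nonempty _ hop ⟨0, by
    show ‖j 0‖ < δ
    rw [map_zero, norm_zero]
    exact hδ⟩
  refine ⟨A₀ + j z, ?_, ?_⟩
  · rw [mem_ball_iff_norm, add_sub_cancel_left]
    exact hz1
  · intro x hx h0
    have hg : L x (A₀ + j z) + c x = P x (z - σ x) := by
      rw [map_sub, hPσ x hx, map_add]
      show L x A₀ + L x (j z) + c x = L x (j z) - -(L x A₀ + c x)
      abel
    have hinj : Function.Injective (P x) := by
      obtain ⟨u, hu⟩ := (hrW hx).2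
      intro a a' haa
      have h1 : ∀ w, (↑u⁻¹ : F →L[ℝ] F) (P x w) = w := by
        intro w
        have h2 : (↑u⁻¹ : F →L[ℝ] F) * (P x) = 1 := by
          rw [← hu]
          exact u.inv_mul
        exact DFunLike.congr_fun h2 w
      rw [← h1 a, haa, h1 a']
    have hzσ : z - σ x = 0 := by
      have h1 : P x (z - σ x) = P x 0 := by
        rw [← hg, map_zero]
        exact h0
      exact hinj h1
    exact hz2 ⟨x, hx, (sub_eq_zero.1 hzσ).symm⟩

theorem IA3_lt {U K : Set X} (hU : IsOpen U) (hK : IsCompact K) (hKU : K ⊆ U)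
    {L : X → Λ →L[ℝ] F} {c : X → F} (hL : ContDiffOn ℝ ∞ L U) (hc : ContDiffOn ℝ ∞ c U)
    (hd : finrank ℝ X < finrank ℝ F) (hs : ∀ x ∈ K, Function.Surjective (L x)) :
    IsOpen {A : Λ | ∀ x ∈ K, L x A + c x ≠ 0} ∧ Dense {A : Λ | ∀ x ∈ K, L x A + c x ≠ 0} := by
  refine ⟨IA3_open hU hK hKU hL hc, ?_⟩
  have key : ∃ C : Set X, IsCompact C ∧ K ⊆ C ∧ C ⊆ U ∧
      Dense {A : Λ | ∀ x ∈ C, L x A + c x ≠ 0} := by
    refine hK.induction_on (p := fun s => ∃ C : Set X, IsCompact C ∧ s ⊆ C ∧ C ⊆ U ∧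
      Dense {A : Λ | ∀ x ∈ C, L x A + c x ≠ 0}) ?_ ?_ ?_ ?_
    · refine ⟨∅, isCompact_empty, Subset.rfl, empty_subset _, ?_⟩
      have h1 : {A : Λ | ∀ x ∈ (∅ : Set X), L x A + c x ≠ 0} = univ :=
        eq_univ_of_forall fun A x hx => hx.elim
      rw [h1]
      exact dense_univ
    · rintro s t hst ⟨C, h1, h2, h3, h4⟩
      exact ⟨C, h1, hst.trans h2, h3, h4⟩
    · rintro s t ⟨C, h1, h2, h3, h4⟩ ⟨C', h1', h2', h3', h4'⟩
      refine ⟨C ∪ C', h1.union h1', union_subset_union h2 h2', union_subset h3 h3', ?_⟩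
      refine (h4.inter_of_isOpen_left h4' (IA3_open hU h1 h3 hL hc)).mono ?_
      rintro A ⟨a1, a2⟩ x (hx | hx)
      · exact a1 x hx
      · exact a2 x hx
    · intro x hx
      obtain ⟨W, hW, hWU, hD⟩ := IA3_local hU hL hc hd (hKU hx) (hs x hx)
      obtain ⟨C, hC, hCW, hCc⟩ := local_compact_nhds hW
      have hsub : {A : Λ | ∀ x ∈ W, L x A + c x ≠ 0} ⊆
          {A : Λ | ∀ x ∈ C, L x A + c x ≠ 0} := fun A hA y hy => hA y (hCW hy)
      exact ⟨C, mem_nhdsWithin_of_mem_nhds hC, C, hCc, Subset.rfl, hCW.trans hWU,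
        hD.mono hsub⟩
  obtain ⟨C, -, h2, -, h4⟩ := key
  have hsub : {A : Λ | ∀ x ∈ C, L x A + c x ≠ 0} ⊆
      {A : Λ | ∀ x ∈ K, L x A + c x ≠ 0} := fun A hA x hx => hA x (h2 hx)
  exact h4.mono hsub

end P205F
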