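import Mathlib
import Vale.Agent.Lib.P205F.MDefs

/-!
# P205I: definitions for the generic map `f : M → ℝ⁴`
-/

noncomputable section

namespace P205F

open scoped Manifold ContDiff Topology RealInnerProductSpace
open Set

/-- the last coordinate vector of `ℝ⁴` -/
def a4 : V4 := EuclideanSpace.single 3 1

/-- linear maps `ℝᵐ → ℝ⁴` -/
abbrev Lam (m : ℕ) := (Fin m → ℝ) →L[ℝ] V4

/-- `Ψ` has a nondegenerate fold at `z`, with respect to the direction `a4` -/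
def FoldAt (Ψ : E2 × E2 → V4) (z : E2 × E2) : Prop :=
  ∃ k : E2 × E2, k ≠ 0 ∧ fderiv ℝ Ψ z k = 0 ∧ (∀ u, fderiv ℝ Ψ z u = 0 → ∃ c : ℝ, u = c • k) ∧
    (∀ (u : E2 × E2) (s : ℝ), fderiv ℝ Ψ z u = s • a4 → s = 0) ∧
    ¬ ∃ u, fderiv ℝ (fun y => fderiv ℝ Ψ y k) z k = fderiv ℝ Ψ z u

variable {M : Type} [TopologicalSpace M] [ChartedSpace E2 M]

/-- the separation property of `ψ` -/
structure PsiOK {m : ℕ} (ψ : M → (Fin m → ℝ)) : Prop where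
  sm : Sm ψ
  inj : ∀ φ ∈ ATL M, ∀ x ∈ φ.target, ∀ v, v ≠ 0 → fderiv ℝ (ψ ∘ φ.symm) x v ≠ 0
  sep : ∀ φ ∈ ATL M, ∀ χ ∈ ATL M, ∀ x ∈ φ.target, ∀ y ∈ χ.target, φ.symm x ≠ χ.symm y →
    ∀ v w, ¬ (v = 0 ∧ w = 0) → LinearIndependent ℝ ![ψ (φ.symm x) - ψ (χ.symm y),
      fderiv ℝ (ψ ∘ φ.symm) x v - fderiv ℝ (ψ ∘ χ.symm) y w]

/-- the difference of values in two charts of the atlas -/
def dif (𝒜 : FinAtlas M) (f : M → V4) (k l : Fin 𝒜.n) (z : E2 × E2) : V4 :=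
  f ((𝒜.φ k).symm z.1) - f ((𝒜.φ l).symm z.2)

/-- the square of radius two in the product of two charts, off the diagonal of `M` -/
def offD (𝒜 : FinAtlas M) (k l : Fin 𝒜.n) : Set (E2 × E2) :=
  {z | z.1 ∈ Metric.closedBall 0 2 ∧ z.2 ∈ Metric.closedBall 0 2 ∧
    (𝒜.φ k).symm z.1 ≠ (𝒜.φ l).symm z.2}

/-- generic map `M → ℝ⁴` -/
structure Gen4 (𝒜 : FinAtlas M) (f : M → V4) : Prop where
  sm : Sm f
  imm : ∀ k, ∀ x ∈ Metric.closedBall (0 : E2) 2, ∀ v, fderiv ℝ (f ∘ (𝒜.φ k).symm) x v = 0 → v = 0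
  dbl : ∀ k l, ∀ z ∈ offD 𝒜 k l, dif 𝒜 f k l z = 0 →
    Function.Injective (fderiv ℝ (dif 𝒜 f k l) z)
  cc : ∀ k, ∀ x ∈ Metric.closedBall (0 : E2) 2, ∀ v, fderiv ℝ (f ∘ (𝒜.φ k).symm) x v = a4 →
    ∀ u w, fderiv ℝ (fun y => fderiv ℝ (f ∘ (𝒜.φ k).symm) y v) x u +
      fderiv ℝ (f ∘ (𝒜.φ k).symm) x w = 0 → u = 0 ∧ w = 0
  fold : ∀ k l, ∀ z ∈ offD 𝒜 k l, ∀ t : ℝ, dif 𝒜 f k l z = t • a4 →
    Function.Injective (fderiv ℝ (dif 𝒜 f k l) z) ∨ FoldAt (dif 𝒜 f k l) z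

/-- solutions of `f p - f q = t a4` in `N × N` -/
def Sol4 (f : M → V4) (N : Set M) (t : ℝ) : Set (M × M) :=
  {z | z.1 ∈ N ∧ z.2 ∈ N ∧ f z.1 - f z.2 = t • a4}

/-- regular pairs -/
def RegP (𝒜 : FinAtlas M) (f : M → V4) (z : M × M) : Prop :=
  ∀ k l, z.1 ∈ (𝒜.φ k).source → (𝒜.φ k) z.1 ∈ Metric.closedBall (0 : E2) 2 →
    z.2 ∈ (𝒜.φ l).source → (𝒜.φ l) z.2 ∈ Metric.closedBall (0 : E2) 2 →
    Function.Injective (fderiv ℝ (dif 𝒜 f k l) ((𝒜.φ k) z.1, (𝒜.φ l) z.2))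

/-- points where `a4` is tangent -/
def Zc (f : M → V4) : Set M := {p | ∃ v, dP f p v = a4}

/-- ordered double points in `N` -/
def Db (f : M → V4) (N : Set M) : Set (M × M) := {z | z.1 ∈ N ∧ z.2 ∈ N ∧ z.1 ≠ z.2 ∧ f z.1 = f z.2}

end P205F
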