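import Mathlib
import Vale.Agent.Lib.P205F.MD1
import Vale.Agent.Lib.P205I.IA3
import Vale.Agent.Lib.P205I.IGDefs

/-!
# P205I module IG1: generic `A`, conditions at one point

`IG1_imm`: unknowns `(x, s) ∈ E2 × ℝ`, directions `(1, s)` and `(s, 1)` with `|s| ≤ 1`, equation `A (Dψ x v) = 0` in
`ℝ⁴`: `IA3_lt` (3 < 4).  `IG1_cc`: unknowns `(x, v) ∈ E2 × E2` with `1/(j+1) ≤ ‖v‖ ≤ j+1`, equation
`A (Dψ x v) - a4 = 0`: `IA2_main` (4 = 4).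
-/

noncomputable section

namespace P205F

open scoped Manifold ContDiff Topology RealInnerProductSpace
open Set

variable {M : Type} [TopologicalSpace M] [ChartedSpace E2 M] [IsManifold 𝓘(ℝ, E2) ∞ M]
  {m : ℕ} {ψ : M → (Fin m → ℝ)}

private theorem IG1_surj {w : Fin m → ℝ} (hw : w ≠ 0) (y : V4) : ∃ A : Lam m, A w = y := by
  obtain ⟨i, hi⟩ := Function.ne_iff.1 hw
  refine ⟨(w i)⁻¹ • (ContinuousLinearMap.proj (R := ℝ) (φ := fun _ : Fin m => ℝ) i).smulRight y,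
    ?_⟩
  rw [smul_apply, ContinuousLinearMap.smulRight_apply, ContinuousLinearMap.proj_apply, smul_smul,
    inv_mul_cancel₀ hi, one_smul]

private theorem IG1_apply : ContDiff ℝ ∞ (fun w : Fin m → ℝ =>
    (ContinuousLinearMap.apply ℝ V4 w : Lam m →L[ℝ] V4)) := by
  fun_prop

private theorem IG1_aux (h : PsiOK ψ) (𝒜 : FinAtlas M) (k : Fin 𝒜.n) {d : ℝ → E2}
    (hd : ContDiff ℝ ∞ d) (hd0 : ∀ s, d s ≠ 0) :
    IsOpen {A : Lam m | ∀ z ∈ Metric.closedBall (0 : E2) 2 ×ˢ Icc (-1 : ℝ) 1,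
        A (fderiv ℝ (ψ ∘ (𝒜.φ k).symm) z.1 (d z.2)) ≠ 0} ∧
      Dense {A : Lam m | ∀ z ∈ Metric.closedBall (0 : E2) 2 ×ˢ Icc (-1 : ℝ) 1,
        A (fderiv ℝ (ψ ∘ (𝒜.φ k).symm) z.1 (d z.2)) ≠ 0} := by
  have hsub : Metric.closedBall (0 : E2) 2 ⊆ (𝒜.φ k).target :=
    (Metric.closedBall_subset_closedBall (by norm_num)).trans (𝒜.target k)
  have hg : ContDiffOn ℝ ∞ (ψ ∘ (𝒜.φ k).symm) (𝒜.φ k).target := h.sm.loc (𝒜.mem k)
  have hg' : ContDiffOn ℝ ∞ (fderiv ℝ (ψ ∘ (𝒜.φ k).symm)) (𝒜.φ k).target :=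
    hg.fderiv_of_isOpen (𝒜.φ k).open_target (by simp)
  have hU : IsOpen ((𝒜.φ k).target ×ˢ (univ : Set ℝ)) :=
    (𝒜.φ k).open_target.prod isOpen_univ
  have hK : IsCompact (Metric.closedBall (0 : E2) 2 ×ˢ Icc (-1 : ℝ) 1) :=
    (isCompact_closedBall _ _).prod isCompact_Icc
  have hKU : Metric.closedBall (0 : E2) 2 ×ˢ Icc (-1 : ℝ) 1 ⊆
      (𝒜.φ k).target ×ˢ (univ : Set ℝ) := prod_mono hsub (subset_univ _)
  have hw : ContDiffOn ℝ ∞ (fun z : E2 × ℝ => fderiv ℝ (ψ ∘ (𝒜.φ k).symm) z.1 (d z.2))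
      ((𝒜.φ k).target ×ˢ (univ : Set ℝ)) := by
    have h1 : ContDiffOn ℝ ∞ (fun z : E2 × ℝ => fderiv ℝ (ψ ∘ (𝒜.φ k).symm) z.1)
        ((𝒜.φ k).target ×ˢ (univ : Set ℝ)) :=
      hg'.comp contDiff_fst.contDiffOn (fun z hz => hz.1)
    have h2 : ContDiffOn ℝ ∞ (fun z : E2 × ℝ => d z.2)
        ((𝒜.φ k).target ×ˢ (univ : Set ℝ)) := (hd.comp contDiff_snd).contDiffOn
    exact h1.clm_apply h2
  have hL : ContDiffOn ℝ ∞ (fun z : E2 × ℝ =>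
      (ContinuousLinearMap.apply ℝ V4 (fderiv ℝ (ψ ∘ (𝒜.φ k).symm) z.1 (d z.2)) :
        Lam m →L[ℝ] V4)) ((𝒜.φ k).target ×ˢ (univ : Set ℝ)) :=
    IG1_apply.comp_contDiffOn hw
  have hc : ContDiffOn ℝ ∞ (fun _ : E2 × ℝ => (0 : V4)) ((𝒜.φ k).target ×ˢ (univ : Set ℝ)) :=
    contDiffOn_const
  have hfr : Module.finrank ℝ (E2 × ℝ) < Module.finrank ℝ V4 := by
    rw [Module.finrank_prod, Module.finrank_prod, Module.finrank_self, finrank_euclideanSpace_fin]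
    norm_num
  have hs : ∀ z ∈ Metric.closedBall (0 : E2) 2 ×ˢ Icc (-1 : ℝ) 1,
      Function.Surjective ((fun z : E2 × ℝ =>
      (ContinuousLinearMap.apply ℝ V4 (fderiv ℝ (ψ ∘ (𝒜.φ k).symm) z.1 (d z.2)) :
        Lam m →L[ℝ] V4)) z) := by
    intro z hz y
    obtain ⟨A, hA⟩ := IG1_surj (h.inj _ (𝒜.mem k) z.1 (hsub hz.1) _ (hd0 z.2)) y
    exact ⟨A, hA⟩
  have hmain := IA3_lt hU hK hKU hL hc hfr hs
  simp only [add_zero] at hmain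
  exact hmain

theorem IG1_imm (h : PsiOK ψ) (𝒜 : FinAtlas M) (k : Fin 𝒜.n) :
    ∃ T : Set (Lam m), IsOpen T ∧ Dense T ∧ ∀ A ∈ T, ∀ x ∈ Metric.closedBall (0 : E2) 2, ∀ v,
      fderiv ℝ ((fun p => A (ψ p)) ∘ (𝒜.φ k).symm) x v = 0 → v = 0 := by
  have hd1 : ContDiff ℝ ∞ (fun s : ℝ => ((1, s) : E2)) := contDiff_const.prodMk contDiff_id
  have hd2 : ContDiff ℝ ∞ (fun s : ℝ => ((s, 1) : E2)) := contDiff_id.prodMk contDiff_const
  obtain ⟨o1, e1⟩ := IG1_aux h 𝒜 k hd1 (fun s hs => one_ne_zero (congrArg Prod.fst hs))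
  obtain ⟨o2, e2⟩ := IG1_aux h 𝒜 k hd2 (fun s hs => one_ne_zero (congrArg Prod.snd hs))
  refine ⟨_, o1.inter o2, e1.inter_of_isOpen_left e2 o1, ?_⟩
  rintro A ⟨hA1, hA2⟩ x hx v hv
  have hsub : Metric.closedBall (0 : E2) 2 ⊆ (𝒜.φ k).target :=
    (Metric.closedBall_subset_closedBall (by norm_num)).trans (𝒜.target k)
  have hg : DifferentiableAt ℝ (ψ ∘ (𝒜.φ k).symm) x :=
    ((h.sm.loc (𝒜.mem k)).contDiffAt ((𝒜.φ k).open_target.mem_nhds (hsub hx))).differentiableAt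
      (by simp)
  have hfd : fderiv ℝ ((fun p => A (ψ p)) ∘ (𝒜.φ k).symm) x =
      A.comp (fderiv ℝ (ψ ∘ (𝒜.φ k).symm) x) :=
    (A.hasFDerivAt.comp x hg.hasFDerivAt).fderiv
  rw [hfd, ContinuousLinearMap.comp_apply] at hv
  by_contra hv0
  rcases le_total |v.2| |v.1| with hle | hle
  · have h1 : v.1 ≠ 0 := by
      intro h0
      rw [h0, abs_zero] at hle
      exact hv0 (Prod.ext h0 (abs_nonpos_iff.1 hle))
    refine hA1 (x, v.2 / v.1) ⟨hx, ?_⟩ ?_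
    · rw [mem_Icc, ← abs_le, abs_div, div_le_one (abs_pos.2 h1)]
      exact hle
    · have h2 : ((1, v.2 / v.1) : E2) = (v.1)⁻¹ • v := by
        refine Prod.ext ?_ ?_
        · change 1 = (v.1)⁻¹ * v.1
          rw [inv_mul_cancel₀ h1]
        · change v.2 / v.1 = (v.1)⁻¹ * v.2
          rw [div_eq_inv_mul]
      change A (fderiv ℝ (ψ ∘ (𝒜.φ k).symm) x ((1, v.2 / v.1) : E2)) = 0
      rw [h2, map_smul, map_smul, hv, smul_zero]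
  · have h1 : v.2 ≠ 0 := by
      intro h0
      rw [h0, abs_zero] at hle
      exact hv0 (Prod.ext (abs_nonpos_iff.1 hle) h0)
    refine hA2 (x, v.1 / v.2) ⟨hx, ?_⟩ ?_
    · rw [mem_Icc, ← abs_le, abs_div, div_le_one (abs_pos.2 h1)]
      exact hle
    · have h2 : ((v.1 / v.2, 1) : E2) = (v.2)⁻¹ • v := by
        refine Prod.ext ?_ ?_
        · change v.1 / v.2 = (v.2)⁻¹ * v.1
          rw [div_eq_inv_mul]
        · change 1 = (v.2)⁻¹ * v.2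
          rw [inv_mul_cancel₀ h1]
      change A (fderiv ℝ (ψ ∘ (𝒜.φ k).symm) x ((v.1 / v.2, 1) : E2)) = 0
      rw [h2, map_smul, map_smul, hv, smul_zero]

end P205F
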