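import Vale.Agent.Lib.P205I.IA2
import Vale.Agent.Lib.P205I.IGDefs
import Vale.Agent.Lib.P205F.MD1

/-!
# P205I module IG1b: generic `A`, nondegenerate cross-caps (see the docstring of IG1)
-/

noncomputable section

namespace P205F

open scoped Manifold ContDiff Topology RealInnerProductSpace
open Set

variable {M : Type} [TopologicalSpace M] [ChartedSpace E2 M] [IsManifold 𝓘(ℝ, E2) ∞ M]
  {m : ℕ} {ψ : M → (Fin m → ℝ)}

private theorem IG1b_surj {V W : Type*} [NormedAddCommGroup V] [NormedSpace ℝ V]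
    [NormedAddCommGroup W] [NormedSpace ℝ W] {d : V} (hd : d ≠ 0) (w : W) :
    ∃ A : V →L[ℝ] W, A d = w := by
  obtain ⟨f, hf⟩ := SeparatingDual.exists_eq_one (R := ℝ) hd
  exact ⟨f.smulRight w, by rw [ContinuousLinearMap.smulRight_apply, hf, one_smul]⟩

omit [IsManifold 𝓘(ℝ, E2) ∞ M] [ChartedSpace E2 M] in
private theorem IG1b_fd (φ : OpenPartialHomeomorph M E2) {x : E2}
    (hψ : DifferentiableAt ℝ (ψ ∘ φ.symm) x) (A : Lam m) (v : E2) :
    fderiv ℝ ((fun p => A (ψ p)) ∘ φ.symm) x v = A (fderiv ℝ (ψ ∘ φ.symm) x v) := by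
  have h1 : HasFDerivAt ((fun p => A (ψ p)) ∘ φ.symm) (A.comp (fderiv ℝ (ψ ∘ φ.symm) x)) x :=
    A.hasFDerivAt.comp x hψ.hasFDerivAt
  rw [h1.fderiv]
  rfl

private theorem IG1b_der {F : E2 → V4} {x : E2}
    (h : DifferentiableAt ℝ (fderiv ℝ F) x) (v : E2) (a : V4) (u w : E2) :
    fderiv ℝ (fun z : E2 × E2 => fderiv ℝ F z.1 z.2 - a) (x, v) (u, w) =
      fderiv ℝ (fun y => fderiv ℝ F y v) x u + fderiv ℝ F x w := by
  have h1 : HasFDerivAt (fun z : E2 × E2 => fderiv ℝ F z.1)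
      ((fderiv ℝ (fderiv ℝ F) x).comp (ContinuousLinearMap.fst ℝ E2 E2)) (x, v) :=
    HasFDerivAt.comp (x, v) (f := fun z : E2 × E2 => z.1) (g := fderiv ℝ F)
      h.hasFDerivAt hasFDerivAt_fst
  have h2 : HasFDerivAt (fun z : E2 × E2 => z.2) (ContinuousLinearMap.snd ℝ E2 E2) (x, v) :=
    hasFDerivAt_snd
  have h3 := (h1.clm_apply h2).sub_const a
  have h4 : HasFDerivAt (fun y => fderiv ℝ F y v) ((fderiv ℝ (fderiv ℝ F) x).flip v) x := by
    have := h.hasFDerivAt.clm_apply (hasFDerivAt_const v x)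
    refine this.congr_fderiv ?_
    rw [ContinuousLinearMap.comp_zero, zero_add]
  rw [h3.fderiv, h4.fderiv]
  simp [add_comm]

theorem IG1_cc (h : PsiOK ψ) (𝒜 : FinAtlas M) (k : Fin 𝒜.n) (j : ℕ) :
    ∃ T : Set (Lam m), IsOpen T ∧ Dense T ∧ ∀ A ∈ T, ∀ x ∈ Metric.closedBall (0 : E2) 2, ∀ v,
      1 ≤ ((j : ℝ) + 1) * ‖v‖ → ‖v‖ ≤ (j : ℝ) + 1 →
      fderiv ℝ ((fun p => A (ψ p)) ∘ (𝒜.φ k).symm) x v = a4 →
      ∀ u w, fderiv ℝ (fun y => fderiv ℝ ((fun p => A (ψ p)) ∘ (𝒜.φ k).symm) y v) x u +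
        fderiv ℝ ((fun p => A (ψ p)) ∘ (𝒜.φ k).symm) x w = 0 → u = 0 ∧ w = 0 := by
  have hsm : ContDiffOn ℝ ∞ (ψ ∘ (𝒜.φ k).symm) (𝒜.φ k).target := h.sm.loc (𝒜.mem k)
  have hot : IsOpen (𝒜.φ k).target := (𝒜.φ k).open_target
  have hcb : Metric.closedBall (0 : E2) 2 ⊆ (𝒜.φ k).target :=
    (Metric.closedBall_subset_closedBall (by norm_num)).trans (𝒜.target k)
  have hfd : ContDiffOn ℝ ∞ (fderiv ℝ (ψ ∘ (𝒜.φ k).symm)) (𝒜.φ k).target :=
    hsm.fderiv_of_isOpen hot (by simp)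
  set U : Set (E2 × E2) := (𝒜.φ k).target ×ˢ univ with hU
  set K : Set (E2 × E2) := Metric.closedBall (0 : E2) 2 ×ˢ
    {v : E2 | 1 ≤ ((j : ℝ) + 1) * ‖v‖ ∧ ‖v‖ ≤ (j : ℝ) + 1} with hK
  have hUo : IsOpen U := hot.prod isOpen_univ
  have hKU : K ⊆ U := fun z hz => ⟨hcb hz.1, mem_univ _⟩
  have hKc : IsCompact K := by
    refine (isCompact_closedBall 0 2).prod ?_
    refine (isCompact_closedBall (0 : E2) ((j : ℝ) + 1)).of_isClosed_subset ?_ ?_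
    · exact (isClosed_le continuous_const (continuous_const.mul continuous_norm)).inter
        (isClosed_le continuous_norm continuous_const)
    · intro v hv
      rw [mem_closedBall_zero_iff]
      exact hv.2
  set L : E2 × E2 → Lam m →L[ℝ] V4 := fun z =>
    ContinuousLinearMap.apply ℝ V4 (fderiv ℝ (ψ ∘ (𝒜.φ k).symm) z.1 z.2) with hL
  have hLs : ContDiffOn ℝ ∞ L U := by
    have h1 : ContDiffOn ℝ ∞ (fun z : E2 × E2 => fderiv ℝ (ψ ∘ (𝒜.φ k).symm) z.1 z.2) U := by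
      refine ContDiffOn.clm_apply ?_ contDiff_snd.contDiffOn
      exact hfd.comp contDiff_fst.contDiffOn fun z hz => hz.1
    have h2 : ContDiff ℝ ∞ (ContinuousLinearMap.apply ℝ V4 :
        (Fin m → ℝ) →L[ℝ] (Lam m →L[ℝ] V4)) := ContinuousLinearMap.contDiff _
    exact h2.comp_contDiffOn h1
  have hcs : ContDiffOn ℝ ∞ (fun _ : E2 × E2 => (-a4 : V4)) U := contDiffOn_const
  refine ⟨{A : Lam m | NDon (fun x => L x A + (-a4 : V4)) K},
    IA2_open hUo hKc hKU hLs hcs, IA2_main hUo hKc hKU hLs hcs ?_ ?_, ?_⟩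
  · simp [E2, V4]
  · rintro ⟨x, v⟩ ⟨hx, hv⟩ w
    have hv0 : v ≠ 0 := by
      rintro rfl
      have := hv.1
      rw [norm_zero, mul_zero] at this
      linarith
    obtain ⟨A, hA⟩ := IG1b_surj (h.inj _ (𝒜.mem k) x (hcb hx) v hv0) w
    exact ⟨A, hA⟩
  · intro A hA x hx v hv1 hv2 hxv u w huw
    have hdiff : ∀ y ∈ (𝒜.φ k).target, DifferentiableAt ℝ (ψ ∘ (𝒜.φ k).symm) y := fun y hy =>
      (hsm.contDiffAt (hot.mem_nhds hy)).differentiableAt (by simp)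
    have hev : (fun z : E2 × E2 => L z A + (-a4 : V4)) =ᶠ[𝓝 (x, v)]
        (fun z : E2 × E2 => fderiv ℝ ((fun p => A (ψ p)) ∘ (𝒜.φ k).symm) z.1 z.2 - a4) := by
      filter_upwards [hUo.mem_nhds (hKU (show (x, v) ∈ K from ⟨hx, hv1, hv2⟩))] with z hz
      rw [IG1b_fd _ (hdiff _ hz.1), sub_eq_add_neg]
      rfl
    have h0 : L (x, v) A + (-a4 : V4) = 0 := by
      rw [hev.eq_of_nhds, hxv, sub_self]
    have hinj := hA (x, v) ⟨hx, hv1, hv2⟩ h0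
    rw [hev.fderiv_eq] at hinj
    have hF : ContDiffOn ℝ ∞ ((fun p => A (ψ p)) ∘ (𝒜.φ k).symm) (𝒜.φ k).target :=
      A.contDiff.comp_contDiffOn hsm
    have hF1 : DifferentiableAt ℝ (fderiv ℝ ((fun p => A (ψ p)) ∘ (𝒜.φ k).symm)) x :=
      ((hF.fderiv_of_isOpen hot (m := ∞) (by simp)).contDiffAt
        (hot.mem_nhds (hcb hx))).differentiableAt (by simp)
    have h1 : fderiv ℝ (fun z : E2 × E2 =>
        fderiv ℝ ((fun p => A (ψ p)) ∘ (𝒜.φ k).symm) z.1 z.2 - a4) (x, v) (u, w) = 0 := by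
      rw [IG1b_der hF1, huw]
    have h2 := hinj (h1.trans (map_zero _).symm)
    exact ⟨congrArg Prod.fst h2, congrArg Prod.snd h2⟩

end P205F
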