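import Vale.Agent.Lib.P205I.IA2
import Vale.Agent.Lib.P205I.IGDefs
import Vale.Agent.Lib.P205F.MD1

/-!
# P205I module IG2: generic `A`, double points

Unknowns `(x, y) ∈ E2 × E2`, equation `A (ψ x - ψ y) = 0`, on the compact set `‖ψ x - ψ y‖ ≥ 1/(j+1)`.
-/

noncomputable section

namespace P205F

open scoped Manifold ContDiff Topology RealInnerProductSpace
open Set

variable {M : Type} [TopologicalSpace M] [ChartedSpace E2 M] [IsManifold 𝓘(ℝ, E2) ∞ M]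
  {m : ℕ} {ψ : M → (Fin m → ℝ)}

/-- evaluation at a nonzero vector is surjective -/
private theorem IG2_surj {w : Fin m → ℝ} (hw : w ≠ 0) :
    Function.Surjective (ContinuousLinearMap.apply ℝ V4 w : Lam m →L[ℝ] V4) := by
  intro y
  obtain ⟨i, hi⟩ := Function.ne_iff.1 hw
  refine ⟨((w i)⁻¹ • (ContinuousLinearMap.proj (R := ℝ) (φ := fun _ : Fin m => ℝ) i)).smulRight y, ?_⟩
  have hi' : w i ≠ 0 := hi
  simp [hi']

theorem IG2_dbl (h : PsiOK ψ) (𝒜 : FinAtlas M) (k l : Fin 𝒜.n) (j : ℕ) :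
    ∃ T : Set (Lam m), IsOpen T ∧ Dense T ∧ ∀ A ∈ T, ∀ z ∈ offD 𝒜 k l,
      1 ≤ ((j : ℝ) + 1) * ‖ψ ((𝒜.φ k).symm z.1) - ψ ((𝒜.φ l).symm z.2)‖ →
      dif 𝒜 (fun p => A (ψ p)) k l z = 0 →
      Function.Injective (fderiv ℝ (dif 𝒜 (fun p => A (ψ p)) k l) z) := by
  set U : Set (E2 × E2) := (𝒜.φ k).target ×ˢ (𝒜.φ l).target with hU
  have hUo : IsOpen U := (𝒜.φ k).open_target.prod (𝒜.φ l).open_target
  set w : E2 × E2 → (Fin m → ℝ) := fun z => ψ ((𝒜.φ k).symm z.1) - ψ ((𝒜.φ l).symm z.2) with hw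
  have hws : ContDiffOn ℝ ∞ w U := by
    have h1 : ContDiffOn ℝ ∞ (ψ ∘ (𝒜.φ k).symm) (𝒜.φ k).target := h.sm.loc (𝒜.mem k)
    have h2 : ContDiffOn ℝ ∞ (ψ ∘ (𝒜.φ l).symm) (𝒜.φ l).target := h.sm.loc (𝒜.mem l)
    have h3 : ContDiffOn ℝ ∞ (fun z : E2 × E2 => (ψ ∘ (𝒜.φ k).symm) z.1) U :=
      h1.comp contDiff_fst.contDiffOn fun z hz => hz.1
    have h4 : ContDiffOn ℝ ∞ (fun z : E2 × E2 => (ψ ∘ (𝒜.φ l).symm) z.2) U :=
      h2.comp contDiff_snd.contDiffOn fun z hz => hz.2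
    exact h3.sub h4
  set B : Set (E2 × E2) := Metric.closedBall (0 : E2) 2 ×ˢ Metric.closedBall (0 : E2) 2 with hB
  have hBU : B ⊆ U := by
    intro z hz
    exact ⟨𝒜.target k (Metric.closedBall_subset_closedBall (by norm_num) hz.1),
      𝒜.target l (Metric.closedBall_subset_closedBall (by norm_num) hz.2)⟩
  have hBc : IsCompact B := (isCompact_closedBall _ _).prod (isCompact_closedBall _ _)
  set K : Set (E2 × E2) := B ∩ (fun z => ((j : ℝ) + 1) * ‖w z‖) ⁻¹' Ici 1 with hK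
  have hKB : K ⊆ B := inter_subset_left
  have hKc : IsCompact K := by
    refine hBc.of_isClosed_subset ?_ hKB
    refine ContinuousOn.preimage_isClosed_of_isClosed ?_ hBc.isClosed isClosed_Ici
    exact continuousOn_const.mul (hws.continuousOn.mono hBU).norm
  have hKU : K ⊆ U := hKB.trans hBU
  set L : E2 × E2 → Lam m →L[ℝ] V4 := fun z => ContinuousLinearMap.apply ℝ V4 (w z) with hL
  have hLs : ContDiffOn ℝ ∞ L U := by
    rw [contDiffOn_clm_apply]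
    intro A
    exact A.contDiff.comp_contDiffOn hws
  have hc : ContDiffOn ℝ ∞ (fun _ : E2 × E2 => (0 : V4)) U := contDiffOn_const
  have hd : Module.finrank ℝ (E2 × E2) = Module.finrank ℝ V4 := by
    simp
  have hs : ∀ z ∈ K, Function.Surjective (L z) := by
    intro z hz
    apply IG2_surj
    intro h0
    have h1 : (1 : ℝ) ≤ ((j : ℝ) + 1) * ‖w z‖ := hz.2
    rw [h0, norm_zero, mul_zero] at h1
    linarith
  refine ⟨_, IA2_open hUo hKc hKU hLs hc, IA2_main hUo hKc hKU hLs hc hd hs, ?_⟩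
  intro A hA z hz hz1 hz2
  have he : dif 𝒜 (fun p => A (ψ p)) k l = fun z => L z A + (0 : V4) := by
    funext y
    have e : L y A = A (w y) := rfl
    rw [e, add_zero, hw, map_sub]
    rfl
  rw [he] at hz2 ⊢
  exact hA z ⟨⟨hz.1, hz.2.1⟩, hz1⟩ hz2

end P205F
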