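import Vale.Agent.Lib.P205I.IGDefs

/-!
# P205I module IG3a: linear algebra of the fold condition

`D : E2 × E2 → V4` linear with `D k = 0`, `k ≠ 0`; `Q : E2 × E2 → V4` linear (`Q u = D_u (D_k Ψ)`).  Suppose the map
`(u, s, κ) ↦ (D u - s a4, Q u + D κ)` is injective on `(E2 × E2) × ℝ × H` where `H` is a complement of `ℝ k`
(hyperplane: one coordinate zero).  Then its kernel on the whole space is `ℝ (0, 0, k)`, so: the kernel of `D` is `ℝ k`
(if `D u = 0` consider `(0, 0, u)`); `a4` is not in the image of `D` (otherwise, the image having codimension one, there is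
`(c, r) ≠ 0` with `Q (c k + r u) ∈ im D`); `Q k` is not in the image of `D` (consider `(k, 0, -u)`).
-/

noncomputable section

namespace P205F

open scoped ContDiff Topology RealInnerProductSpace
open Set

theorem IG3a_alg (D Q : E2 × E2 →L[ℝ] V4) {k : E2 × E2} (hk : k ≠ 0) (hD : D k = 0)
    (H : Submodule ℝ (E2 × E2)) (hH : ∀ u : E2 × E2, ∃ c : ℝ, u - c • k ∈ H)
    (h : ∀ (u : E2 × E2) (s : ℝ) (κ : E2 × E2), κ ∈ H → D u = s • a4 → Q u + D κ = 0 →
      u = 0 ∧ s = 0 ∧ κ = 0) :
    (∀ u, D u = 0 → ∃ c : ℝ, u = c • k) ∧ (∀ (u : E2 × E2) (s : ℝ), D u = s • a4 → s = 0) ∧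
      ¬ ∃ u, Q k = D u := by
  have h1 : ∀ u, D u = 0 → ∃ c : ℝ, u = c • k := by
    intro u hu
    obtain ⟨c, hc⟩ := hH u
    have := (h 0 0 (u - c • k) hc (by simp) (by simp [hu, hD])).2.2
    exact ⟨c, sub_eq_zero.mp this⟩
  refine ⟨h1, ?_, ?_⟩
  · intro u s hu
    by_contra hs
    set R : Submodule ℝ V4 := LinearMap.range (D : (E2 × E2) →ₗ[ℝ] V4) with hR
    have hker : LinearMap.ker (D : (E2 × E2) →ₗ[ℝ] V4) ≤ Submodule.span ℝ {k} := by
      intro v hv
      obtain ⟨c, hc⟩ := h1 v (by simpa using hv)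
      rw [hc]
      exact Submodule.smul_mem _ _ (Submodule.mem_span_singleton_self k)
    have hk1 : Module.finrank ℝ (LinearMap.ker (D : (E2 × E2) →ₗ[ℝ] V4)) ≤ 1 :=
      (Submodule.finrank_mono hker).trans (finrank_span_singleton hk).le
    have hrn := LinearMap.finrank_range_add_finrank_ker (D : (E2 × E2) →ₗ[ℝ] V4)
    rw [← hR] at hrn
    have hd4 : Module.finrank ℝ (E2 × E2) = 4 := by
      simp [E2]
    have hq := Submodule.finrank_quotient_add_finrank R
    have hv4 : Module.finrank ℝ V4 = 4 := by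
      simp [V4]
    have hdep : ¬ LinearIndependent ℝ ![R.mkQ (Q k), R.mkQ (Q u)] := by
      intro hli
      have := hli.fintype_card_le_finrank
      simp only [Fintype.card_fin] at this
      omega
    rw [LinearIndependent.pair_iff] at hdep
    push Not at hdep
    obtain ⟨c, r, hcr, hne⟩ := hdep
    have hmem : Q (c • k + r • u) ∈ R := by
      rw [← Submodule.Quotient.mk_eq_zero R, ← Submodule.mkQ_apply]
      simpa using hcr
    obtain ⟨v, hv⟩ := hmem
    obtain ⟨c', hc'⟩ := hH (-v)
    have hv' : D v = Q (c • k + r • u) := hv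
    have h3 := h (c • k + r • u) (r * s) (-v - c' • k) hc'
      (by rw [map_add, map_smul, map_smul, hD, hu, smul_zero, zero_add, smul_smul])
      (by rw [map_sub, map_neg, map_smul, hD, hv']; simp)
    obtain ⟨ha, hb, -⟩ := h3
    have hr : r = 0 := by
      rcases mul_eq_zero.mp hb with h | h
      · exact h
      · exact absurd h hs
    rw [hr, zero_smul, add_zero] at ha
    rcases smul_eq_zero.mp ha with h | h
    · exact hne h hr
    · exact hk h
  · rintro ⟨u, hu⟩
    obtain ⟨c, hc⟩ := hH (-u)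
    have := (h k 0 (-u - c • k) hc (by simp [hD]) (by
      rw [map_sub, map_neg, map_smul, hD, hu]; simp)).1
    exact hk this

end P205F
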