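import Vale.Agent.Lib.P205I.IA2
import Vale.Agent.Lib.P205I.IG3a
import Vale.Agent.Lib.P205F.MD1

/-!
# P205I module IG3: generic `A`, folds

Unknowns `(z, t, κ) ∈ (E2 × E2) × ℝ × ℝ³`, direction `k = (v, w)` with one of its four coordinates equal to `1` and the
others `κ ∈ [-1, 1]³` (four cases; every nonzero `k` is proportional to one of these), equations
`(A (ψ x - ψ y) - t a4, A (Dψ x v - Dψ y w)) = 0` in `V4 × V4`: dimension `8 = 8`, surjective by `PsiOK.sep`;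
compact set `‖ψ x - ψ y‖ ≥ 1/(j+1)`, `|t| ≤ j+1`.  If the derivative of `dif` at `z` is not injective there is `k`; then
`IG3a_alg`.
-/

noncomputable section

namespace P205F

open scoped Manifold ContDiff Topology RealInnerProductSpace
open Set

/-- normalisation of a direction: the affine hyperplane `ℓ = 1` -/
structure IG3_Nm (b : E2 × E2) (N : (Fin 3 → ℝ) →L[ℝ] E2 × E2) (ℓ : E2 × E2 →L[ℝ] ℝ) : Prop where
  one : ∀ κ, ℓ (b + N κ) = 1
  sur : ∀ u, ℓ u = 0 → ∃ κ, N κ = u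

section Abs

variable {m : ℕ}

/-- the linear part of the equations -/
def IG3_L (P : E2 × E2 → (Fin m → ℝ)) (b : E2 × E2) (N : (Fin 3 → ℝ) →L[ℝ] E2 × E2)
    (x : (E2 × E2) × ℝ × (Fin 3 → ℝ)) : Lam m →L[ℝ] V4 × V4 :=
  (ContinuousLinearMap.inl ℝ V4 V4).comp (ContinuousLinearMap.apply ℝ V4 (P x.1)) +
    (ContinuousLinearMap.inr ℝ V4 V4).comp
      (ContinuousLinearMap.apply ℝ V4 (fderiv ℝ P x.1 (b + N x.2.2)))

/-- the constant part of the equations -/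
def IG3_c (x : (E2 × E2) × ℝ × (Fin 3 → ℝ)) : V4 × V4 := (-(x.2.1 • a4), 0)

theorem IG3_L_apply (P : E2 × E2 → (Fin m → ℝ)) (b : E2 × E2) (N : (Fin 3 → ℝ) →L[ℝ] E2 × E2)
    (x : (E2 × E2) × ℝ × (Fin 3 → ℝ)) (A : Lam m) :
    IG3_L P b N x A = (A (P x.1), A (fderiv ℝ P x.1 (b + N x.2.2))) := by
  simp [IG3_L]

theorem IG3_ext {p q : Fin m → ℝ} (h : LinearIndependent ℝ ![p, q]) (a b : V4) :
    ∃ A : Lam m, A p = a ∧ A q = b := by
  have hinj : LinearMap.ker (Fintype.linearCombination ℝ ![p, q]) = ⊥ := by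
    rw [LinearMap.ker_eq_bot]
    exact linearIndependent_iff_injective_fintypeLinearCombination.1 h
  obtain ⟨g, hg⟩ := LinearMap.exists_leftInverse_of_injective _ hinj
  have h0 : g p = Pi.single 0 1 := by
    have := LinearMap.congr_fun hg (Pi.single 0 1)
    simpa [Fintype.linearCombination_apply_single] using this
  have h1 : g q = Pi.single 1 1 := by
    have := LinearMap.congr_fun hg (Pi.single 1 1)
    simpa [Fintype.linearCombination_apply_single] using this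
  refine ⟨LinearMap.toContinuousLinearMap ((Fintype.linearCombination ℝ ![a, b]) ∘ₗ g), ?_, ?_⟩
  · simp [h0, Fintype.linearCombination_apply_single]
  · simp [h1, Fintype.linearCombination_apply_single]

set_option maxSynthPendingDepth 3 in
theorem IG3_ap_cd : ContDiff ℝ ∞ (fun v : Fin m → ℝ =>
    (ContinuousLinearMap.apply ℝ V4 v : Lam m →L[ℝ] V4)) :=
  ContinuousLinearMap.contDiff
    (ContinuousLinearMap.apply ℝ V4 : (Fin m → ℝ) →L[ℝ] (Lam m →L[ℝ] V4))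

theorem IG3_L_cd {Uz : Set (E2 × E2)} (hU : IsOpen Uz) {P : E2 × E2 → (Fin m → ℝ)}
    (hP : ContDiffOn ℝ ∞ P Uz) (b : E2 × E2) (N : (Fin 3 → ℝ) →L[ℝ] E2 × E2) :
    ContDiffOn ℝ ∞ (IG3_L P b N) (Uz ×ˢ univ) := by
  have h1 : ContDiffOn ℝ ∞ (fun x : (E2 × E2) × ℝ × (Fin 3 → ℝ) => P x.1) (Uz ×ˢ univ) :=
    hP.comp contDiff_fst.contDiffOn (fun x hx => hx.1)
  have h2 : ContDiffOn ℝ ∞ (fun x : (E2 × E2) × ℝ × (Fin 3 → ℝ) => fderiv ℝ P x.1)
      (Uz ×ˢ univ) :=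
    (hP.fderiv_of_isOpen hU (m := ∞) (by simp)).comp contDiff_fst.contDiffOn (fun x hx => hx.1)
  have h3 : ContDiffOn ℝ ∞ (fun x : (E2 × E2) × ℝ × (Fin 3 → ℝ) => b + N x.2.2)
      (Uz ×ˢ univ) :=
    (contDiff_const.add (N.contDiff.comp (contDiff_snd.comp contDiff_snd))).contDiffOn
  have h4 := h2.clm_apply h3
  unfold IG3_L
  refine ContDiffOn.add ?_ ?_
  · refine contDiffOn_const.clm_comp ?_
    exact IG3_ap_cd.comp_contDiffOn h1
  · refine contDiffOn_const.clm_comp ?_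
    exact IG3_ap_cd.comp_contDiffOn h4

theorem IG3_c_cd (S : Set ((E2 × E2) × ℝ × (Fin 3 → ℝ))) : ContDiffOn ℝ ∞ IG3_c S := by
  unfold IG3_c
  exact (((contDiff_fst.comp contDiff_snd).smul contDiff_const).neg.prodMk
    contDiff_const).contDiffOn

theorem IG3_fd {Uz : Set (E2 × E2)} (hU : IsOpen Uz) {P : E2 × E2 → (Fin m → ℝ)}
    (hP : ContDiffOn ℝ ∞ P Uz) (b : E2 × E2) (N : (Fin 3 → ℝ) →L[ℝ] E2 × E2) (A : Lam m)
    {z : E2 × E2} (hz : z ∈ Uz) (t : ℝ) (κ : Fin 3 → ℝ) (u : E2 × E2) (s : ℝ) (η : Fin 3 → ℝ) :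
    fderiv ℝ (fun x => IG3_L P b N x A + IG3_c x) (z, t, κ) (u, s, η) =
      (A (fderiv ℝ P z u) - s • a4,
        A (fderiv ℝ (fderiv ℝ P) z u (b + N κ)) + A (fderiv ℝ P z (N η))) := by
  have hPz : HasFDerivAt P (fderiv ℝ P z) z :=
    ((hP.contDiffAt (hU.mem_nhds hz)).differentiableAt (by simp)).hasFDerivAt
  have hPz2 : HasFDerivAt (fderiv ℝ P) (fderiv ℝ (fderiv ℝ P) z) z :=
    (((hP.contDiffAt (hU.mem_nhds hz)).fderiv_right (m := ∞) (by simp)).differentiableAt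
      (by simp)).hasFDerivAt
  have hf1 : HasFDerivAt (fun x : (E2 × E2) × ℝ × (Fin 3 → ℝ) => x.1)
      (ContinuousLinearMap.fst ℝ (E2 × E2) (ℝ × (Fin 3 → ℝ))) (z, t, κ) := hasFDerivAt_fst
  have hf2 : HasFDerivAt (fun x : (E2 × E2) × ℝ × (Fin 3 → ℝ) => x.2)
      (ContinuousLinearMap.snd ℝ (E2 × E2) (ℝ × (Fin 3 → ℝ))) (z, t, κ) := hasFDerivAt_snd
  have hf3 : HasFDerivAt (fun x : (E2 × E2) × ℝ × (Fin 3 → ℝ) => x.2.1)
      ((ContinuousLinearMap.fst ℝ ℝ (Fin 3 → ℝ)).comp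
        (ContinuousLinearMap.snd ℝ (E2 × E2) (ℝ × (Fin 3 → ℝ)))) (z, t, κ) :=
    HasFDerivAt.comp (z, t, κ) (g := Prod.fst) (hasFDerivAt_fst (p := (t, κ))) hf2
  have hf4 : HasFDerivAt (fun x : (E2 × E2) × ℝ × (Fin 3 → ℝ) => x.2.2)
      ((ContinuousLinearMap.snd ℝ ℝ (Fin 3 → ℝ)).comp
        (ContinuousLinearMap.snd ℝ (E2 × E2) (ℝ × (Fin 3 → ℝ)))) (z, t, κ) :=
    HasFDerivAt.comp (z, t, κ) (g := Prod.snd) (hasFDerivAt_snd (p := (t, κ))) hf2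
  have hg1 : HasFDerivAt (fun x : (E2 × E2) × ℝ × (Fin 3 → ℝ) => A (P x.1))
      (A.comp ((fderiv ℝ P z).comp (ContinuousLinearMap.fst ℝ (E2 × E2) (ℝ × (Fin 3 → ℝ)))))
      (z, t, κ) :=
    A.hasFDerivAt.comp (z, t, κ) (HasFDerivAt.comp (z, t, κ) (g := P)
      (f := fun x : (E2 × E2) × ℝ × (Fin 3 → ℝ) => x.1) hPz hf1)
  have hg2 : HasFDerivAt (fun x : (E2 × E2) × ℝ × (Fin 3 → ℝ) => fderiv ℝ P x.1)
      ((fderiv ℝ (fderiv ℝ P) z).comp
        (ContinuousLinearMap.fst ℝ (E2 × E2) (ℝ × (Fin 3 → ℝ)))) (z, t, κ) :=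
    HasFDerivAt.comp (z, t, κ) (g := fderiv ℝ P)
      (f := fun x : (E2 × E2) × ℝ × (Fin 3 → ℝ) => x.1) hPz2 hf1
  have hg3 : HasFDerivAt (fun x : (E2 × E2) × ℝ × (Fin 3 → ℝ) => b + N x.2.2)
      (N.comp ((ContinuousLinearMap.snd ℝ ℝ (Fin 3 → ℝ)).comp
        (ContinuousLinearMap.snd ℝ (E2 × E2) (ℝ × (Fin 3 → ℝ))))) (z, t, κ) :=
    (N.hasFDerivAt.comp (z, t, κ) hf4).const_add b
  have hg4 := hg2.clm_apply hg3
  have hg5 := A.hasFDerivAt.comp (z, t, κ) hg4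
  have hg6 : HasFDerivAt (fun x : (E2 × E2) × ℝ × (Fin 3 → ℝ) => x.2.1 • a4)
      (((ContinuousLinearMap.fst ℝ ℝ (Fin 3 → ℝ)).comp
        (ContinuousLinearMap.snd ℝ (E2 × E2) (ℝ × (Fin 3 → ℝ)))).smulRight a4) (z, t, κ) :=
    hf3.smul_const a4
  have hg := (hg1.sub hg6).prodMk hg5
  have he : (fun x => IG3_L P b N x A + IG3_c x) =
      (fun x : (E2 × E2) × ℝ × (Fin 3 → ℝ) => (A (P x.1) - x.2.1 • a4,
        A (fderiv ℝ P x.1 (b + N x.2.2)))) := by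
    funext x
    rw [IG3_L_apply, IG3_c]
    simp [sub_eq_add_neg]
  rw [he]
  refine (DFunLike.congr_fun (HasFDerivAt.fderiv hg) (u, s, η)).trans ?_
  simp [add_comm]

theorem IG3_core {Uz Kz : Set (E2 × E2)} (hU : IsOpen Uz) (hKc : IsCompact Kz) (hKU : Kz ⊆ Uz)
    {P : E2 × E2 → (Fin m → ℝ)} (hP : ContDiffOn ℝ ∞ P Uz) (R : ℝ)
    {b : E2 × E2} {N : (Fin 3 → ℝ) →L[ℝ] E2 × E2} {ℓ : E2 × E2 →L[ℝ] ℝ} (hN : IG3_Nm b N ℓ)
    (hsep : ∀ z ∈ Kz, ∀ v, v ≠ 0 → LinearIndependent ℝ ![P z, fderiv ℝ P z v]) :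
    ∃ T : Set (Lam m), IsOpen T ∧ Dense T ∧ ∀ A ∈ T, ∀ z ∈ Kz, ∀ t : ℝ, |t| ≤ R →
      A (P z) = t • a4 → ∀ κ : Fin 3 → ℝ, ‖κ‖ ≤ 1 → A (fderiv ℝ P z (b + N κ)) = 0 →
      FoldAt (fun y => A (P y)) z := by
  have hne : ∀ κ, b + N κ ≠ 0 := fun κ h0 => by
    have := hN.one κ
    rw [h0, map_zero] at this
    exact zero_ne_one this
  have hKc' : IsCompact (Kz ×ˢ (Metric.closedBall (0 : ℝ) R ×ˢ
      Metric.closedBall (0 : Fin 3 → ℝ) 1)) :=
    hKc.prod ((isCompact_closedBall _ _).prod (isCompact_closedBall _ _))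
  have hKU' : Kz ×ˢ (Metric.closedBall (0 : ℝ) R ×ˢ
      Metric.closedBall (0 : Fin 3 → ℝ) 1) ⊆ Uz ×ˢ univ :=
    prod_mono hKU (subset_univ _)
  have hU' : IsOpen (Uz ×ˢ (univ : Set (ℝ × (Fin 3 → ℝ)))) := hU.prod isOpen_univ
  refine ⟨{A : Lam m | NDon (fun x => IG3_L P b N x A + IG3_c x) (Kz ×ˢ (Metric.closedBall (0 : ℝ) R
      ×ˢ Metric.closedBall (0 : Fin 3 → ℝ) 1))}, ?_, ?_, ?_⟩
  · exact IA2_open hU' hKc' hKU' (IG3_L_cd hU hP b N) (IG3_c_cd _)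
  · refine IA2_main hU' hKc' hKU' (IG3_L_cd hU hP b N) (IG3_c_cd _) ?_ ?_
    · simp [Module.finrank_prod]
    · intro x hx y
      obtain ⟨A, h1, h2⟩ := IG3_ext (hsep x.1 hx.1 _ (hne x.2.2)) y.1 y.2
      exact ⟨A, by rw [IG3_L_apply, h1, h2]⟩
  · intro A hA z hz t ht h1 κ hκ h2
    have hzU := hKU hz
    have hx : ((z, t, κ) : (E2 × E2) × ℝ × (Fin 3 → ℝ)) ∈ Kz ×ˢ (Metric.closedBall (0 : ℝ) R ×ˢ
        Metric.closedBall (0 : Fin 3 → ℝ) 1) :=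
      ⟨hz, by simpa using ht, by simpa using hκ⟩
    have hinj := hA _ hx (by
      show IG3_L P b N (z, t, κ) A + IG3_c (z, t, κ) = 0
      rw [IG3_L_apply, IG3_c, h1, h2]
      simp)
    have hPz : ∀ y ∈ Uz, HasFDerivAt P (fderiv ℝ P y) y := fun y hy =>
      ((hP.contDiffAt (hU.mem_nhds hy)).differentiableAt (by simp)).hasFDerivAt
    have hPz2 : HasFDerivAt (fderiv ℝ P) (fderiv ℝ (fderiv ℝ P) z) z :=
      (((hP.contDiffAt (hU.mem_nhds hzU)).fderiv_right (m := ∞) (by simp)).differentiableAt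
        (by simp)).hasFDerivAt
    have hD : ∀ y ∈ Uz, fderiv ℝ (fun y => A (P y)) y = A.comp (fderiv ℝ P y) := fun y hy =>
      (A.hasFDerivAt.comp y (hPz y hy)).fderiv
    have hQ : fderiv ℝ (fun y => fderiv ℝ (fun y => A (P y)) y (b + N κ)) z =
        A.comp ((fderiv ℝ (fderiv ℝ P) z).flip (b + N κ)) := by
      have he : (fun y => fderiv ℝ (fun y => A (P y)) y (b + N κ)) =ᶠ[𝓝 z]
          fun y => A (fderiv ℝ P y (b + N κ)) := by
        filter_upwards [hU.mem_nhds hzU] with y hy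
        rw [hD y hy]
        rfl
      rw [he.fderiv_eq]
      have h3 : HasFDerivAt (fun y => fderiv ℝ P y (b + N κ))
          ((fderiv ℝ (fderiv ℝ P) z).flip (b + N κ)) z := by
        have := hPz2.clm_apply (hasFDerivAt_const (b + N κ) z)
        simpa using this
      exact (A.hasFDerivAt.comp z h3).fderiv
    obtain ⟨h4, h5, h6⟩ := IG3a_alg (fderiv ℝ (fun y => A (P y)) z)
      (fderiv ℝ (fun y => fderiv ℝ (fun y => A (P y)) y (b + N κ)) z) (hne κ)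
      (by rw [hD z hzU]; exact h2) (LinearMap.range (N : (Fin 3 → ℝ) →ₗ[ℝ] E2 × E2))
      (fun u => ⟨ℓ u, by
        obtain ⟨η, hη⟩ := hN.sur (u - ℓ u • (b + N κ)) (by
          rw [map_sub, map_smul, hN.one]; simp)
        exact ⟨η, hη⟩⟩)
      (fun u s κ' hκ' h7 h8 => by
        obtain ⟨η, rfl⟩ := hκ'
        rw [hD z hzU] at h7 h8
        rw [hQ] at h8
        have h9 : fderiv ℝ (fun x => IG3_L P b N x A + IG3_c x) (z, t, κ) (u, s, η) = 0 := by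
          rw [IG3_fd hU hP b N A hzU t κ u s η]
          refine Prod.ext ?_ ?_
          · exact sub_eq_zero.2 h7
          · exact h8
        have h10 := hinj (h9.trans (map_zero _).symm)
        have e1 : u = 0 := congrArg (fun x => x.1) h10
        have e2 : s = 0 := congrArg (fun x => x.2.1) h10
        have e3 : η = 0 := congrArg (fun x => x.2.2) h10
        exact ⟨e1, e2, by rw [e3]; exact map_zero N⟩)
    exact ⟨b + N κ, hne κ, by rw [hD z hzU]; exact h2, h4, h5, h6⟩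

/-- coordinates -/
def IG3_to (x : Fin 4 → ℝ) : E2 × E2 := ((x 0, x 1), (x 2, x 3))

/-- coordinates of a vector -/
def IG3_co (i : Fin 4) : E2 × E2 →L[ℝ] ℝ :=
  match i with
  | 0 => (ContinuousLinearMap.fst ℝ ℝ ℝ).comp (ContinuousLinearMap.fst ℝ E2 E2)
  | 1 => (ContinuousLinearMap.snd ℝ ℝ ℝ).comp (ContinuousLinearMap.fst ℝ E2 E2)
  | 2 => (ContinuousLinearMap.fst ℝ ℝ ℝ).comp (ContinuousLinearMap.snd ℝ E2 E2)
  | 3 => (ContinuousLinearMap.snd ℝ ℝ ℝ).comp (ContinuousLinearMap.snd ℝ E2 E2)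

theorem IG3_co_to (i : Fin 4) (x : Fin 4 → ℝ) : IG3_co i (IG3_to x) = x i := by
  fin_cases i <;> rfl

theorem IG3_to_co (u : E2 × E2) : IG3_to (fun i => IG3_co i u) = u := rfl

/-- insertion of a zero coordinate -/
def IG3_N (i : Fin 4) : (Fin 3 → ℝ) →L[ℝ] E2 × E2 :=
  LinearMap.toContinuousLinearMap
    { toFun := fun κ => IG3_to (i.insertNth (0 : ℝ) κ)
      map_add' := fun κ κ' => by
        have h : (i.insertNth (0 : ℝ) (κ + κ') : Fin 4 → ℝ) =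
            i.insertNth (0 : ℝ) κ + i.insertNth (0 : ℝ) κ' := by
          funext j
          rcases Fin.eq_self_or_eq_succAbove i j with rfl | ⟨j, rfl⟩ <;> simp
        rw [h]
        rfl
      map_smul' := fun c κ => by
        have h : (i.insertNth (0 : ℝ) (c • κ) : Fin 4 → ℝ) =
            c • (i.insertNth (0 : ℝ) κ : Fin 4 → ℝ) := by
          funext j
          rcases Fin.eq_self_or_eq_succAbove i j with rfl | ⟨j, rfl⟩ <;> simp
        rw [h]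
        rfl }

theorem IG3_N_apply (i : Fin 4) (κ : Fin 3 → ℝ) :
    IG3_N i κ = IG3_to (i.insertNth (0 : ℝ) κ) := rfl

theorem IG3_b_add (i : Fin 4) (κ : Fin 3 → ℝ) :
    IG3_to (Pi.single i 1) + IG3_N i κ = IG3_to (i.insertNth (1 : ℝ) κ) := by
  rw [IG3_N_apply]
  have h : (i.insertNth (1 : ℝ) κ : Fin 4 → ℝ) = Pi.single i 1 + i.insertNth (0 : ℝ) κ := by
    funext j
    rcases Fin.eq_self_or_eq_succAbove i j with rfl | ⟨j, rfl⟩ <;> simp
  rw [h]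
  rfl

theorem IG3_nm (i : Fin 4) : IG3_Nm (IG3_to (Pi.single i 1)) (IG3_N i) (IG3_co i) where
  one κ := by rw [IG3_b_add, IG3_co_to]; simp
  sur u hu := by
    refine ⟨fun j => IG3_co (i.succAbove j) u, ?_⟩
    rw [IG3_N_apply]
    conv_rhs => rw [← IG3_to_co u]
    congr 1
    funext j
    rcases Fin.eq_self_or_eq_succAbove i j with rfl | ⟨j, rfl⟩
    · simp [hu]
    · simp

theorem IG3_norm (u : E2 × E2) (hu : u ≠ 0) : ∃ i : Fin 4, ∃ c : ℝ, ∃ κ : Fin 3 → ℝ, ‖κ‖ ≤ 1 ∧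
    IG3_to (Pi.single i 1) + IG3_N i κ = c • u := by
  obtain ⟨i, hi⟩ := Finite.exists_max (fun i => |IG3_co i u|)
  have hi0 : IG3_co i u ≠ 0 := by
    intro h0
    apply hu
    rw [← IG3_to_co u]
    have : (fun i => IG3_co i u) = 0 := by
      funext j
      have := hi j
      rw [h0, abs_zero] at this
      exact abs_nonpos_iff.1 this
    rw [this]
    rfl
  refine ⟨i, (IG3_co i u)⁻¹, fun j => (IG3_co i u)⁻¹ * IG3_co (i.succAbove j) u, ?_, ?_⟩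
  · rw [pi_norm_le_iff_of_nonneg zero_le_one]
    intro j
    rw [Real.norm_eq_abs, abs_mul, abs_inv, inv_mul_le_iff₀ (abs_pos.2 hi0), mul_one]
    exact hi _
  · rw [IG3_b_add]
    conv_rhs => rw [← IG3_to_co u]
    have h : (i.insertNth (1 : ℝ) (fun j => (IG3_co i u)⁻¹ * IG3_co (i.succAbove j) u) :
        Fin 4 → ℝ) = (IG3_co i u)⁻¹ • (fun i => IG3_co i u) := by
      funext j
      rcases Fin.eq_self_or_eq_succAbove i j with rfl | ⟨j, rfl⟩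
      · simp [hi0]
      · simp
    rw [h]
    rfl

theorem IG3_all {Uz Kz : Set (E2 × E2)} (hU : IsOpen Uz) (hKc : IsCompact Kz) (hKU : Kz ⊆ Uz)
    {P : E2 × E2 → (Fin m → ℝ)} (hP : ContDiffOn ℝ ∞ P Uz) (R : ℝ)
    (hsep : ∀ z ∈ Kz, ∀ v, v ≠ 0 → LinearIndependent ℝ ![P z, fderiv ℝ P z v]) :
    ∃ T : Set (Lam m), IsOpen T ∧ Dense T ∧ ∀ A ∈ T, ∀ z ∈ Kz, ∀ t : ℝ, |t| ≤ R →
      A (P z) = t • a4 → Function.Injective (fderiv ℝ (fun y => A (P y)) z) ∨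
        FoldAt (fun y => A (P y)) z := by
  choose T hT1 hT2 hT3 using fun i : Fin 4 => IG3_core hU hKc hKU hP R (IG3_nm i) hsep
  refine ⟨⋂ i, T i, isOpen_iInter_of_finite hT1, ?_, ?_⟩
  · exact dense_iInter_of_isOpen hT1 hT2
  · intro A hA z hz t ht h1
    by_cases hinj : Function.Injective (fderiv ℝ (fun y => A (P y)) z)
    · exact Or.inl hinj
    · right
      rw [injective_iff_map_eq_zero] at hinj
      push Not at hinj
      obtain ⟨u, hu, hu0⟩ := hinj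
      obtain ⟨i, c, κ, hκ, he⟩ := IG3_norm u hu0
      refine hT3 i A (mem_iInter.1 hA i) z hz t ht h1 κ hκ ?_
      have hPz : HasFDerivAt P (fderiv ℝ P z) z :=
        ((hP.contDiffAt (hU.mem_nhds (hKU hz))).differentiableAt (by simp)).hasFDerivAt
      have hD : fderiv ℝ (fun y => A (P y)) z = A.comp (fderiv ℝ P z) :=
        (A.hasFDerivAt.comp z hPz).fderiv
      rw [hD] at hu
      have hu' : A (fderiv ℝ P z u) = 0 := hu
      rw [he, map_smul, map_smul, hu', smul_zero]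

end Abs

variable {M : Type} [TopologicalSpace M] [ChartedSpace E2 M] [IsManifold 𝓘(ℝ, E2) ∞ M]
  {m : ℕ} {ψ : M → (Fin m → ℝ)}

theorem IG3_fold (h : PsiOK ψ) (𝒜 : FinAtlas M) (k l : Fin 𝒜.n) (j : ℕ) :
    ∃ T : Set (Lam m), IsOpen T ∧ Dense T ∧ ∀ A ∈ T, ∀ z ∈ offD 𝒜 k l,
      1 ≤ ((j : ℝ) + 1) * ‖ψ ((𝒜.φ k).symm z.1) - ψ ((𝒜.φ l).symm z.2)‖ → ∀ t : ℝ,
      |t| ≤ (j : ℝ) + 1 → dif 𝒜 (fun p => A (ψ p)) k l z = t • a4 →
      Function.Injective (fderiv ℝ (dif 𝒜 (fun p => A (ψ p)) k l) z) ∨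
        FoldAt (dif 𝒜 (fun p => A (ψ p)) k l) z := by
  set P : E2 × E2 → (Fin m → ℝ) := fun z =>
    (ψ ∘ (𝒜.φ k).symm) z.1 - (ψ ∘ (𝒜.φ l).symm) z.2 with hPdef
  have hk := h.sm.loc (𝒜.mem k)
  have hl := h.sm.loc (𝒜.mem l)
  have hUo : IsOpen ((𝒜.φ k).target ×ˢ (𝒜.φ l).target) :=
    (𝒜.φ k).open_target.prod (𝒜.φ l).open_target
  have hP : ContDiffOn ℝ ∞ P ((𝒜.φ k).target ×ˢ (𝒜.φ l).target) :=
    (hk.comp contDiff_fst.contDiffOn (fun x hx => hx.1)).sub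
      (hl.comp contDiff_snd.contDiffOn (fun x hx => hx.2))
  have hsub : ∀ i, Metric.closedBall (0 : E2) 2 ⊆ (𝒜.φ i).target := fun i =>
    (Metric.closedBall_subset_closedBall (by norm_num)).trans (𝒜.target i)
  have hBU : Metric.closedBall (0 : E2) 2 ×ˢ Metric.closedBall (0 : E2) 2 ⊆
      (𝒜.φ k).target ×ˢ (𝒜.φ l).target := prod_mono (hsub k) (hsub l)
  have hKcl : IsClosed ((Metric.closedBall (0 : E2) 2 ×ˢ Metric.closedBall (0 : E2) 2) ∩
      (fun z => ((j : ℝ) + 1) * ‖P z‖) ⁻¹' Ici 1) := by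
    refine ContinuousOn.preimage_isClosed_of_isClosed ?_
      (Metric.isClosed_closedBall.prod Metric.isClosed_closedBall) isClosed_Ici
    exact continuousOn_const.mul (hP.continuousOn.mono hBU).norm
  have hKc : IsCompact ((Metric.closedBall (0 : E2) 2 ×ˢ Metric.closedBall (0 : E2) 2) ∩
      (fun z => ((j : ℝ) + 1) * ‖P z‖) ⁻¹' Ici 1) :=
    ((isCompact_closedBall _ _).prod (isCompact_closedBall _ _)).of_isClosed_subset hKcl
      inter_subset_left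
  obtain ⟨T, hT1, hT2, hT3⟩ := IG3_all hUo hKc (inter_subset_left.trans hBU) hP ((j : ℝ) + 1)
    (fun z hz v hv => by
      have hz1 := hBU hz.1
      have hd1 : HasFDerivAt (ψ ∘ (𝒜.φ k).symm) (fderiv ℝ (ψ ∘ (𝒜.φ k).symm) z.1) z.1 :=
        ((hk.contDiffAt ((𝒜.φ k).open_target.mem_nhds hz1.1)).differentiableAt
          (by simp)).hasFDerivAt
      have hd2 : HasFDerivAt (ψ ∘ (𝒜.φ l).symm) (fderiv ℝ (ψ ∘ (𝒜.φ l).symm) z.2) z.2 :=
        ((hl.contDiffAt ((𝒜.φ l).open_target.mem_nhds hz1.2)).differentiableAt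
          (by simp)).hasFDerivAt
      have hf1 : HasFDerivAt (fun z : E2 × E2 => (ψ ∘ (𝒜.φ k).symm) z.1)
          ((fderiv ℝ (ψ ∘ (𝒜.φ k).symm) z.1).comp (ContinuousLinearMap.fst ℝ E2 E2)) z :=
        HasFDerivAt.comp z (g := ψ ∘ (𝒜.φ k).symm) (f := fun z : E2 × E2 => z.1) hd1
          hasFDerivAt_fst
      have hf2 : HasFDerivAt (fun z : E2 × E2 => (ψ ∘ (𝒜.φ l).symm) z.2)
          ((fderiv ℝ (ψ ∘ (𝒜.φ l).symm) z.2).comp (ContinuousLinearMap.snd ℝ E2 E2)) z :=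
        HasFDerivAt.comp z (g := ψ ∘ (𝒜.φ l).symm) (f := fun z : E2 × E2 => z.2) hd2
          hasFDerivAt_snd
      have hf := (hf1.sub hf2).fderiv
      have hPne : P z ≠ 0 := by
        intro h0
        have := hz.2
        rw [mem_preimage, h0, norm_zero, mul_zero, mem_Ici] at this
        exact absurd this (by norm_num)
      have hne : (𝒜.φ k).symm z.1 ≠ (𝒜.φ l).symm z.2 := by
        intro h0
        apply hPne
        show ψ ((𝒜.φ k).symm z.1) - ψ ((𝒜.φ l).symm z.2) = 0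
        rw [h0, sub_self]
      have hs := h.sep _ (𝒜.mem k) _ (𝒜.mem l) z.1 hz1.1 z.2 hz1.2 hne v.1 v.2
        (fun hh => hv (Prod.ext hh.1 hh.2))
      have e : fderiv ℝ P z v = fderiv ℝ (ψ ∘ (𝒜.φ k).symm) z.1 v.1 -
          fderiv ℝ (ψ ∘ (𝒜.φ l).symm) z.2 v.2 := DFunLike.congr_fun hf v
      rw [e]
      exact hs)
  refine ⟨T, hT1, hT2, fun A hA z hz hj t ht h1 => ?_⟩
  have he : dif 𝒜 (fun p => A (ψ p)) k l = fun y => A (P y) := by
    funext y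
    exact (map_sub A _ _).symm
  rw [he] at h1 ⊢
  exact hT3 A hA z ⟨⟨hz.1, hz.2.1⟩, hj⟩ t ht h1

end P205F
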