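import Vale.Agent.Lib.P205I.IJ1
import Vale.Agent.Lib.P205I.IGDefs
import Vale.Agent.Lib.P205F.MD1

/-!
# P205I module IJ2: the map `ψ`

Compose the smooth embedding of Mathlib (`exists_embedding_euclidean_of_compact`) with the cubic map; the derivative of
`e ∘ φ.symm` is injective for every smooth chart (chain rules of MD1, or `mfderiv`).
-/

noncomputable section

namespace P205F

open scoped Manifold ContDiff Topology RealInnerProductSpace
open Set

variable {M : Type} [TopologicalSpace M] [ChartedSpace E2 M] [IsManifold 𝓘(ℝ, E2) ∞ M] [T2Space M]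
  [CompactSpace M]

omit [IsManifold 𝓘(ℝ, E2) ∞ M] [T2Space M] [CompactSpace M] in
/-- the manifold derivative is the derivative in the preferred chart -/
theorem IJ2_mfderiv {n : ℕ} {e : M → EuclideanSpace ℝ (Fin n)} (he : Sm e) (p : M) :
    (mfderiv 𝓘(ℝ, E2) 𝓘(ℝ, EuclideanSpace ℝ (Fin n)) e p : E2 → EuclideanSpace ℝ (Fin n)) =
      dP e p := by
  have hd : MDifferentiableAt 𝓘(ℝ, E2) 𝓘(ℝ, EuclideanSpace ℝ (Fin n)) e p :=
    (he p).mdifferentiableAt (by simp)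
  rw [hd.mfderiv]
  simp only [writtenInExtChartAt, modelWithCornersSelf_coe, range_id, fderivWithin_univ]
  rfl

omit [T2Space M] [CompactSpace M] in
theorem IJ2_inj {n : ℕ} {e : M → EuclideanSpace ℝ (Fin n)} (he : Sm e)
    (hi : ∀ p : M, Function.Injective
      (mfderiv 𝓘(ℝ, E2) 𝓘(ℝ, EuclideanSpace ℝ (Fin n)) e p)) {φ : OpenPartialHomeomorph M E2}
    (hφ : φ ∈ ATL M) {x : E2} (hx : x ∈ φ.target) (v : E2)
    (hv : fderiv ℝ (e ∘ φ.symm) x v = 0) : v = 0 := by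
  have hd : DifferentiableAt ℝ (e ∘ φ.symm) x :=
    ((he.loc hφ).contDiffAt (φ.open_target.mem_nhds hx)).differentiableAt (by simp)
  rw [← dP_comp_TTi hφ hx hd, ContinuousLinearMap.comp_apply] at hv
  have h1 : Function.Injective (dP e (φ.symm x)) := by
    rw [← IJ2_mfderiv he]
    exact hi _
  have h2 : TTi φ x v = 0 := h1 (hv.trans (map_zero _).symm)
  have h3 : TT φ (φ.symm x) (TTi φ x v) = v := by
    rw [← ContinuousLinearMap.comp_apply, TT_comp_TTi hφ hx]; rfl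
  rw [← h3, h2, map_zero]

omit [T2Space M] [CompactSpace M] in
theorem IJ2_chain {n m : ℕ} {e : M → EuclideanSpace ℝ (Fin n)} (he : Sm e)
    {P : EuclideanSpace ℝ (Fin n) → (Fin m → ℝ)} (hP : ContDiff ℝ ∞ P)
    {φ : OpenPartialHomeomorph M E2}
    (hφ : φ ∈ ATL M) {x : E2} (hx : x ∈ φ.target) (v : E2) :
    fderiv ℝ ((P ∘ e) ∘ φ.symm) x v =
      fderiv ℝ P (e (φ.symm x)) (fderiv ℝ (e ∘ φ.symm) x v) := by
  have hd : DifferentiableAt ℝ (e ∘ φ.symm) x :=
    ((he.loc hφ).contDiffAt (φ.open_target.mem_nhds hx)).differentiableAt (by simp)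
  have hd2 : DifferentiableAt ℝ P ((e ∘ φ.symm) x) :=
    (hP.differentiable (by simp)) _
  have h := fderiv_comp x hd2 hd
  have h2 : (P ∘ e) ∘ φ.symm = P ∘ (e ∘ φ.symm) := rfl
  rw [h2, h]
  rfl

theorem exists_psi : ∃ (m : ℕ) (ψ : M → (Fin m → ℝ)), PsiOK ψ := by
  obtain ⟨n, e, he, hcl, hinj⟩ := exists_embedding_euclidean_of_compact (I := 𝓘(ℝ, E2)) (M := M)
  obtain ⟨m, P, hP, hP1, hP2⟩ := exists_cubic n
  have he' : Sm e := he
  refine ⟨m, P ∘ e, ?_, ?_, ?_⟩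
  · exact hP.contMDiff.comp he
  · intro φ hφ x hx v hv
    rw [IJ2_chain he' hP hφ hx]
    exact hP1 _ _ (fun h => hv (IJ2_inj he' hinj hφ hx v h))
  · intro φ hφ χ hχ x hx y hy hne v w hvw
    rw [IJ2_chain he' hP hφ hx, IJ2_chain he' hP hχ hy]
    exact hP2 _ _ (fun h => hne (hcl.injective h)) _ _
      (fun h => hvw ⟨IJ2_inj he' hinj hφ hx v h.1, IJ2_inj he' hinj hχ hy w h.2⟩)

end P205F
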