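
import Vale.Agent.Lib.P205I.IG1
import Vale.Agent.Lib.P205I.IG1b
import Vale.Agent.Lib.P205I.IG2
import Vale.Agent.Lib.P205I.IG3
import Vale.Agent.Lib.P205I.IJ2

/-!
# P205I module IG5: existence of a generic map

Baire: countably many open dense sets (`dense_iInter_of_isOpen`) of `Lam m`, a complete space.  `ψ` is injective (by
`PsiOK.sep` the vector `ψ p - ψ q` is not zero).
-/

noncomputable section

namespace P205F

open scoped Manifold ContDiff Topology RealInnerProductSpace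
open Set

variable {M : Type} [TopologicalSpace M] [ChartedSpace E2 M] [IsManifold 𝓘(ℝ, E2) ∞ M] [T2Space M]
  [CompactSpace M]

private theorem IG5_nat {a : ℝ} (ha : 0 < a) : ∃ j : ℕ, ∀ i : ℕ, j ≤ i → 1 ≤ ((i : ℝ) + 1) * a := by
  obtain ⟨j, hj⟩ := exists_nat_ge (1 / a)
  refine ⟨j, fun i hi => ?_⟩
  have h1 : (j : ℝ) ≤ i := by exact_mod_cast hi
  have h2 : 1 / a ≤ (i : ℝ) + 1 := by linarith
  rw [div_le_iff₀ ha] at h2
  exact h2

private theorem IG5_nat' (b : ℝ) : ∃ j : ℕ, ∀ i : ℕ, j ≤ i → b ≤ (i : ℝ) + 1 := by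
  obtain ⟨j, hj⟩ := exists_nat_ge b
  refine ⟨j, fun i hi => ?_⟩
  have h1 : (j : ℝ) ≤ i := by exact_mod_cast hi
  linarith

private theorem IG5_a4 : a4 ≠ 0 := by
  intro h
  have := congrArg (fun v : V4 => v 3) h
  simp [a4] at this

theorem exists_gen4 (𝒜 : FinAtlas M) : ∃ f : M → V4, Gen4 𝒜 f := by
  obtain ⟨m, ψ, h⟩ := exists_psi (M := M)
  choose T1 hT1o hT1d hT1 using fun k => IG1_imm h 𝒜 k
  choose T2 hT2o hT2d hT2 using fun k j => IG1_cc h 𝒜 k j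
  choose T3 hT3o hT3d hT3 using fun k l j => IG2_dbl h 𝒜 k l j
  choose T4 hT4o hT4d hT4 using fun k l j => IG3_fold h 𝒜 k l j
  set T : Fin 𝒜.n × Fin 𝒜.n × ℕ → Set (Lam m) := fun i =>
    (T1 i.1 ∩ T2 i.1 i.2.2) ∩ (T3 i.1 i.2.1 i.2.2 ∩ T4 i.1 i.2.1 i.2.2) with hT
  have hTo : ∀ i, IsOpen (T i) := fun i =>
    ((hT1o _).inter (hT2o _ _)).inter ((hT3o _ _ _).inter (hT4o _ _ _))
  have hTd : ∀ i, Dense (T i) := fun i => by
    have h1 : Dense (T1 i.1 ∩ T2 i.1 i.2.2) := (hT1d _).inter_of_isOpen_left (hT2d _ _) (hT1o _)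
    have h2 : Dense (T3 i.1 i.2.1 i.2.2 ∩ T4 i.1 i.2.1 i.2.2) :=
      (hT3d _ _ _).inter_of_isOpen_left (hT4d _ _ _) (hT3o _ _ _)
    exact h1.inter_of_isOpen_left h2 ((hT1o _).inter (hT2o _ _))
  obtain ⟨A, hA⟩ := (dense_iInter_of_isOpen hTo hTd).nonempty
  rw [mem_iInter] at hA
  have hA1 : ∀ k, A ∈ T1 k := fun k => (hA (k, k, 0)).1.1
  have hA2 : ∀ k j, A ∈ T2 k j := fun k j => (hA (k, k, j)).1.2
  have hA3 : ∀ k l j, A ∈ T3 k l j := fun k l j => (hA (k, l, j)).2.1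
  have hA4 : ∀ k l j, A ∈ T4 k l j := fun k l j => (hA (k, l, j)).2.2
  have htar : ∀ k, Metric.closedBall (0 : E2) 2 ⊆ (𝒜.φ k).target := fun k =>
    (Metric.closedBall_subset_closedBall (by norm_num)).trans (𝒜.target k)
  have hpos : ∀ k l, ∀ z ∈ offD 𝒜 k l,
      0 < ‖ψ ((𝒜.φ k).symm z.1) - ψ ((𝒜.φ l).symm z.2)‖ := by
    intro k l z hz
    have h1 := h.sep (𝒜.φ k) (𝒜.mem k) (𝒜.φ l) (𝒜.mem l) z.1 (htar k hz.1) z.2 (htar l hz.2.1)
      hz.2.2 e1 0 (fun h0 => by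
        have := congrArg Prod.fst h0.1
        simp [e1] at this)
    have h2 := h1.ne_zero 0
    rw [norm_pos_iff]
    exact h2
  refine ⟨fun p => A (ψ p), ?_, ?_, ?_, ?_, ?_⟩
  · have h1 : ContMDiff 𝓘(ℝ, E2) 𝓘(ℝ, Fin m → ℝ) ∞ ψ := h.sm
    have h2 : ContMDiff 𝓘(ℝ, Fin m → ℝ) 𝓘(ℝ, V4) ∞ A := A.contDiff.contMDiff
    exact h2.comp h1
  · intro k
    exact hT1 k A (hA1 k)
  · intro k l z hz h0
    obtain ⟨j, hj⟩ := IG5_nat (hpos k l z hz)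
    exact hT3 k l j A (hA3 k l j) z hz (hj j le_rfl) h0
  · intro k x hx v hv
    have hv0 : v ≠ 0 := by
      rintro rfl
      rw [map_zero] at hv
      exact IG5_a4 hv.symm
    obtain ⟨j1, hj1⟩ := IG5_nat (norm_pos_iff.2 hv0)
    obtain ⟨j2, hj2⟩ := IG5_nat' ‖v‖
    exact hT2 k (max j1 j2) A (hA2 k _) x hx v (hj1 _ (le_max_left _ _)) (hj2 _ (le_max_right _ _)) hv
  · intro k l z hz t ht
    obtain ⟨j1, hj1⟩ := IG5_nat (hpos k l z hz)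
    obtain ⟨j2, hj2⟩ := IG5_nat' |t|
    exact hT4 k l (max j1 j2) A (hA4 k l _) z hz (hj1 _ (le_max_left _ _)) t
      (hj2 _ (le_max_right _ _)) ht

end P205F
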