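import Mathlib
import Vale.Agent.Lib.P205B.BXyz

/-!
# P205I: every closed surface immerses in `ℝ³` (definitions).  See notes/P205/IMM3.md
-/

noncomputable section

namespace P205F

open scoped Manifold ContDiff Topology RealInnerProductSpace
open Set

/-- `F` has a nondegenerate singular point (cross-cap) at `x` -/
def CC (F : E2 → V3) (x : E2) : Prop :=
  ∃ n : E2, n ≠ 0 ∧ fderiv ℝ F x n = 0 ∧ fderiv ℝ F x ≠ 0 ∧
    ∀ u w : E2, fderiv ℝ (fun y => fderiv ℝ F y n) x u + fderiv ℝ F x w = 0 → u = 0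

/-- determinant of three vectors -/
def det3 (a b c : V3) : ℝ :=
  a 0 * (b 1 * c 2 - b 2 * c 1) - a 1 * (b 0 * c 2 - b 2 * c 0) + a 2 * (b 0 * c 1 - b 1 * c 0)

/-- cross product -/
def cr (a b : V3) : V3 := !₂[a 1 * b 2 - a 2 * b 1, a 2 * b 0 - a 0 * b 2, a 0 * b 1 - a 1 * b 0]

variable {M : Type} [TopologicalSpace M] [ChartedSpace E2 M]

/-- cross-cap on a surface -/
def CCM (G : M → V3) (p : M) : Prop := CC (G ∘ (chartAt E2 p).symm) (chartAt E2 p p)

/-- generic map with set of cross-caps `S` -/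
def GenMap (G : M → V3) (S : Finset M) : Prop :=
  Sm G ∧ (∀ p, p ∉ S → Function.Injective (dP G p)) ∧ ∀ p ∈ S, CCM G p

/-- transverse double points -/
def DT (G : M → V3) : Prop :=
  ∀ p q : M, p ≠ q → G p = G q → ∀ w : V3, ∃ u v : E2, dP G p u - dP G q v = w

end P205F
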