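import Mathlib
import Vale.Agent.Lib.P205I.IDefs
import Vale.Agent.Lib.P205I.IGDefs

/-!
# P205I module IP0: cross-caps of the first three coordinates (see the docstring of IP1)
-/

noncomputable section

namespace P205F

open scoped ContDiff Topology RealInnerProductSpace
open Set

/-- the first three coordinates -/
def pr3 (u : V4) : V3 := !₂[u 0, u 1, u 2]

/-- `pr3` as a continuous linear map -/
def ip0_L : V4 →L[ℝ] V3 := LinearMap.toContinuousLinearMap
  { toFun := pr3
    map_add' := by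
      intro a b
      ext i
      fin_cases i <;> simp [pr3]
    map_smul' := by
      intro c a
      ext i
      fin_cases i <;> simp [pr3] }

theorem ip0_L_apply (u : V4) : ip0_L u = pr3 u := rfl

theorem ip0_a4_ne : a4 ≠ 0 := by
  intro h
  have h1 := congrArg (fun z : V4 => z 3) h
  simp [a4] at h1

theorem ip0_pr3_a4 : pr3 a4 = 0 := by
  ext i
  fin_cases i <;> simp [pr3, a4]

theorem ip0_of_pr3 {u : V4} (h : pr3 u = 0) : ∃ t : ℝ, u = t • a4 := by
  have h0 : u 0 = 0 := by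
    have h1 := congrArg (fun z : V3 => z 0) h
    simpa [pr3] using h1
  have h1 : u 1 = 0 := by
    have h1 := congrArg (fun z : V3 => z 1) h
    simpa [pr3] using h1
  have h2 : u 2 = 0 := by
    have h1 := congrArg (fun z : V3 => z 2) h
    simpa [pr3] using h1
  refine ⟨u 3, ?_⟩
  ext i
  fin_cases i
  · simp [a4, h0]
  · simp [a4, h1]
  · simp [a4, h2]
  · simp [a4]

/-- planar: cross-cap of the first three coordinates -/
theorem CC_of {F : E2 → V4} {x v : E2} (hF : ContDiffAt ℝ ∞ F x)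
    (hi : ∀ v, fderiv ℝ F x v = 0 → v = 0) (hv : fderiv ℝ F x v = a4)
    (hnd : ∀ u w, fderiv ℝ (fun y => fderiv ℝ F y v) x u + fderiv ℝ F x w = 0 → u = 0 ∧ w = 0) :
    CC (fun y => pr3 (F y)) x := by
  have hev : ∀ᶠ y in 𝓝 x, DifferentiableAt ℝ F y := by
    have h1 : ∀ᶠ y in 𝓝 x, ContDiffAt ℝ 1 F y :=
      (hF.of_le (by exact_mod_cast le_top : (1 : WithTop ℕ∞) ≤ ∞)).eventually (by simp)
    filter_upwards [h1] with y hy
    exact hy.differentiableAt (by simp)
  have hd : ∀ y, DifferentiableAt ℝ F y →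
      fderiv ℝ (fun y => pr3 (F y)) y = ip0_L.comp (fderiv ℝ F y) := fun y hy =>
    (ip0_L.hasFDerivAt.comp y hy.hasFDerivAt).fderiv
  have hdx : ∀ w, fderiv ℝ (fun y => pr3 (F y)) x w = pr3 (fderiv ℝ F x w) := fun w => by
    rw [hd x hev.self_of_nhds]
    rfl
  have hdiff2 : DifferentiableAt ℝ (fun y => fderiv ℝ F y v) x := by
    have h1 : ContDiffAt ℝ 1 (fderiv ℝ F) x := by
      refine hF.fderiv_right (m := 1) ?_
      have h2 : (1 : WithTop ℕ∞) + 1 = ((2 : ℕ∞) : WithTop ℕ∞) := by norm_num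
      rw [h2]
      exact_mod_cast le_top
    exact (h1.differentiableAt (by simp)).clm_apply (differentiableAt_const v)
  have h2 : ∀ u, fderiv ℝ (fun y => fderiv ℝ (fun y => pr3 (F y)) y v) x u =
      pr3 (fderiv ℝ (fun y => fderiv ℝ F y v) x u) := by
    intro u
    have h3 : (fun y => fderiv ℝ (fun y => pr3 (F y)) y v) =ᶠ[𝓝 x]
        fun y => ip0_L (fderiv ℝ F y v) := by
      filter_upwards [hev] with y hy
      rw [hd y hy]
      rfl
    rw [h3.fderiv_eq]
    have h4 : HasFDerivAt (fun y => ip0_L (fderiv ℝ F y v))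
        (ip0_L.comp (fderiv ℝ (fun y => fderiv ℝ F y v) x)) x :=
      ip0_L.hasFDerivAt.comp x hdiff2.hasFDerivAt
    rw [h4.fderiv]
    rfl
  have hv0 : v ≠ 0 := by
    rintro rfl
    rw [map_zero] at hv
    exact ip0_a4_ne hv.symm
  -- if `pr3` kills a tangent vector then it is a multiple of `v`
  have hker : ∀ w, pr3 (fderiv ℝ F x w) = 0 → ∃ t : ℝ, w = t • v := by
    intro w hw
    obtain ⟨t, ht⟩ := ip0_of_pr3 hw
    refine ⟨t, ?_⟩
    rw [← sub_eq_zero]
    apply hi
    rw [map_sub, map_smul, hv, ht, sub_self]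
  refine ⟨v, hv0, ?_, ?_, ?_⟩
  · rw [hdx, hv, ip0_pr3_a4]
  · intro h0
    have h5 : ∀ w, ∃ t : ℝ, w = t • v := fun w => hker w (by rw [← hdx, h0]; rfl)
    obtain ⟨s, hs⟩ := h5 (1, 0)
    obtain ⟨t, ht⟩ := h5 (0, 1)
    have e1 : (1 : ℝ) = s * v.1 := congrArg Prod.fst hs
    have e2 : (0 : ℝ) = s * v.2 := congrArg Prod.snd hs
    have e4 : (1 : ℝ) = t * v.2 := congrArg Prod.snd ht
    rcases mul_eq_zero.1 e2.symm with h | h
    · rw [h, zero_mul] at e1
      exact one_ne_zero e1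
    · rw [h, mul_zero] at e4
      exact one_ne_zero e4
  · intro u w huw
    rw [h2, hdx, ← ip0_L_apply, ← ip0_L_apply, ← map_add, ip0_L_apply] at huw
    obtain ⟨t, ht⟩ := ip0_of_pr3 huw
    refine (hnd u (w - t • v) ?_).1
    rw [map_sub, map_smul, hv, ← add_sub_assoc, ht, sub_self]

end P205F
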