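import Vale.Agent.Lib.P205I.IN1

/-!
# P205I module IN2: solutions near a point of the diagonal (planar)

`F` is an immersion at `c`: there are `r, κ > 0` with `κ ‖x - y‖ ≤ ‖F x - F y‖` for `x, y` in the ball of radius `r` around
`c`; so a solution of `F x - F y = t a4` near `(c, c)` has the form `(y + t v, y)` with `‖v‖ ≤ 1/κ`, and `hG F y v t = a4`.
`IN2_none`: if `a4` is not tangent at `c` there are no solutions near `(c, c)` for small `t > 0` (compactness in `v`: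
`hG F y v t → DF c v ≠ a4` uniformly).  `IN2_one`: if `DF c v = a4` and the condition of nondegeneracy holds there is
exactly one (all `v'` away from `v` are excluded by compactness, near `v` use `IN1_cc`).
-/

noncomputable section

namespace P205F

open scoped ContDiff Topology RealInnerProductSpace
open Set

private theorem IN2_strict {F : E2 → V4} {U : Set E2} (hU : IsOpen U) (hF : ContDiffOn ℝ ∞ F U)
    {c : E2} (hc : c ∈ U) {ε : ℝ} (hε : 0 < ε) : ∃ r : ℝ, 0 < r ∧ Metric.ball c r ⊆ U ∧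
      ∀ x ∈ Metric.ball c r, ∀ y ∈ Metric.ball c r,
        ‖F x - F y - fderiv ℝ F c (x - y)‖ ≤ ε * ‖x - y‖ := by
  have h1 : ContDiffAt ℝ ∞ F c := hF.contDiffAt (hU.mem_nhds hc)
  have h2 : HasStrictFDerivAt F (fderiv ℝ F c) c := h1.hasStrictFDerivAt (by simp)
  have h4 : ∀ᶠ p : E2 × E2 in 𝓝 (c, c),
      ‖F p.1 - F p.2 - fderiv ℝ F c (p.1 - p.2)‖ ≤ ε * ‖p.1 - p.2‖ := h2.isLittleO.def hε
  obtain ⟨r1, hr1, h5⟩ := Metric.eventually_nhds_iff_ball.1 h4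
  obtain ⟨r2, hr2, h6⟩ := Metric.isOpen_iff.1 hU c hc
  refine ⟨min r1 r2, lt_min hr1 hr2, (Metric.ball_subset_ball (min_le_right _ _)).trans h6, ?_⟩
  intro x hx y hy
  refine h5 (x, y) ?_
  rw [← ball_prod_same]
  exact ⟨Metric.ball_subset_ball (min_le_left _ _) hx, Metric.ball_subset_ball (min_le_left _ _) hy⟩

private theorem IN2_anti {F : E2 → V4} {c : E2} (hi : ∀ v, fderiv ℝ F c v = 0 → v = 0) :
    ∃ κ : ℝ, 0 < κ ∧ ∀ v, κ * ‖v‖ ≤ ‖fderiv ℝ F c v‖ := by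
  obtain ⟨K, hK, h⟩ := LinearMap.exists_antilipschitzWith (fderiv ℝ F c : E2 →ₗ[ℝ] V4)
    (LinearMap.ker_eq_bot'.2 hi)
  have hK' : (0 : ℝ) < K := hK
  refine ⟨(K : ℝ)⁻¹, by positivity, fun v => ?_⟩
  have h1 := h.le_mul_dist v 0
  rw [dist_eq_norm, dist_eq_norm, sub_zero, map_zero, sub_zero] at h1
  rw [inv_mul_le_iff₀ hK']
  exact h1

theorem IN2_lower {F : E2 → V4} {U : Set E2} (hU : IsOpen U) (hF : ContDiffOn ℝ ∞ F U) {c : E2}
    (hc : c ∈ U) (hi : ∀ v, fderiv ℝ F c v = 0 → v = 0) : ∃ r κ : ℝ, 0 < r ∧ 0 < κ ∧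
      ∀ x ∈ Metric.ball c r, ∀ y ∈ Metric.ball c r, κ * ‖x - y‖ ≤ ‖F x - F y‖ := by
  obtain ⟨κ, hκ, h1⟩ := IN2_anti hi
  obtain ⟨r, hr, -, h2⟩ := IN2_strict hU hF hc (half_pos hκ)
  refine ⟨r, κ / 2, hr, half_pos hκ, fun x hx y hy => ?_⟩
  have h3 := h2 x hx y hy
  have h4 := h1 (x - y)
  have h5 : ‖fderiv ℝ F c (x - y)‖ ≤ ‖F x - F y‖ + ‖F x - F y - fderiv ℝ F c (x - y)‖ := by
    have h6 : fderiv ℝ F c (x - y) = (F x - F y) - (F x - F y - fderiv ℝ F c (x - y)) := by abel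
    calc ‖fderiv ℝ F c (x - y)‖ = ‖(F x - F y) - (F x - F y - fderiv ℝ F c (x - y))‖ := by
          rw [← h6]
      _ ≤ _ := norm_sub_le _ _
  linarith

private theorem IN2_near {F : E2 → V4} {U : Set E2} (hU : IsOpen U) (hF : ContDiffOn ℝ ∞ F U)
    {c : E2} (hc : c ∈ U) (hi : ∀ v, fderiv ℝ F c v = 0 → v = 0) {η : ℝ} (hη : 0 < η) :
    ∃ r : ℝ, 0 < r ∧ Metric.ball c r ⊆ U ∧ ∀ x ∈ Metric.ball c r, ∀ y ∈ Metric.ball c r,
      ∀ t : ℝ, 0 < t → F x - F y = t • a4 → ‖a4 - fderiv ℝ F c (t⁻¹ • (x - y))‖ ≤ η := by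
  obtain ⟨r0, κ, hr0, hκ, h0⟩ := IN2_lower hU hF hc hi
  obtain ⟨r1, hr1, hU1, h1⟩ := IN2_strict hU hF hc (mul_pos hη hκ)
  refine ⟨min r0 r1, lt_min hr0 hr1, (Metric.ball_subset_ball (min_le_right _ _)).trans hU1, ?_⟩
  intro x hx y hy t ht hxy
  have h2 := h0 x (Metric.ball_subset_ball (min_le_left _ _) hx) y
    (Metric.ball_subset_ball (min_le_left _ _) hy)
  have h3 := h1 x (Metric.ball_subset_ball (min_le_right _ _) hx) y
    (Metric.ball_subset_ball (min_le_right _ _) hy)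
  have ha : ‖a4‖ = 1 := by
    unfold a4
    rw [EuclideanSpace.norm_single, norm_one]
  rw [hxy] at h2 h3
  rw [norm_smul, ha, mul_one, Real.norm_eq_abs, abs_of_pos ht] at h2
  have h4 : a4 - fderiv ℝ F c (t⁻¹ • (x - y)) = t⁻¹ • (t • a4 - fderiv ℝ F c (x - y)) := by
    rw [map_smul, smul_sub t⁻¹ (t • a4) (fderiv ℝ F c (x - y)), smul_smul, inv_mul_cancel₀ ht.ne',
      one_smul]
  rw [h4, norm_smul, norm_inv, Real.norm_eq_abs, abs_of_pos ht, inv_mul_le_iff₀ ht]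
  calc ‖t • a4 - fderiv ℝ F c (x - y)‖ ≤ η * κ * ‖x - y‖ := h3
    _ = η * (κ * ‖x - y‖) := by ring
    _ ≤ η * t := mul_le_mul_of_nonneg_left h2 hη.le
    _ = t * η := mul_comm _ _

theorem IN2_none {F : E2 → V4} {U : Set E2} (hU : IsOpen U) (hF : ContDiffOn ℝ ∞ F U) {c : E2}
    (hc : c ∈ U) (hi : ∀ v, fderiv ℝ F c v = 0 → v = 0) (hn : ∀ v, fderiv ℝ F c v ≠ a4) :
    ∃ W ∈ 𝓝 (c, c), ∃ δ : ℝ, 0 < δ ∧ ∀ t : ℝ, 0 < t → t < δ → ∀ q ∈ W, F q.1 - F q.2 ≠ t • a4 := by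
  have hcl : IsClosed ((LinearMap.range (fderiv ℝ F c : E2 →ₗ[ℝ] V4) : Submodule ℝ V4) : Set V4) :=
    Submodule.closed_of_finiteDimensional _
  have hmem : a4 ∈ ((LinearMap.range (fderiv ℝ F c : E2 →ₗ[ℝ] V4) : Submodule ℝ V4) : Set V4)ᶜ := by
    rintro ⟨v, hv⟩
    exact hn v hv
  obtain ⟨η, hη, hball⟩ := Metric.isOpen_iff.1 hcl.isOpen_compl a4 hmem
  obtain ⟨r, hr, -, h1⟩ := IN2_near hU hF hc hi (half_pos hη)
  refine ⟨Metric.ball c r ×ˢ Metric.ball c r,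
    prod_mem_nhds (Metric.ball_mem_nhds c hr) (Metric.ball_mem_nhds c hr), 1, one_pos, ?_⟩
  intro t ht _ q hq heq
  have h2 := h1 q.1 hq.1 q.2 hq.2 t ht heq
  refine hball ?_ ⟨t⁻¹ • (q.1 - q.2), rfl⟩
  rw [Metric.mem_ball, dist_comm, dist_eq_norm]
  exact lt_of_le_of_lt h2 (half_lt_self hη)

theorem IN2_one {F : E2 → V4} {U : Set E2} (hU : IsOpen U) (hF : ContDiffOn ℝ ∞ F U) {c v : E2}
    (hc : c ∈ U) (hi : ∀ v, fderiv ℝ F c v = 0 → v = 0) (hv : fderiv ℝ F c v = a4)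
    (hnd : ∀ u w, fderiv ℝ (fun y => fderiv ℝ F y v) c u + fderiv ℝ F c w = 0 → u = 0 ∧ w = 0) :
    ∀ V ∈ 𝓝 (c, c), ∃ W ∈ 𝓝 (c, c), W ⊆ V ∧ ∃ δ : ℝ, 0 < δ ∧ ∀ t : ℝ, 0 < t → t < δ →
      ∃ q, {x : E2 × E2 | x ∈ W ∧ F x.1 - F x.2 = t • a4} = {q} ∧
        Function.Injective (fderiv ℝ (fun x : E2 × E2 => F x.1 - F x.2) q) := by
  intro V hV
  obtain ⟨W', hW', -, δ', hδ', hun⟩ := IN1_cc hU hF hc hv hnd univ Filter.univ_mem
  obtain ⟨ρ, hρ, hρW⟩ := Metric.mem_nhds_iff.1 hW'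
  obtain ⟨κ, hκ, hanti⟩ := IN2_anti hi
  obtain ⟨r, hr, hrU, hnear⟩ := IN2_near hU hF hc hi (mul_pos hκ (half_pos hρ))
  set r' : ℝ := min r ρ with hr'
  have hr'0 : 0 < r' := lt_min hr hρ
  set W : Set (E2 × E2) := V ∩ (Metric.ball c r' ×ˢ Metric.ball c r') with hW
  have hWn : W ∈ 𝓝 (c, c) := Filter.inter_mem hV
    (prod_mem_nhds (Metric.ball_mem_nhds c hr'0) (Metric.ball_mem_nhds c hr'0))
  have hsub : Metric.ball c r' ⊆ Metric.ball c r := Metric.ball_subset_ball (min_le_left _ _)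
  -- a pair in `W` is a difference quotient
  have hquot : ∀ q ∈ W, ∀ t : ℝ, t ≠ 0 → F q.1 - F q.2 = t • hG F q.2 (t⁻¹ • (q.1 - q.2)) t := by
    intro q hq t ht
    have h1 : q.2 + t • t⁻¹ • (q.1 - q.2) = q.1 := by
      rw [smul_smul, mul_inv_cancel₀ ht, one_smul, add_sub_cancel]
    have h2 := hG_eq hU hF (y := q.2) (v := t⁻¹ • (q.1 - q.2)) (t := t) (fun s hs => by
      refine hrU (hsub ?_)
      have h3 := (convex_ball c r').add_smul_sub_mem hq.2.2 hq.2.1 hs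
      rw [smul_smul, mul_assoc, mul_inv_cancel₀ ht, mul_one]
      exact h3)
    rw [h1] at h2
    exact h2
  -- solutions in `W`
  have hsol : ∀ q ∈ W, ∀ t : ℝ, 0 < t → F q.1 - F q.2 = t • a4 →
      (q.2, t⁻¹ • (q.1 - q.2)) ∈ W' ∧ hG F q.2 (t⁻¹ • (q.1 - q.2)) t = a4 := by
    intro q hq t ht heq
    constructor
    · refine hρW ?_
      rw [← ball_prod_same]
      refine ⟨Metric.ball_subset_ball (min_le_right _ _) hq.2.2, ?_⟩
      have h1 := hnear q.1 (hsub hq.2.1) q.2 (hsub hq.2.2) t ht heq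
      rw [← hv, ← map_sub] at h1
      have h2 := (hanti _).trans h1
      have h3 : ‖v - t⁻¹ • (q.1 - q.2)‖ ≤ ρ / 2 := le_of_mul_le_mul_left h2 hκ
      rw [Metric.mem_ball, dist_comm, dist_eq_norm]
      exact lt_of_le_of_lt h3 (half_lt_self hρ)
    · have h1 := hquot q hq t ht.ne'
      rw [heq] at h1
      exact (smul_right_injective V4 ht.ne' h1).symm
  -- continuity
  have hcont : Continuous fun p : (E2 × E2) × ℝ => (p.1.1 + p.2 • p.1.2, p.1.1) := by fun_prop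
  have hpre : (fun p : (E2 × E2) × ℝ => (p.1.1 + p.2 • p.1.2, p.1.1)) ⁻¹' W ∈ 𝓝 ((c, v), (0 : ℝ)) := by
    refine hcont.continuousAt.preimage_mem_nhds ?_
    simpa using hWn
  rw [nhds_prod_eq, Filter.mem_prod_iff] at hpre
  obtain ⟨A, hA, B, hB, hAB⟩ := hpre
  obtain ⟨δ₁, hδ₁, hδB⟩ := Metric.mem_nhds_iff.1 hB
  obtain ⟨W'', hW'', hsub'', δ₂, hδ₂, hun2⟩ := IN1_cc hU hF hc hv hnd (A ∩ W')
    (Filter.inter_mem hA hW')
  refine ⟨W, hWn, inter_subset_left, min δ' (min δ₁ δ₂), lt_min hδ' (lt_min hδ₁ hδ₂), ?_⟩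
  intro t ht htδ
  have ht1 : |t| < δ' := by
    rw [abs_of_pos ht]; exact htδ.trans_le (min_le_left _ _)
  have ht2 : |t| < δ₁ := by
    rw [abs_of_pos ht]; exact htδ.trans_le ((min_le_right _ _).trans (min_le_left _ _))
  have ht3 : |t| < δ₂ := by
    rw [abs_of_pos ht]; exact htδ.trans_le ((min_le_right _ _).trans (min_le_right _ _))
  obtain ⟨z, hz, -⟩ := hun t ht1
  obtain ⟨z', hz', hz'i⟩ := hun2 t ht3
  have hz'm : z' ∈ W'' ∧ hG F z'.1 z'.2 t = a4 := by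
    have : z' ∈ {x : E2 × E2 | x ∈ W'' ∧ hG F x.1 x.2 t = a4} := by
      rw [hz']; exact mem_singleton z'
    exact this
  have hzz : z' = z := by
    have : z' ∈ {x : E2 × E2 | x ∈ W' ∧ hG F x.1 x.2 t = a4} := ⟨(hsub'' hz'm.1).2, hz'm.2⟩
    rw [hz] at this
    exact this
  have hqW : (z'.1 + t • z'.2, z'.1) ∈ W := by
    have h1 : ((z', t) : (E2 × E2) × ℝ) ∈ A ×ˢ B :=
      ⟨(hsub'' hz'm.1).1, hδB (by rw [Metric.mem_ball, dist_zero_right]; exact ht2)⟩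
    exact hAB h1
  have hq2 : t⁻¹ • ((z'.1 + t • z'.2) - z'.1) = z'.2 := by
    rw [add_sub_cancel_left, smul_smul, inv_mul_cancel₀ ht.ne', one_smul]
  refine ⟨(z'.1 + t • z'.2, z'.1), ?_, (hz'i ht.ne').2.2⟩
  ext q
  constructor
  · rintro ⟨hq, heq⟩
    obtain ⟨h1, h2⟩ := hsol q hq t ht heq
    have h3 : (q.2, t⁻¹ • (q.1 - q.2)) ∈ {x : E2 × E2 | x ∈ W' ∧ hG F x.1 x.2 t = a4} := ⟨h1, h2⟩
    rw [hz, ← hzz] at h3
    have h4 : (q.2, t⁻¹ • (q.1 - q.2)) = z' := h3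
    have h5 : q.2 = z'.1 := congrArg Prod.fst h4
    have h6 : t⁻¹ • (q.1 - q.2) = z'.2 := congrArg Prod.snd h4
    refine mem_singleton_iff.2 (Prod.ext ?_ h5)
    change q.1 = z'.1 + t • z'.2
    rw [← h6, ← h5, smul_smul, mul_inv_cancel₀ ht.ne', one_smul, add_sub_cancel]
  · intro hq
    rw [mem_singleton_iff] at hq
    subst hq
    refine ⟨hqW, ?_⟩
    have h1 := hquot _ hqW t ht.ne'
    rw [h1]
    change t • hG F z'.1 (t⁻¹ • ((z'.1 + t • z'.2) - z'.1)) t = t • a4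
    rw [hq2, hz'm.2]

end P205F
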