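import Vale.Agent.Lib.P205I.IGDefs
import Vale.Agent.Lib.P205F.MD1

/-!
# P205I module IN3a: regular pairs: change of charts, openness
-/

noncomputable section

namespace P205F

open scoped Manifold ContDiff Topology RealInnerProductSpace
open Set

variable {M : Type} [TopologicalSpace M] [ChartedSpace E2 M] [IsManifold 𝓘(ℝ, E2) ∞ M] [T2Space M]
  [CompactSpace M]

omit [T2Space M] [CompactSpace M] in
private theorem IN3a_diff {f : M → V4} (hf : Sm f) {φ : OpenPartialHomeomorph M E2}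
    (hφ : φ ∈ ATL M) {x : E2} (hx : x ∈ φ.target) : ContDiffAt ℝ ∞ (f ∘ φ.symm) x :=
  (hf.loc hφ).contDiffAt (φ.open_target.mem_nhds hx)

omit [T2Space M] [CompactSpace M] in
private theorem IN3a_dif_cd {𝒜 : FinAtlas M} {f : M → V4} (hf : Sm f) {k l : Fin 𝒜.n}
    {z : E2 × E2} (h1 : z.1 ∈ (𝒜.φ k).target) (h2 : z.2 ∈ (𝒜.φ l).target) :
    ContDiffAt ℝ ∞ (dif 𝒜 f k l) z := by
  have k1 : ContDiffAt ℝ ∞ (fun w : E2 × E2 => (f ∘ (𝒜.φ k).symm) w.1) z :=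
    (IN3a_diff hf (𝒜.mem k) h1).comp z contDiffAt_fst
  have k2 : ContDiffAt ℝ ∞ (fun w : E2 × E2 => (f ∘ (𝒜.φ l).symm) w.2) z :=
    (IN3a_diff hf (𝒜.mem l) h2).comp z contDiffAt_snd
  exact k1.sub k2

omit [T2Space M] [CompactSpace M] in
private theorem IN3a_fd {𝒜 : FinAtlas M} {f : M → V4} (hf : Sm f) {k l : Fin 𝒜.n}
    {z : E2 × E2} (h1 : z.1 ∈ (𝒜.φ k).target) (h2 : z.2 ∈ (𝒜.φ l).target) (u : E2 × E2) :
    fderiv ℝ (dif 𝒜 f k l) z u =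
      fderiv ℝ (f ∘ (𝒜.φ k).symm) z.1 u.1 - fderiv ℝ (f ∘ (𝒜.φ l).symm) z.2 u.2 := by
  have k1 : HasFDerivAt (f ∘ (𝒜.φ k).symm) (fderiv ℝ (f ∘ (𝒜.φ k).symm) z.1) z.1 :=
    ((IN3a_diff hf (𝒜.mem k) h1).differentiableAt (by simp)).hasFDerivAt
  have k2 : HasFDerivAt (f ∘ (𝒜.φ l).symm) (fderiv ℝ (f ∘ (𝒜.φ l).symm) z.2) z.2 :=
    ((IN3a_diff hf (𝒜.mem l) h2).differentiableAt (by simp)).hasFDerivAt
  have k3 := (k1.comp z (hasFDerivAt_fst (𝕜 := ℝ) (p := z))).sub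
    (k2.comp z (hasFDerivAt_snd (𝕜 := ℝ) (p := z)))
  have k4 : HasFDerivAt (dif 𝒜 f k l) _ z := k3
  rw [k4.fderiv]
  rfl

/-- intrinsic form of regularity -/
private def IN3a_reg (f : M → V4) (z : M × M) : Prop :=
  ∀ u v : E2, dP f z.1 u - dP f z.2 v = 0 → u = 0 ∧ v = 0

omit [T2Space M] [CompactSpace M] in
private theorem IN3a_iff {𝒜 : FinAtlas M} {f : M → V4} (hf : Sm f) {z : M × M} {k l : Fin 𝒜.n}
    (h1 : z.1 ∈ (𝒜.φ k).source) (h2 : z.2 ∈ (𝒜.φ l).source) :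
    Function.Injective (fderiv ℝ (dif 𝒜 f k l) ((𝒜.φ k) z.1, (𝒜.φ l) z.2)) ↔
      IN3a_reg f z := by
  have t1 := (𝒜.φ k).map_source h1
  have t2 := (𝒜.φ l).map_source h2
  have fd := IN3a_fd hf (z := ((𝒜.φ k) z.1, (𝒜.φ l) z.2)) t1 t2
  have d1 := dP_eq (𝒜.mem k) h1 ((IN3a_diff hf (𝒜.mem k) t1).differentiableAt (by simp))
  have d2 := dP_eq (𝒜.mem l) h2 ((IN3a_diff hf (𝒜.mem l) t2).differentiableAt (by simp))
  have a1 := TTi_comp_TT (𝒜.mem k) h1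
  have a2 := TTi_comp_TT (𝒜.mem l) h2
  have b1 := TT_comp_TTi (𝒜.mem k) t1
  have b2 := TT_comp_TTi (𝒜.mem l) t2
  rw [(𝒜.φ k).left_inv h1] at b1
  rw [(𝒜.φ l).left_inv h2] at b2
  have a1' : ∀ v, TTi (𝒜.φ k) (𝒜.φ k z.1) (TT (𝒜.φ k) z.1 v) = v := fun v => by
    rw [← ContinuousLinearMap.comp_apply, a1]; rfl
  have a2' : ∀ v, TTi (𝒜.φ l) (𝒜.φ l z.2) (TT (𝒜.φ l) z.2 v) = v := fun v => by
    rw [← ContinuousLinearMap.comp_apply, a2]; rfl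
  have b1' : ∀ v, TT (𝒜.φ k) z.1 (TTi (𝒜.φ k) (𝒜.φ k z.1) v) = v := fun v => by
    rw [← ContinuousLinearMap.comp_apply, b1]; rfl
  have b2' : ∀ v, TT (𝒜.φ l) z.2 (TTi (𝒜.φ l) (𝒜.φ l z.2) v) = v := fun v => by
    rw [← ContinuousLinearMap.comp_apply, b2]; rfl
  constructor
  · intro hinj u v huv
    rw [d1, d2] at huv
    have h3 : fderiv ℝ (dif 𝒜 f k l) ((𝒜.φ k) z.1, (𝒜.φ l) z.2)
        (TT (𝒜.φ k) z.1 u, TT (𝒜.φ l) z.2 v) = 0 := by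
      rw [fd]
      exact huv
    have h4 := (injective_iff_map_eq_zero _).1 hinj _ h3
    have h5 : TT (𝒜.φ k) z.1 u = 0 := congrArg Prod.fst h4
    have h6 : TT (𝒜.φ l) z.2 v = 0 := congrArg Prod.snd h4
    refine ⟨?_, ?_⟩
    · rw [← a1' u, h5, map_zero]
    · rw [← a2' v, h6, map_zero]
  · intro hreg
    refine (injective_iff_map_eq_zero _).2 fun w hw => ?_
    rw [fd] at hw
    have h3 : dP f z.1 (TTi (𝒜.φ k) (𝒜.φ k z.1) w.1) -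
        dP f z.2 (TTi (𝒜.φ l) (𝒜.φ l z.2) w.2) = 0 := by
      rw [d1, d2, ContinuousLinearMap.comp_apply, ContinuousLinearMap.comp_apply, b1', b2']
      exact hw
    obtain ⟨h4, h5⟩ := hreg _ _ h3
    refine Prod.ext ?_ ?_
    · rw [← b1' w.1, h4, map_zero]
      rfl
    · rw [← b2' w.2, h5, map_zero]
      rfl

/-- regularity of a pair can be checked in one pair of charts -/
theorem RegP_of {𝒜 : FinAtlas M} {f : M → V4} (hf : Sm f) {z : M × M} {k l : Fin 𝒜.n}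
    (h1 : z.1 ∈ (𝒜.φ k).source) (h2 : z.2 ∈ (𝒜.φ l).source)
    (h : Function.Injective (fderiv ℝ (dif 𝒜 f k l) ((𝒜.φ k) z.1, (𝒜.φ l) z.2))) :
    RegP 𝒜 f z := by
  intro k' l' h3 _ h4 _
  exact (IN3a_iff hf h3 h4).2 ((IN3a_iff hf h1 h2).1 h)

/-- regularity is an open condition -/
theorem RegP_open {𝒜 : FinAtlas M} {f : M → V4} (hf : Sm f) {z : M × M} (h : RegP 𝒜 f z) :
    ∀ᶠ z' in 𝓝 z, RegP 𝒜 f z' := by
  obtain ⟨k, hk1, hk2⟩ := 𝒜.cover z.1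
  obtain ⟨l, hl1, hl2⟩ := 𝒜.cover z.2
  have hk3 : 𝒜.φ k z.1 ∈ Metric.closedBall (0 : E2) 2 :=
    Metric.ball_subset_closedBall (Metric.ball_subset_ball (by norm_num) hk2)
  have hl3 : 𝒜.φ l z.2 ∈ Metric.closedBall (0 : E2) 2 :=
    Metric.ball_subset_closedBall (Metric.ball_subset_ball (by norm_num) hl2)
  have hinj := h k l hk1 hk3 hl1 hl3
  have t1 := (𝒜.φ k).map_source hk1
  have t2 := (𝒜.φ l).map_source hl1
  have hcd := IN3a_dif_cd hf (z := ((𝒜.φ k) z.1, (𝒜.φ l) z.2)) (k := k) (l := l) t1 t2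
  have hc : ContinuousAt (fderiv ℝ (dif 𝒜 f k l)) ((𝒜.φ k) z.1, (𝒜.φ l) z.2) :=
    (hcd.fderiv_right (m := 0) (by simp)).continuousAt
  have hop : {L : E2 × E2 →L[ℝ] V4 | Function.Injective L} ∈
      𝓝 (fderiv ℝ (dif 𝒜 f k l) ((𝒜.φ k) z.1, (𝒜.φ l) z.2)) :=
    ContinuousLinearMap.isOpen_injective.mem_nhds hinj
  have hc2 : ContinuousAt (fun z' : M × M => ((𝒜.φ k) z'.1, (𝒜.φ l) z'.2)) z := by
    refine ContinuousAt.prodMk ?_ ?_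
    · exact ContinuousAt.comp (f := fun z' : M × M => z'.1) (g := 𝒜.φ k)
        ((𝒜.φ k).continuousAt hk1) continuousAt_fst
    · exact ContinuousAt.comp (f := fun z' : M × M => z'.2) (g := 𝒜.φ l)
        ((𝒜.φ l).continuousAt hl1) continuousAt_snd
  have hc3 : ContinuousAt (fun z' : M × M =>
      fderiv ℝ (dif 𝒜 f k l) ((𝒜.φ k) z'.1, (𝒜.φ l) z'.2)) z :=
    ContinuousAt.comp (f := fun z' : M × M => ((𝒜.φ k) z'.1, (𝒜.φ l) z'.2))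
      (g := fderiv ℝ (dif 𝒜 f k l)) hc hc2
  have e1 : ∀ᶠ z' : M × M in 𝓝 z, z'.1 ∈ (𝒜.φ k).source :=
    continuousAt_fst.eventually ((𝒜.φ k).open_source.mem_nhds hk1)
  have e2 : ∀ᶠ z' : M × M in 𝓝 z, z'.2 ∈ (𝒜.φ l).source :=
    continuousAt_snd.eventually ((𝒜.φ l).open_source.mem_nhds hl1)
  filter_upwards [e1, e2, hc3 hop] with z' h3 h4 h5
  exact RegP_of hf h3 h4 h5

end P205F
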