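import Mathlib

/-!
# P205I module IS1b: counting lemma (see the docstring of IS1)
-/

open scoped Topology
open Set

namespace P205F

variable {X : Type} [TopologicalSpace X] [CompactSpace X] [T2Space X]

private theorem IS1b_ev (Q : ℝ → Prop) :
    (∃ δ : ℝ, 0 < δ ∧ ∀ t : ℝ, 0 < t → t < δ → Q t) ↔ ∀ᶠ t in 𝓝[>] (0 : ℝ), Q t := by
  rw [Filter.Eventually, mem_nhdsGT_iff_exists_Ioo_subset]
  constructor
  · rintro ⟨δ, hδ, h⟩
    exact ⟨δ, hδ, fun t ht => h t ht.1 ht.2⟩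
  · rintro ⟨u, hu, h⟩
    exact ⟨u, hu, fun t h0 h1 => h ⟨h0, h1⟩⟩

theorem count_lemma (S : ℝ → Set X) (P : Set X) (R : ℝ → X → Prop)
    (h1 : ∀ x ∈ P, ∀ V ∈ 𝓝 x, ∃ U ∈ 𝓝 x, U ⊆ V ∧ ∃ δ : ℝ, 0 < δ ∧ ∀ t : ℝ, 0 < t → t < δ →
      ∃ x', S t ∩ U = {x'} ∧ R t x')
    (h2 : ∀ x, x ∉ P → ∃ U ∈ 𝓝 x, ∃ δ : ℝ, 0 < δ ∧ ∀ t : ℝ, 0 < t → t < δ → S t ∩ U = ∅) :
    P.Finite ∧ ∃ t₁ : ℝ, 0 < t₁ ∧ ∀ t : ℝ, 0 < t → t < t₁ →
      (S t).Finite ∧ (S t).ncard = P.ncard ∧ ∀ x ∈ S t, R t x := by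
  have h1' : ∀ x ∈ P, ∀ V ∈ 𝓝 x, ∃ U ∈ 𝓝 x, U ⊆ V ∧ ∀ᶠ t in 𝓝[>] (0 : ℝ),
      ∃ x', S t ∩ U = {x'} ∧ R t x' := by
    intro x hx V hV
    obtain ⟨U, hU, hUV, h⟩ := h1 x hx V hV
    exact ⟨U, hU, hUV, (IS1b_ev _).1 h⟩
  have h2' : ∀ x, x ∉ P → ∃ U ∈ 𝓝 x, ∀ᶠ t in 𝓝[>] (0 : ℝ), S t ∩ U = ∅ := by
    intro x hx
    obtain ⟨U, hU, h⟩ := h2 x hx
    exact ⟨U, hU, (IS1b_ev _).1 h⟩
  -- finiteness
  have hW : ∀ x, ∃ W ∈ 𝓝 x, W ∩ P ⊆ {x} := by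
    intro x
    by_cases hx : x ∈ P
    · obtain ⟨U, hU, -, hev⟩ := h1' x hx univ Filter.univ_mem
      refine ⟨interior U, interior_mem_nhds.2 hU, ?_⟩
      rintro y ⟨hyU, hyP⟩
      by_contra hne
      have hne' : x ≠ y := fun h => hne (by rw [h]; rfl)
      obtain ⟨A, B, hA, hB, hxA, hyB, hAB⟩ := t2_separation hne'
      obtain ⟨U1, -, hU1A, e1⟩ := h1' x hx (A ∩ interior U)
        (Filter.inter_mem (hA.mem_nhds hxA) (interior_mem_nhds.2 hU))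
      obtain ⟨U2, -, hU2B, e2⟩ := h1' y hyP (B ∩ interior U)
        (Filter.inter_mem (hB.mem_nhds hyB) (isOpen_interior.mem_nhds hyU))
      obtain ⟨t, ⟨x0, h0, -⟩, ⟨x1, h11, -⟩, ⟨x2, h22, -⟩⟩ := (hev.and (e1.and e2)).exists
      have m1 : x1 ∈ S t ∩ U1 := by rw [h11]; exact rfl
      have m2 : x2 ∈ S t ∩ U2 := by rw [h22]; exact rfl
      have n1 : x1 ∈ S t ∩ U := ⟨m1.1, interior_subset (hU1A m1.2).2⟩
      have n2 : x2 ∈ S t ∩ U := ⟨m2.1, interior_subset (hU2B m2.2).2⟩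
      rw [h0] at n1 n2
      have e3 : x1 = x0 := n1
      have e4 : x2 = x0 := n2
      have k1 : x0 ∈ A := e3 ▸ (hU1A m1.2).1
      have k2 : x0 ∈ B := e4 ▸ (hU2B m2.2).1
      exact (Set.disjoint_left.1 hAB) k1 k2
    · obtain ⟨U, hU, hev⟩ := h2' x hx
      refine ⟨interior U, interior_mem_nhds.2 hU, ?_⟩
      rintro y ⟨hyU, hyP⟩
      exfalso
      obtain ⟨U1, -, hU1, e1⟩ := h1' y hyP (interior U) (isOpen_interior.mem_nhds hyU)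
      obtain ⟨t, h0, ⟨x1, h11, -⟩⟩ := (hev.and e1).exists
      have m1 : x1 ∈ S t ∩ U1 := by rw [h11]; exact rfl
      have n1 : x1 ∈ S t ∩ U := ⟨m1.1, interior_subset (hU1 m1.2)⟩
      rw [h0] at n1
      exact n1
  choose W hW1 hW2 using hW
  have hPfin : P.Finite := by
    obtain ⟨s, -, hs⟩ := isCompact_univ.elim_nhds_subcover W (fun x _ => hW1 x)
    refine s.finite_toSet.subset fun y hy => ?_
    obtain ⟨x, hx, hyx⟩ := Set.mem_iUnion₂.1 (hs (Set.mem_univ y))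
    have h3 : y = x := hW2 x ⟨hyx, hy⟩
    rw [h3]
    exact hx
  refine ⟨hPfin, ?_⟩
  obtain ⟨A, hA, hdisj⟩ := hPfin.t2_separation
  have h3 : ∀ p, p ∈ P → ∃ U ∈ 𝓝 p, U ⊆ A p ∧ ∀ᶠ t in 𝓝[>] (0 : ℝ),
      ∃ x', S t ∩ U = {x'} ∧ R t x' := fun p hp => h1' p hp (A p) ((hA p).2.mem_nhds (hA p).1)
  choose! U hU hUA hev using h3
  choose! U2 hU2 hev2 using h2'
  set K : Set X := (⋃ p ∈ P, interior (U p))ᶜ with hK
  have hKc : IsCompact K :=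
    (isOpen_biUnion fun p _ => isOpen_interior).isClosed_compl.isCompact
  have hKP : ∀ x ∈ K, x ∉ P := by
    intro x hx hxP
    exact hx (Set.mem_iUnion₂.2 ⟨x, hxP, mem_interior_iff_mem_nhds.2 (hU x hxP)⟩)
  obtain ⟨s, hs1, hs2⟩ := hKc.elim_nhds_subcover U2 (fun x hx => hU2 x (hKP x hx))
  have e1 : ∀ᶠ t in 𝓝[>] (0 : ℝ), ∀ p ∈ P, ∃ x', S t ∩ U p = {x'} ∧ R t x' :=
    (Filter.eventually_all_finite hPfin).2 hev
  have e2 : ∀ᶠ t in 𝓝[>] (0 : ℝ), ∀ x ∈ s, S t ∩ U2 x = ∅ :=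
    (Filter.eventually_all_finset s).2 fun x hx => hev2 x (hKP x (hs1 x hx))
  refine (IS1b_ev _).2 ((e1.and e2).mono fun t ht => ?_)
  obtain ⟨t1, t2⟩ := ht
  choose! f hf hR using t1
  have hfm : ∀ p ∈ P, f p ∈ S t ∩ U p := by
    intro p hp
    rw [hf p hp]
    exact rfl
  have himg : S t = f '' P := by
    apply Set.Subset.antisymm
    · intro x hx
      have hxK : x ∉ K := by
        intro hxK
        obtain ⟨z, hz, hxz⟩ := Set.mem_iUnion₂.1 (hs2 hxK)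
        have h4 : x ∈ S t ∩ U2 z := ⟨hx, hxz⟩
        rw [t2 z hz] at h4
        exact h4
      rw [hK, Set.mem_compl_iff, not_not] at hxK
      obtain ⟨p, hp, hxp⟩ := Set.mem_iUnion₂.1 hxK
      have h4 : x ∈ S t ∩ U p := ⟨hx, interior_subset hxp⟩
      rw [hf p hp] at h4
      exact ⟨p, hp, h4.symm⟩
    · rintro x ⟨p, hp, rfl⟩
      exact (hfm p hp).1
  have hinj : Set.InjOn f P := by
    intro p hp q hq hpq
    by_contra hne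
    have h4 := hdisj hp hq hne
    have k1 : f p ∈ A p := hUA p hp (hfm p hp).2
    have k2 : f p ∈ A q := by
      rw [hpq]
      exact hUA q hq (hfm q hq).2
    exact (Set.disjoint_left.1 h4) k1 k2
  refine ⟨?_, ?_, ?_⟩
  · rw [himg]
    exact hPfin.image f
  · rw [himg]
    exact hinj.ncard_image
  · intro x hx
    rw [himg] at hx
    obtain ⟨p, hp, rfl⟩ := hx
    exact hR p hp

end P205F
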