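import Vale.Agent.Lib.P205I.IS4
import Vale.Agent.Lib.P205I.IN3a
import Vale.Agent.Lib.P205I.IS1b
import Vale.Agent.Lib.P205I.IN2

/-!
# P205I module IN3: solutions for small `t`

`count_lemma` with `X = M × M`, `S = Sol4 f N`, `P = {(c, c) | c ∈ Zc f ∩ N} ∪ Db f N`, `R t z = RegP 𝒜 f z`.
At a double point: `IS4_reg` (with `t = 0`; `RegP` holds at a double point by `Gen4.dbl` and it is an open condition, so it
holds at the solutions nearby).  At `(c, c)`: `IN2_one` in a chart of the atlas around `c`; regularity in one pair of charts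
implies `RegP` (change of charts: `RegP_of`).  At the other points `(p, q)`, `p ≠ q`: `f p ≠ f q`, no solutions nearby for
small `t`; at `(p, p)`, `p ∉ Zc`: `IN2_none`; if a component is not in `N`: `N` is clopen.
-/

noncomputable section

namespace P205F

open scoped Manifold ContDiff Topology RealInnerProductSpace
open Set

variable {M : Type} [TopologicalSpace M] [ChartedSpace E2 M] [IsManifold 𝓘(ℝ, E2) ∞ M] [T2Space M]
  [CompactSpace M]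

theorem IN3_nhds (φ : OpenPartialHomeomorph M E2) {c : M} (hc : c ∈ φ.source) {W : Set (E2 × E2)}
    (hW : W ∈ 𝓝 (φ c, φ c)) :
    {z : M × M | (z.1 ∈ φ.source ∧ z.2 ∈ φ.source) ∧ (φ z.1, φ z.2) ∈ W} ∈ 𝓝 (c, c) := by
  have h1 : ContinuousAt (fun z : M × M => (φ z.1, φ z.2)) (c, c) :=
    ((φ.continuousAt hc).comp_of_eq continuousAt_fst rfl).prodMk
      ((φ.continuousAt hc).comp_of_eq continuousAt_snd rfl)
  have h2 : ∀ᶠ z : M × M in 𝓝 (c, c), z.1 ∈ φ.source :=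
    continuousAt_fst.eventually (φ.open_source.mem_nhds hc)
  have h3 : ∀ᶠ z : M × M in 𝓝 (c, c), z.2 ∈ φ.source :=
    continuousAt_snd.eventually (φ.open_source.mem_nhds hc)
  filter_upwards [h1.eventually hW, h2, h3] with z hz1 hz2 hz3
  exact ⟨⟨hz2, hz3⟩, hz1⟩

theorem IN3_nhds' (φ : OpenPartialHomeomorph M E2) {c : M} (hc : c ∈ φ.source) {V : Set (M × M)}
    (hV : V ∈ 𝓝 (c, c)) :
    {x : E2 × E2 | (x.1 ∈ φ.target ∧ x.2 ∈ φ.target) ∧ (φ.symm x.1, φ.symm x.2) ∈ V} ∈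
      𝓝 (φ c, φ c) := by
  have hc' : φ c ∈ φ.target := φ.map_source hc
  have h0 : φ.symm (φ c) = c := φ.left_inv hc
  have h1 : ContinuousAt (fun x : E2 × E2 => (φ.symm x.1, φ.symm x.2)) (φ c, φ c) :=
    ((φ.continuousAt_symm hc').comp_of_eq continuousAt_fst rfl).prodMk
      ((φ.continuousAt_symm hc').comp_of_eq continuousAt_snd rfl)
  have h2 : ∀ᶠ x : E2 × E2 in 𝓝 (φ c, φ c), x.1 ∈ φ.target :=
    continuousAt_fst.eventually (φ.open_target.mem_nhds hc')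
  have h3 : ∀ᶠ x : E2 × E2 in 𝓝 (φ c, φ c), x.2 ∈ φ.target :=
    continuousAt_snd.eventually (φ.open_target.mem_nhds hc')
  have h4 : V ∈ 𝓝 ((fun x : E2 × E2 => (φ.symm x.1, φ.symm x.2)) (φ c, φ c)) := by
    simp only [h0]
    exact hV
  filter_upwards [h1.eventually h4, h2, h3] with z hz1 hz2 hz3
  exact ⟨⟨hz2, hz3⟩, hz1⟩

theorem IN3_a4 : ‖a4‖ = 1 := by
  simp [a4]

theorem IN3_imm {𝒜 : FinAtlas M} {f : M → V4} (h : Gen4 𝒜 f) {k : Fin 𝒜.n} {c : M}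
    (hk : 𝒜.φ k c ∈ Metric.ball (0 : E2) 1) :
    𝒜.φ k c ∈ Metric.closedBall (0 : E2) 2 :=
  Metric.closedBall_subset_closedBall (by norm_num) (Metric.ball_subset_closedBall hk)

/-- double points -/
theorem IN3_db {𝒜 : FinAtlas M} {f : M → V4} (h : Gen4 𝒜 f) {N : Set M} (hN : IsClopen N)
    {z : M × M} (hz : z ∈ Db f N) : ∀ V ∈ 𝓝 z, ∃ U ∈ 𝓝 z, U ⊆ V ∧ ∃ δ : ℝ, 0 < δ ∧
      ∀ t : ℝ, 0 < t → t < δ → ∃ z', Sol4 f N t ∩ U = {z'} ∧ RegP 𝒜 f z' := by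
  obtain ⟨h1, h2, h3, h4⟩ := hz
  have hS : z ∈ Sol4 f N 0 := ⟨h1, h2, by rw [h4, sub_self, zero_smul]⟩
  have hr : RegP 𝒜 f z := by
    intro k l hk hk2 hl hl2
    have e1 : (𝒜.φ k).symm ((𝒜.φ k) z.1) = z.1 := (𝒜.φ k).left_inv hk
    have e2 : (𝒜.φ l).symm ((𝒜.φ l) z.2) = z.2 := (𝒜.φ l).left_inv hl
    refine h.dbl k l _ ⟨hk2, hl2, ?_⟩ ?_
    · simp only [e1, e2]; exact h3
    · simp only [dif, e1, e2, h4, sub_self]
  intro V hV
  obtain ⟨U, hU, hUV, δ, hδ, hs⟩ := IS4_reg h.sm hN hS hr _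
    (Filter.inter_mem hV (RegP_open h.sm hr))
  refine ⟨U, hU, hUV.trans inter_subset_left, δ, hδ, fun t ht1 ht2 => ?_⟩
  obtain ⟨z', hz'⟩ := hs t (by rw [sub_zero, abs_of_pos ht1]; exact ht2)
  refine ⟨z', hz', ?_⟩
  have : z' ∈ Sol4 f N t ∩ U := by rw [hz']; rfl
  exact (hUV this.2).2

/-- points of the diagonal where `a4` is tangent -/
theorem IN3_cc {𝒜 : FinAtlas M} {f : M → V4} (h : Gen4 𝒜 f) {N : Set M} (hN : IsClopen N)
    {c : M} (hc : c ∈ Zc f) (hcN : c ∈ N) : ∀ V ∈ 𝓝 (c, c), ∃ U ∈ 𝓝 (c, c), U ⊆ V ∧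
      ∃ δ : ℝ, 0 < δ ∧ ∀ t : ℝ, 0 < t → t < δ → ∃ z', Sol4 f N t ∩ U = {z'} ∧ RegP 𝒜 f z' := by
  obtain ⟨v, hv⟩ := hc
  obtain ⟨k, hk1, hk2⟩ := 𝒜.cover c
  set φ := 𝒜.φ k with hφ
  have hx : φ c ∈ φ.target := φ.map_source hk1
  have hF : ContDiffOn ℝ ∞ (f ∘ φ.symm) φ.target := h.sm.loc (𝒜.mem k)
  have hd : DifferentiableAt ℝ (f ∘ φ.symm) (φ c) :=
    (hF.contDiffAt (φ.open_target.mem_nhds hx)).differentiableAt (by simp)
  have hv' : fderiv ℝ (f ∘ φ.symm) (φ c) (TT φ c v) = a4 := by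
    have := dP_eq (𝒜.mem k) hk1 hd
    rw [this] at hv
    exact hv
  have hb := IN3_imm h hk2
  intro V hV
  have hN2 : N ×ˢ N ∈ 𝓝 (c, c) := prod_mem_nhds (hN.isOpen.mem_nhds hcN) (hN.isOpen.mem_nhds hcN)
  obtain ⟨W, hW, hWV, δ, hδ, hs⟩ := IN2_one φ.open_target hF hx (h.imm k _ hb) hv'
    (h.cc k _ hb _ hv') _ (IN3_nhds' φ hk1 (Filter.inter_mem hV hN2))
  refine ⟨_, IN3_nhds φ hk1 hW, ?_, δ, hδ, fun t ht1 ht2 => ?_⟩
  · rintro z ⟨⟨hz1, hz2⟩, hz3⟩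
    have := (hWV hz3).2.1
    simp only [φ.left_inv hz1, φ.left_inv hz2] at this
    exact this
  · obtain ⟨q, hq, hqi⟩ := hs t ht1 ht2
    have hqm : q ∈ W ∧ (f ∘ φ.symm) q.1 - (f ∘ φ.symm) q.2 = t • a4 := by
      have : q ∈ {x : E2 × E2 | x ∈ W ∧ (f ∘ φ.symm) x.1 - (f ∘ φ.symm) x.2 = t • a4} := by
        rw [hq]; rfl
      exact this
    obtain ⟨⟨hq1, hq2⟩, hq3, hq4⟩ := hWV hqm.1
    refine ⟨(φ.symm q.1, φ.symm q.2), ?_, ?_⟩
    · ext z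
      constructor
      · rintro ⟨⟨hz1, hz2, hz3⟩, ⟨hz4, hz5⟩, hz6⟩
        have : (φ z.1, φ z.2) ∈
            {x : E2 × E2 | x ∈ W ∧ (f ∘ φ.symm) x.1 - (f ∘ φ.symm) x.2 = t • a4} := by
          refine ⟨hz6, ?_⟩
          simp only [Function.comp_apply, φ.left_inv hz4, φ.left_inv hz5]
          exact hz3
        rw [hq] at this
        have hzq : (φ z.1, φ z.2) = q := this
        rw [mem_singleton_iff, ← hzq]
        simp only [φ.left_inv hz4, φ.left_inv hz5]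
      · rintro rfl
        refine ⟨⟨hq4.1, hq4.2, hqm.2⟩, ⟨φ.map_target hq1, φ.map_target hq2⟩, ?_⟩
        simp only [φ.right_inv hq1, φ.right_inv hq2]
        exact hqm.1
    · refine RegP_of (k := k) (l := k) h.sm (φ.map_target hq1) (φ.map_target hq2) ?_
      have e1 : (𝒜.φ k) (φ.symm q.1) = q.1 := φ.right_inv hq1
      have e2 : (𝒜.φ k) (φ.symm q.2) = q.2 := φ.right_inv hq2
      simp only [e1, e2]
      exact hqi

/-- the other points -/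
theorem IN3_off {𝒜 : FinAtlas M} {f : M → V4} (h : Gen4 𝒜 f) {N : Set M} (hN : IsClopen N)
    {z : M × M} (hz : z ∉ (fun c : M => (c, c)) '' (Zc f ∩ N) ∪ Db f N) :
    ∃ U ∈ 𝓝 z, ∃ δ : ℝ, 0 < δ ∧ ∀ t : ℝ, 0 < t → t < δ → Sol4 f N t ∩ U = ∅ := by
  obtain ⟨p, q⟩ := z
  by_cases hp : p ∈ N
  swap
  · refine ⟨Nᶜ ×ˢ univ, prod_mem_nhds (hN.compl.isOpen.mem_nhds hp) Filter.univ_mem, 1, one_pos,
      fun t _ _ => ?_⟩
    ext x
    simp only [mem_inter_iff, mem_empty_iff_false, iff_false, not_and]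
    rintro hx ⟨hx1, -⟩
    exact hx1 hx.1
  by_cases hq : q ∈ N
  swap
  · refine ⟨univ ×ˢ Nᶜ, prod_mem_nhds Filter.univ_mem (hN.compl.isOpen.mem_nhds hq), 1, one_pos,
      fun t _ _ => ?_⟩
    ext x
    simp only [mem_inter_iff, mem_empty_iff_false, iff_false, not_and]
    rintro hx ⟨-, hx1⟩
    exact hx1 hx.2.1
  by_cases hpq : p = q
  · subst hpq
    have hc : p ∉ Zc f := fun hc => hz (Or.inl ⟨p, ⟨hc, hp⟩, rfl⟩)
    obtain ⟨k, hk1, hk2⟩ := 𝒜.cover p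
    set φ := 𝒜.φ k with hφ
    have hx : φ p ∈ φ.target := φ.map_source hk1
    have hF : ContDiffOn ℝ ∞ (f ∘ φ.symm) φ.target := h.sm.loc (𝒜.mem k)
    have hd : DifferentiableAt ℝ (f ∘ φ.symm) (φ p) :=
      (hF.contDiffAt (φ.open_target.mem_nhds hx)).differentiableAt (by simp)
    have hn : ∀ v, fderiv ℝ (f ∘ φ.symm) (φ p) v ≠ a4 := by
      intro v hv
      apply hc
      refine ⟨TTi φ (φ p) v, ?_⟩
      have := dP_comp_TTi (𝒜.mem k) hx hd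
      rw [φ.left_inv hk1] at this
      rw [← hv, ← this]
      rfl
    obtain ⟨W, hW, δ, hδ, hs⟩ := IN2_none φ.open_target hF hx (h.imm k _ (IN3_imm h hk2)) hn
    refine ⟨_, IN3_nhds φ hk1 hW, δ, hδ, fun t ht1 ht2 => ?_⟩
    ext x
    simp only [mem_inter_iff, mem_empty_iff_false, iff_false, not_and]
    rintro ⟨hx1, hx2, hx3⟩ ⟨⟨hx4, hx5⟩, hx6⟩
    apply hs t ht1 ht2 _ hx6
    simp only [Function.comp_apply, φ.left_inv hx4, φ.left_inv hx5]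
    exact hx3
  · have hne : f p ≠ f q := fun he => hz (Or.inr ⟨hp, hq, hpq, he⟩)
    have hpos : 0 < ‖f p - f q‖ := norm_pos_iff.mpr (sub_ne_zero.mpr hne)
    have hfc : Continuous f := h.sm.continuous
    have hc2 : Continuous fun x : M × M => ‖f x.1 - f x.2‖ := by fun_prop
    refine ⟨{x | ‖f p - f q‖ / 2 < ‖f x.1 - f x.2‖},
      (isOpen_lt continuous_const hc2).mem_nhds (by simpa using hpos), ‖f p - f q‖ / 2,
      half_pos hpos, fun t ht1 ht2 => ?_⟩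
    ext x
    simp only [mem_inter_iff, mem_empty_iff_false, iff_false, not_and]
    rintro ⟨hx1, hx2, hx3⟩ hx4
    have hx5 : ‖f p - f q‖ / 2 < ‖f x.1 - f x.2‖ := hx4
    rw [hx3, norm_smul, IN3_a4, mul_one, Real.norm_of_nonneg ht1.le] at hx5
    exact absurd ht2 (not_lt.mpr hx5.le)

theorem IN3_count {𝒜 : FinAtlas M} {f : M → V4} (h : Gen4 𝒜 f) {N : Set M} (hN : IsClopen N) :
    ((fun c : M => (c, c)) '' (Zc f ∩ N) ∪ Db f N).Finite ∧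
    ∃ t₁ : ℝ, 0 < t₁ ∧ ∀ t : ℝ, 0 < t → t < t₁ → (Sol4 f N t).Finite ∧
      (Sol4 f N t).ncard = ((fun c : M => (c, c)) '' (Zc f ∩ N) ∪ Db f N).ncard ∧
      ∀ z ∈ Sol4 f N t, RegP 𝒜 f z := by
  refine count_lemma (Sol4 f N) _ (fun _ z => RegP 𝒜 f z) ?_ (fun z hz => IN3_off h hN hz)
  rintro z (⟨c, ⟨hc1, hc2⟩, rfl⟩ | hz)
  · exact IN3_cc h hN hc1 hc2
  · exact IN3_db h hN hz

end P205F
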