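import Mathlib
import Vale.Agent.Lib.P205I.IN3

/-!
# P205I module IP1: parity of the number of cross-caps

`parity`: `sweep_M` at a small level and `IN3_count`; the two parts of the union are disjoint, `Db f N` has even cardinality
because the swap is a fixed point free involution (`Finset.card_involution` or `Function.Involutive.card_fixedPoints` style).
`CC_of` (module IP0): at `p ∈ Zc f` the first three coordinates have a cross-cap: `n = v`; if `D_u D_n G + DG w = 0` then
`D_u D_n f + Df w = τ a4 = τ Df n`, so `u = 0` by `Gen4.cc`; `DG ≠ 0` since `Df` is injective.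
-/

noncomputable section

namespace P205F

open scoped Manifold ContDiff Topology RealInnerProductSpace
open Set

/-- a finite set of ordered pairs, off the diagonal and symmetric, has even cardinality -/
theorem IP1_even_sym {X : Type} {E : Set (X × X)} (hE : E.Finite) (h1 : ∀ z ∈ E, z.1 ≠ z.2)
    (h2 : ∀ z ∈ E, z.swap ∈ E) : Even E.ncard := by
  classical
  have hs : ∑ z ∈ hE.toFinset, (1 : ZMod 2) = 0 := by
    refine Finset.sum_involution (fun z _ => z.swap) ?_ ?_ ?_ ?_
    · intro z _
      decide
    · intro z hz _ heq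
      exact h1 z (hE.mem_toFinset.1 hz) (congrArg Prod.snd heq)
    · intro z hz
      exact hE.mem_toFinset.2 (h2 z (hE.mem_toFinset.1 hz))
    · intro z _
      exact Prod.swap_swap z
  rw [Set.ncard_eq_toFinset_card E hE]
  rw [Finset.sum_const, nsmul_eq_mul, mul_one] at hs
  exact (ZMod.natCast_eq_zero_iff_even).1 hs

variable {M : Type} [TopologicalSpace M] [ChartedSpace E2 M] [IsManifold 𝓘(ℝ, E2) ∞ M] [T2Space M]
  [CompactSpace M]

theorem parity {𝒜 : FinAtlas M} {f : M → V4} (h : Gen4 𝒜 f) {N : Set M} (hN : IsClopen N) :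
    (Zc f ∩ N).Finite ∧ Even (Zc f ∩ N).ncard := by
  obtain ⟨hfin, t₁, ht₁, ht⟩ := IN3_count h hN
  have hinj : Function.Injective (fun c : M => (c, c)) := fun a b hab => congrArg Prod.fst hab
  have hD : ((fun c : M => (c, c)) '' (Zc f ∩ N)).Finite := hfin.subset subset_union_left
  have hE : (Db f N).Finite := hfin.subset subset_union_right
  have hZ : (Zc f ∩ N).Finite := Set.Finite.of_finite_image hD hinj.injOn
  refine ⟨hZ, ?_⟩
  obtain ⟨-, hc, hr⟩ := ht (t₁ / 2) (by positivity) (by linarith)
  have hev := (sweep_M h hN (t₀ := t₁ / 2) (by positivity) hr).2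
  have hdis : Disjoint ((fun c : M => (c, c)) '' (Zc f ∩ N)) (Db f N) := by
    rw [Set.disjoint_left]
    rintro z ⟨c, -, rfl⟩ hz
    exact hz.2.2.1 rfl
  rw [hc, Set.ncard_union_eq hdis hD hE, Set.ncard_image_of_injective _ hinj] at hev
  have hEe : Even (Db f N).ncard := by
    refine IP1_even_sym hE (fun z hz => hz.2.2.1) ?_
    rintro z ⟨ha, hb, hn, he⟩
    exact ⟨hb, ha, Ne.symm hn, he.symm⟩
  exact (Nat.even_add.1 hev).2 hEe

end P205F
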