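import Vale.Agent.Lib.P205I.IDefs

/-!
# P205I K1: cross-caps and change of variables
-/

noncomputable section

namespace P205F

open scoped Manifold ContDiff Topology RealInnerProductSpace
open Set

set_option maxSynthPendingDepth 3

theorem K1a_congr {F F' : E2 → V3} {x : E2} (h : F =ᶠ[𝓝 x] F') (hc : CC F x) : CC F' x := by
  obtain ⟨n, hn, h1, h2, h3⟩ := hc
  have e1' : fderiv ℝ F' x = fderiv ℝ F x := h.symm.fderiv_eq
  have e2' : (fun y => fderiv ℝ F' y n) =ᶠ[𝓝 x] fun y => fderiv ℝ F y n := by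
    filter_upwards [Filter.EventuallyEq.fderiv (𝕜 := ℝ) h] with y hy
    rw [hy]
  refine ⟨n, hn, by rw [e1']; exact h1, by rw [e1']; exact h2, fun u w huw => ?_⟩
  rw [e1', e2'.fderiv_eq] at huw
  exact h3 u w huw

theorem K1a_surj {T : E2 →L[ℝ] E2} (hT : Function.Injective T) : Function.Surjective T :=
  (LinearMap.injective_iff_surjective (f := (T : E2 →ₗ[ℝ] E2))).1 hT

theorem K1a_second {F : E2 → V3} {x : E2} (hF : ContDiffAt ℝ ∞ F x) (n z : E2) :
    fderiv ℝ (fun y => fderiv ℝ F y n) x z = fderiv ℝ (fderiv ℝ F) x z n := by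
  have h0 : ContDiffAt ℝ 2 F x := hF.of_le ENat.LEInfty.out
  have h1 : ContDiffAt ℝ 1 (fderiv ℝ F) x := h0.fderiv_right (by norm_num)
  have h2 : HasFDerivAt (fderiv ℝ F) (fderiv ℝ (fderiv ℝ F) x) x :=
    (h1.differentiableAt (by norm_num)).hasFDerivAt
  have h3 := (h2.clm_apply (hasFDerivAt_const n x)).fderiv
  rw [h3]
  simp

/-- invariance of `CC` under local diffeomorphisms: `D²(F∘τ)(u,n) = D²F(τu,τn) + DF(D²τ(u,n))` -/
theorem cc_comp {F : E2 → V3} {τ : E2 → E2} {x : E2} (hF : ContDiffAt ℝ ∞ F (τ x))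
    (hτ : ContDiffAt ℝ ∞ τ x) (hi : Function.Injective (fderiv ℝ τ x)) (h : CC F (τ x)) :
    CC (F ∘ τ) x := by
  obtain ⟨n, hn, h1, h2, h3⟩ := h
  obtain ⟨n', hn'⟩ := K1a_surj hi n
  have hF1 : DifferentiableAt ℝ F (τ x) := hF.differentiableAt (by simp)
  have hτ1 : DifferentiableAt ℝ τ x := hτ.differentiableAt (by simp)
  have hD : fderiv ℝ (F ∘ τ) x = (fderiv ℝ F (τ x)).comp (fderiv ℝ τ x) :=
    fderiv_comp x hF1 hτ1
  have hev : (fun y => fderiv ℝ (F ∘ τ) y n') =ᶠ[𝓝 x]
      fun y => fderiv ℝ F (τ y) (fderiv ℝ τ y n') := by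
    have a1 : ∀ᶠ y in 𝓝 x, ContDiffAt ℝ 1 τ y := (hτ.of_le ENat.LEInfty.out).eventually (by simp)
    have a2 : ∀ᶠ y in 𝓝 x, ContDiffAt ℝ 1 F (τ y) :=
      hτ.continuousAt.eventually ((hF.of_le ENat.LEInfty.out).eventually (by simp))
    filter_upwards [a1, a2] with y hy1 hy2
    rw [fderiv_comp y (hy2.differentiableAt (by norm_num)) (hy1.differentiableAt (by norm_num))]
    rfl
  have hF' : ContDiffAt ℝ 2 F (τ x) := hF.of_le ENat.LEInfty.out
  have hτ' : ContDiffAt ℝ 2 τ x := hτ.of_le ENat.LEInfty.out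
  have hF2 : DifferentiableAt ℝ (fderiv ℝ F) (τ x) :=
    (hF'.fderiv_right (m := 1) (by norm_num)).differentiableAt (by norm_num)
  have hτ2 : DifferentiableAt ℝ (fderiv ℝ τ) x :=
    (hτ'.fderiv_right (m := 1) (by norm_num)).differentiableAt (by norm_num)
  have hA : HasFDerivAt (fun y => fderiv ℝ F (τ y))
      ((fderiv ℝ (fderiv ℝ F) (τ x)).comp (fderiv ℝ τ x)) x :=
    hF2.hasFDerivAt.comp x hτ1.hasFDerivAt
  have hB : HasFDerivAt (fun y => fderiv ℝ τ y n') ((fderiv ℝ (fderiv ℝ τ) x).flip n') x := by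
    have h4 := hτ2.hasFDerivAt.clm_apply (hasFDerivAt_const n' x)
    simpa using h4
  have hC := (hA.clm_apply hB).fderiv
  refine ⟨n', ?_, ?_, ?_, fun u w huw => ?_⟩
  · rintro rfl
    apply hn
    rw [← hn', map_zero]
  · rw [hD, ContinuousLinearMap.comp_apply, hn', h1]
  · intro h0
    apply h2
    refine ContinuousLinearMap.ext fun v => ?_
    obtain ⟨v', rfl⟩ := K1a_surj hi v
    have h4 := DFunLike.congr_fun h0 v'
    rw [hD] at h4
    exact h4
  · rw [hev.fderiv_eq, hC, hD] at huw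
    simp only [add_apply, ContinuousLinearMap.comp_apply, ContinuousLinearMap.flip_apply] at huw
    rw [hn'] at huw
    have h4 := h3 (fderiv ℝ τ x u) (fderiv ℝ (fderiv ℝ τ) x u n' + fderiv ℝ τ x w) (by
      rw [K1a_second hF, map_add, ← huw]
      abel)
    apply hi
    rw [h4, map_zero]

/-- in the plane, `n ≠ 0` and a vector `e` with `A e ≠ 0 = A n` span -/
theorem K1b_span {A : E2 →L[ℝ] V3} {n e : E2} (hn : n ≠ 0) (hAn : A n = 0) (hAe : A e ≠ 0) (m : E2) :
    ∃ a b : ℝ, m = a • n + b • e := by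
  have hli : LinearIndependent ℝ ![n, e] := by
    rw [LinearIndependent.pair_iff]
    intro s t hst
    have h1 : t • A e = 0 := by
      have := congrArg A hst
      simpa [hAn] using this
    have ht : t = 0 := by
      rcases smul_eq_zero.1 h1 with h | h
      · exact h
      · exact absurd h hAe
    subst ht
    have : s • n = 0 := by simpa using hst
    rcases smul_eq_zero.1 this with h | h
    · exact ⟨h, rfl⟩
    · exact absurd h hn
  have hspan : Submodule.span ℝ (Set.range ![n, e]) = ⊤ := by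
    apply hli.span_eq_top_of_card_eq_finrank
    simp [E2]
  have hm : m ∈ Submodule.span ℝ (Set.range ![n, e]) := by rw [hspan]; trivial
  rw [Matrix.range_cons, Matrix.range_cons, Matrix.range_empty, Set.union_empty,
    Set.singleton_union, Submodule.mem_span_pair] at hm
  obtain ⟨a, b, h⟩ := hm
  exact ⟨a, b, h.symm⟩

/-- nondegenerate singular points are isolated: inverse function theorem for
`(y, s) ↦ DF_y (n + s n')`, `n'` a complementary vector, and compactness of directions -/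
theorem cc_isolated {F : E2 → V3} {x : E2} (hF : ContDiffAt ℝ ∞ F x) (h : CC F x) :
    ∀ᶠ y in 𝓝[≠] x, Function.Injective (fderiv ℝ F y) := by
  obtain ⟨n, hn, hAn, hA, hB⟩ := h
  obtain ⟨e, he⟩ : ∃ e, fderiv ℝ F x e ≠ 0 := by
    by_contra hcon
    push Not at hcon
    exact hA (ContinuousLinearMap.ext hcon)
  have hDF : ContDiffAt ℝ ∞ (fderiv ℝ F) x := hF.fderiv_right (by simp)
  have hg : ContDiffAt ℝ ∞ (fun y => fderiv ℝ F y n) x := hDF.clm_apply contDiffAt_const
  have hgd : HasFDerivAt (fun y => fderiv ℝ F y n)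
      (fderiv ℝ (fun y => fderiv ℝ F y n) x) x :=
    (hg.differentiableAt (by simp)).hasFDerivAt
  set B := fderiv ℝ (fun y => fderiv ℝ F y n) x with hBdef
  have hec : ContinuousAt (fun y => fderiv ℝ F y e) x :=
    (hDF.clm_apply contDiffAt_const).continuousAt
  -- the linear map `(u, t) ↦ B u + t A e`
  let L : (E2 × ℝ) →ₗ[ℝ] V3 :=
    (B.toLinearMap.comp (LinearMap.fst ℝ E2 ℝ)) +
      ((LinearMap.toSpanSingleton ℝ V3 (fderiv ℝ F x e)).comp (LinearMap.snd ℝ E2 ℝ))
  have hL : ∀ u t, L (u, t) = B u + t • fderiv ℝ F x e := fun u t => by simp [L]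
  have hker : LinearMap.ker L = ⊥ := by
    rw [LinearMap.ker_eq_bot']
    rintro ⟨u, t⟩ hut
    rw [hL] at hut
    have hu : u = 0 := by
      apply hB u (t • e)
      rw [map_smul]
      exact hut
    subst hu
    have ht : t = 0 := by
      have : t • fderiv ℝ F x e = 0 := by simpa using hut
      rcases smul_eq_zero.1 this with h | h
      · exact h
      · exact absurd h he
    subst ht
    rfl
  obtain ⟨K, hK, hanti⟩ := L.exists_antilipschitzWith hker
  have hKpos : (0 : ℝ) < K := by exact_mod_cast hK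
  have hbd : ∀ u t, max ‖u‖ |t| ≤ K * ‖B u + t • fderiv ℝ F x e‖ := by
    intro u t
    have := hanti.le_mul_norm_sub 0 (u, t)
    rw [map_zero, neg_zero, neg_zero, zero_add, zero_add, hL] at this
    exact this
  -- estimates near `x`
  have h1 : ∀ᶠ y in 𝓝 x, ‖fderiv ℝ F y n - B (y - x)‖ ≤ (1 / (4 * K)) * ‖y - x‖ := by
    have := hgd.isLittleO.def (show (0 : ℝ) < 1 / (4 * K) by positivity)
    simpa [hAn] using this
  have h2 : ∀ᶠ y in 𝓝 x, ‖fderiv ℝ F y e - fderiv ℝ F x e‖ ≤ 1 / (4 * K) := by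
    have := (tendsto_iff_norm_sub_tendsto_zero.1 hec).eventually_le_const
      (show (0 : ℝ) < 1 / (4 * K) by positivity)
    exact this
  have h3 : ∀ᶠ y in 𝓝 x, fderiv ℝ F y e ≠ 0 := hec.eventually_ne he
  rw [eventually_nhdsWithin_iff]
  filter_upwards [h1, h2, h3] with y h1 h2 h3 hyx
  rw [injective_iff_map_eq_zero]
  intro m hm
  obtain ⟨a, b, rfl⟩ := K1b_span hn hAn he m
  rw [map_add, map_smul, map_smul] at hm
  by_cases ha : a = 0
  · subst ha
    have : b • fderiv ℝ F y e = 0 := by simpa using hm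
    rcases smul_eq_zero.1 this with h | h
    · simp [h]
    · exact absurd h h3
  · exfalso
    set t := b / a with ht
    have hm' : fderiv ℝ F y n + t • fderiv ℝ F y e = 0 := by
      have : a⁻¹ • (a • fderiv ℝ F y n + b • fderiv ℝ F y e) = 0 := by rw [hm, smul_zero]
      rw [smul_add, smul_smul, smul_smul, inv_mul_cancel₀ ha, one_smul] at this
      rw [ht, div_eq_inv_mul]
      exact this
    have hkey : B (y - x) + t • fderiv ℝ F x e =
        -(fderiv ℝ F y n - B (y - x)) - t • (fderiv ℝ F y e - fderiv ℝ F x e) := by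
      rw [smul_sub]
      have : B (y - x) + t • fderiv ℝ F x e =
        B (y - x) + t • fderiv ℝ F x e - (fderiv ℝ F y n + t • fderiv ℝ F y e) := by
        rw [hm', sub_zero]
      rw [this]
      abel
    have hnorm : ‖B (y - x) + t • fderiv ℝ F x e‖ ≤
        (1 / (4 * K)) * ‖y - x‖ + |t| * (1 / (4 * K)) := by
      rw [hkey]
      refine (norm_sub_le _ _).trans ?_
      rw [norm_neg, norm_smul, Real.norm_eq_abs]
      exact add_le_add h1 (mul_le_mul_of_nonneg_left h2 (abs_nonneg _))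
    have hM := hbd (y - x) t
    set Mx := max ‖y - x‖ |t| with hMx
    have hpos : 0 < Mx := lt_max_of_lt_left (norm_pos_iff.2 (sub_ne_zero.2 hyx))
    have hle : (K : ℝ) * ((1 / (4 * K)) * ‖y - x‖ + |t| * (1 / (4 * K))) ≤ Mx / 2 := by
      have e1 : ‖y - x‖ ≤ Mx := le_max_left _ _
      have e2 : |t| ≤ Mx := le_max_right _ _
      have : (K : ℝ) * ((1 / (4 * K)) * ‖y - x‖ + |t| * (1 / (4 * K))) =
          (‖y - x‖ + |t|) / 4 := by
        field_simp
      rw [this]
      linarith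
    have := hM.trans ((mul_le_mul_of_nonneg_left hnorm hKpos.le).trans hle)
    linarith

variable {M : Type} [TopologicalSpace M] [ChartedSpace E2 M] [IsManifold 𝓘(ℝ, E2) ∞ M]


theorem inj_loc {G : M → V3} (hG : Sm G) {φ : OpenPartialHomeomorph M E2} (hφ : φ ∈ ATL M) {p : M}
    (hp : p ∈ φ.source) : Function.Injective (dP G p) ↔
      Function.Injective (fderiv ℝ (G ∘ φ.symm) (φ p)) := by
  have hx : φ p ∈ φ.target := φ.map_source hp
  have hd : DifferentiableAt ℝ (G ∘ φ.symm) (φ p) :=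
    ((hG.loc hφ).contDiffAt (φ.open_target.mem_nhds hx)).differentiableAt (by simp)
  rw [dP_eq hφ hp hd]
  have e1' := TTi_comp_TT hφ hp
  have e2' := TT_comp_TTi hφ hx
  rw [φ.left_inv hp] at e2'
  constructor
  · intro h u v huv
    have a1 := DFunLike.congr_fun e2' u
    have a2 := DFunLike.congr_fun e2' v
    simp only [ContinuousLinearMap.comp_apply, ContinuousLinearMap.id_apply] at a1 a2
    have h1 : TTi φ (φ p) u = TTi φ (φ p) v := by
      apply h
      rw [ContinuousLinearMap.comp_apply, ContinuousLinearMap.comp_apply, a1, a2, huv]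
    rw [← a1, ← a2, h1]
  · intro h u v huv
    rw [ContinuousLinearMap.comp_apply, ContinuousLinearMap.comp_apply] at huv
    have h1 := h huv
    have a1 := DFunLike.congr_fun e1' u
    have a2 := DFunLike.congr_fun e1' v
    simp only [ContinuousLinearMap.comp_apply, ContinuousLinearMap.id_apply] at a1 a2
    rw [← a1, ← a2, h1]

theorem K1a_trans {G : M → V3} (hG : Sm G) {φ ψ : OpenPartialHomeomorph M E2} (hφ : φ ∈ ATL M)
    (hψ : ψ ∈ ATL M) {p : M} (h1 : p ∈ φ.source) (h2 : p ∈ ψ.source)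
    (h : CC (G ∘ ψ.symm) (ψ p)) : CC (G ∘ φ.symm) (φ p) := by
  have hx : φ p ∈ φ.target := φ.map_source h1
  have hs : φ.symm (φ p) = p := φ.left_inv h1
  have hmem : φ p ∈ φ.target ∩ φ.symm ⁻¹' ψ.source := ⟨hx, by rw [mem_preimage, hs]; exact h2⟩
  have hopen : IsOpen (φ.target ∩ φ.symm ⁻¹' ψ.source) :=
    φ.isOpen_inter_preimage_symm ψ.open_source
  have hτx : (ψ ∘ φ.symm) (φ p) = ψ p := by rw [Function.comp_apply, hs]
  have hτ : ContDiffAt ℝ ∞ (ψ ∘ φ.symm) (φ p) :=
    (ATL_trans hφ hψ).contDiffAt (hopen.mem_nhds hmem)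
  have hF : ContDiffAt ℝ ∞ (G ∘ ψ.symm) ((ψ ∘ φ.symm) (φ p)) := by
    rw [hτx]
    exact (hG.loc hψ).contDiffAt (ψ.open_target.mem_nhds (ψ.map_source h2))
  have hi : Function.Injective (fderiv ℝ (ψ ∘ φ.symm) (φ p)) := by
    intro u v huv
    have h3 := trans_inv hφ hψ hx (by rw [hs]; exact h2)
    have a1 := DFunLike.congr_fun h3 u
    have a2 := DFunLike.congr_fun h3 v
    simp only [ContinuousLinearMap.comp_apply, ContinuousLinearMap.id_apply] at a1 a2
    rw [← a1, ← a2, huv]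
  have h4 := cc_comp hF hτ hi (by rw [hτx]; exact h)
  refine K1a_congr ?_ h4
  filter_upwards [hopen.mem_nhds hmem] with y hy
  simp only [Function.comp_apply]
  rw [ψ.left_inv hy.2]

theorem ccm_loc {G : M → V3} (hG : Sm G) {φ : OpenPartialHomeomorph M E2} (hφ : φ ∈ ATL M) {p : M}
    (hp : p ∈ φ.source) : CCM G p ↔ CC (G ∘ φ.symm) (φ p) := by
  have hp' : p ∈ (chartAt E2 p).source := mem_chart_source E2 p
  exact ⟨fun h => K1a_trans hG hφ (chart_mem_ATL p) hp hp' h,
    fun h => K1a_trans hG (chart_mem_ATL p) hφ hp' hp h⟩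

end P205F
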