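import Mathlib
import Vale.Agent.Lib.P205F.MD3
import Vale.Agent.Lib.P205I.IG5
import Vale.Agent.Lib.P205I.IP0
import Vale.Agent.Lib.P205I.IP1
import Vale.Agent.Lib.P205I.K1

/-!
# P205I module IP2: existence of a generic map `M → ℝ³` with an even number of cross-caps in every component

`G = pr3 ∘ f`, `S = Zc f`, `f` from `exists_gen4` for an atlas from `exists_finAtlas`; cross-caps in the atlas charts by
`CC_of` and `ccm_loc` (K1); off `Zc f`: `dG_p v = 0` implies `df_p v = τ a4`, so `τ = 0` (otherwise `p ∈ Zc f`) and `v = 0`.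
-/

noncomputable section

namespace P205F

open scoped Manifold ContDiff Topology RealInnerProductSpace
open Set

variable {M : Type} [TopologicalSpace M] [ChartedSpace E2 M] [IsManifold 𝓘(ℝ, E2) ∞ M] [T2Space M]
  [CompactSpace M]

/-- `pr3` as a continuous linear map -/
def IP2_L : V4 →L[ℝ] V3 :=
  LinearMap.toContinuousLinearMap
    { toFun := pr3
      map_add' := fun u w => by
        ext i
        fin_cases i <;> simp [pr3]
      map_smul' := fun c u => by
        ext i
        fin_cases i <;> simp [pr3] }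

theorem IP2_L_apply (u : V4) : IP2_L u = pr3 u := rfl

/-- the kernel of `pr3` -/
theorem IP2_ker {u : V4} (h : pr3 u = 0) : u = u 3 • a4 := by
  have h0 : u 0 = 0 := by
    have := congrFun (congrArg (fun w : V3 => w.ofLp) h) 0
    simpa [pr3] using this
  have h1 : u 1 = 0 := by
    have := congrFun (congrArg (fun w : V3 => w.ofLp) h) 1
    simpa [pr3] using this
  have h2 : u 2 = 0 := by
    have := congrFun (congrArg (fun w : V3 => w.ofLp) h) 2
    simpa [pr3] using this
  ext i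
  fin_cases i
  · simp [a4, h0]
  · simp [a4, h1]
  · simp [a4, h2]
  · simp [a4]

theorem IP2_sm {f : M → V4} (hf : Sm f) : Sm (fun p => pr3 (f p)) := by
  have h1 : ContMDiff 𝓘(ℝ, E2) 𝓘(ℝ, V4) ∞ f := hf
  exact (IP2_L.contDiff.contMDiff).comp h1

/-- derivative in a chart -/
theorem IP2_fd {F : E2 → V4} {x : E2} (hF : DifferentiableAt ℝ F x) (v : E2) :
    fderiv ℝ (fun y => pr3 (F y)) x v = pr3 (fderiv ℝ F x v) := by
  have h1 : (fun y => pr3 (F y)) = IP2_L ∘ F := rfl
  rw [h1, (IP2_L.hasFDerivAt.comp x hF.hasFDerivAt).fderiv]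
  rfl

open Classical in
theorem exists_genMap : ∃ (G : M → V3) (S : Finset M), GenMap G S ∧
    ∀ C : Set M, IsClopen C → Even (S.filter (fun p => p ∈ C)).card := by
  obtain ⟨𝒜⟩ := exists_finAtlas (M := M)
  obtain ⟨f, hf⟩ := exists_gen4 𝒜
  have hfin : (Zc f).Finite := by
    have h1 := (parity hf (isClopen_univ (X := M))).1
    rwa [inter_univ] at h1
  have hdiff : ∀ (φ : OpenPartialHomeomorph M E2), φ ∈ ATL M → ∀ p ∈ φ.source,
      ContDiffAt ℝ ∞ (f ∘ φ.symm) (φ p) := fun φ hφ p hp =>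
    (hf.sm.loc hφ).contDiffAt (φ.open_target.mem_nhds (φ.map_source hp))
  -- `dP f` in the charts of the atlas
  have hdP : ∀ (k : Fin 𝒜.n) (p : M), p ∈ (𝒜.φ k).source → ∀ v : E2, dP f p v =
      fderiv ℝ (f ∘ (𝒜.φ k).symm) (𝒜.φ k p) (TT (𝒜.φ k) p v) := fun k p hp v => by
    rw [dP_eq (𝒜.mem k) hp ((hdiff _ (𝒜.mem k) p hp).differentiableAt (by simp))]
    rfl
  have hball : ∀ (k : Fin 𝒜.n) (p : M), 𝒜.φ k p ∈ Metric.ball (0 : E2) 1 →
      𝒜.φ k p ∈ Metric.closedBall (0 : E2) 2 := fun k p h =>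
    Metric.ball_subset_closedBall (Metric.ball_subset_ball (by norm_num) h)
  refine ⟨fun p => pr3 (f p), hfin.toFinset, ⟨IP2_sm hf.sm, fun p hp => ?_, fun p hp => ?_⟩, ?_⟩
  · -- off the cross-caps
    have hp' : p ∉ Zc f := fun h => hp (hfin.mem_toFinset.2 h)
    have hG : ∀ v, dP (fun p => pr3 (f p)) p v = pr3 (dP f p v) := fun v =>
      IP2_fd ((hdiff _ (chart_mem_ATL p) p (mem_chart_source E2 p)).differentiableAt (by simp)) v
    obtain ⟨k, hk, hk1⟩ := 𝒜.cover p
    rw [injective_iff_map_eq_zero]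
    intro v hv
    rw [hG] at hv
    have h1 := IP2_ker hv
    obtain ⟨τ, hτ⟩ : ∃ τ : ℝ, τ = (dP f p v) 3 := ⟨_, rfl⟩
    rw [← hτ] at h1
    have h2 : τ = 0 := by
      by_contra hne
      apply hp'
      refine ⟨τ⁻¹ • v, ?_⟩
      rw [map_smul, h1, smul_smul, inv_mul_cancel₀ hne, one_smul]
    rw [h2, zero_smul, hdP k p hk] at h1
    have h3 := hf.imm k _ (hball k p hk1) _ h1
    have h4 := DFunLike.congr_fun (TTi_comp_TT (𝒜.mem k) hk) v
    rw [ContinuousLinearMap.comp_apply, h3, map_zero] at h4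
    exact h4.symm
  · -- the cross-caps
    obtain ⟨v, hv⟩ := hfin.mem_toFinset.1 hp
    obtain ⟨k, hk, hk1⟩ := 𝒜.cover p
    rw [ccm_loc (IP2_sm hf.sm) (𝒜.mem k) hk]
    rw [hdP k p hk] at hv
    exact CC_of (hdiff _ (𝒜.mem k) p hk) (hf.imm k _ (hball k p hk1)) hv
      (hf.cc k _ (hball k p hk1) _ hv)
  · intro C hC
    have h1 := (parity hf hC).2
    have h2 : (Zc f ∩ C) = ((hfin.toFinset.filter (fun p => p ∈ C) : Finset M) : Set M) := by
      ext p
      rw [Finset.coe_filter]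
      simp only [Set.mem_inter_iff, Set.mem_ofPred_eq, hfin.mem_toFinset]
    rw [h2, Set.ncard_coe_finset] at h1
    exact h1

end P205F
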