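import Vale.Agent.Lib.P205I.K8
import Vale.Agent.Lib.P205I.IP2
import Vale.Agent.Lib.P205B.Wrap

/-!
# P205I: every closed surface immerses in `ℝ³`

`exists_genMap` (generic map with an even number of cross-caps in every clopen set) and `imm_of_even` (cancellation of
pairs of cross-caps).  `exists_immersion_Eu2` is the same statement with Mathlib's notions, for the model space
`EuclideanSpace ℝ (Fin 2)`.
-/

noncomputable section

namespace P205F

open scoped Manifold ContDiff Topology RealInnerProductSpace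
open Set

theorem exists_immersion {M : Type} [TopologicalSpace M] [ChartedSpace E2 M]
    [IsManifold 𝓘(ℝ, E2) ∞ M] [CompactSpace M] [T2Space M] :
    ∃ ι : M → V3, Sm ι ∧ ∀ p, Function.Injective (dP ι p) := by
  obtain ⟨G, S, hG, he⟩ := exists_genMap (M := M)
  exact imm_of_even hG he

theorem exists_immersion_Eu2 (M : Type) [TopologicalSpace M] [ChartedSpace Eu2 M]
    [IsManifold 𝓘(ℝ, Eu2) ∞ M] [CompactSpace M] [T2Space M] :
    ∃ ι : M → EuclideanSpace ℝ (Fin 3),
      ContMDiff 𝓘(ℝ, Eu2) 𝓘(ℝ, EuclideanSpace ℝ (Fin 3)) ∞ ι ∧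
      ∀ p, Function.Injective (mfderiv 𝓘(ℝ, Eu2) 𝓘(ℝ, EuclideanSpace ℝ (Fin 3)) ι p) := by
  letI c2 : ChartedSpace E2 M := chE2 M
  haveI m2 : IsManifold 𝓘(ℝ, E2) ∞ M := isManifold_chE2 M
  obtain ⟨ι, hι, hi⟩ := exists_immersion (M := M)
  have hι' : ContMDiff 𝓘(ℝ, Eu2) 𝓘(ℝ, EuclideanSpace ℝ (Fin 3)) ∞ ι := (sm_iff_wrap ι).1 hι
  refine ⟨ι, hι', fun p v w hvw => ?_⟩
  have h1 := dP_wrap hι' p v
  have h2 := dP_wrap hι' p w
  exact Jeq.injective (hi p (h1.symm.trans (Eq.trans hvw h2)))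

end P205F
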