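import Mathlib

/-!
# P205I module IA1: general position, local density

`IA1_sard`: equidimensional Sard theorem (`MeasureTheory.addHaar_image_eq_zero_of_det_fderiv_eq_zero`, transported by a
linear equivalence `X ≃ F`): the set of critical values is null, so its complement is dense.
`IA1_local`: let `j : F → Λ` be a right inverse of `L x₀`; for `x` near `x₀` the map `L x ∘ j` is invertible and the
zeros of `x ↦ L x (A + j z) + c x` are the solutions of `z = σ x := -(L x ∘ j)⁻¹ (L x A + c x)`; for a regular value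
`z` of `σ` they are nondegenerate (the derivative of `x ↦ L x (A + j z) + c x = (L x ∘ j) (z - σ x)` at a zero is
`-(L x ∘ j) ∘ Dσ x`).
-/

open scoped ContDiff Topology
open Set Module

namespace P205F

variable {Λ X F : Type} [NormedAddCommGroup Λ] [NormedSpace ℝ Λ] [FiniteDimensional ℝ Λ]
  [NormedAddCommGroup X] [NormedSpace ℝ X] [FiniteDimensional ℝ X]
  [NormedAddCommGroup F] [NormedSpace ℝ F] [FiniteDimensional ℝ F]

/-- all zeros of `g` in `K` are nondegenerate -/
def NDon (g : X → F) (K : Set X) : Prop :=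
  ∀ x ∈ K, g x = 0 → Function.Injective (fderiv ℝ g x)

theorem IA1_sard {U : Set X} (hU : IsOpen U) {σ : X → F} (hσ : ContDiffOn ℝ ∞ σ U)
    (hd : finrank ℝ X = finrank ℝ F) :
    Dense {z : F | ∀ x ∈ U, σ x = z → Function.Injective (fderiv ℝ σ x)} := by
  let _ : MeasurableSpace X := borel X
  have _ : BorelSpace X := ⟨rfl⟩
  obtain ⟨e⟩ : Nonempty (F ≃L[ℝ] X) := ⟨ContinuousLinearEquiv.ofFinrankEq hd.symm⟩
  have hdiff : ∀ x ∈ U, DifferentiableAt ℝ σ x := fun x hx =>
    (hσ.contDiffAt (hU.mem_nhds hx)).differentiableAt (by simp)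
  set C : Set X := {x | x ∈ U ∧ ((e : F →L[ℝ] X).comp (fderiv ℝ σ x)).det = 0} with hC
  have h0 : MeasureTheory.Measure.addHaar ((fun x => e (σ x)) '' C) = 0 := by
    refine MeasureTheory.addHaar_image_eq_zero_of_det_fderivWithin_eq_zero _
      (f' := fun x => (e : F →L[ℝ] X).comp (fderiv ℝ σ x)) (fun x hx => ?_) fun x hx => hx.2
    exact ((e : F →L[ℝ] X).hasFDerivAt.comp x (hdiff x hx.1).hasFDerivAt).hasFDerivWithinAt
  have h1 : Dense {y : X | y ∉ (fun x => e (σ x)) '' C} :=
    MeasureTheory.Measure.dense_of_ae (MeasureTheory.measure_eq_zero_iff_ae_notMem.1 h0)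
  have h2 : Dense (e ⁻¹' {y : X | y ∉ (fun x => e (σ x)) '' C}) :=
    h1.preimage e.toHomeomorph.isOpenMap
  refine h2.mono fun z hz x hx hxz => ?_
  by_contra hinj
  refine hz ⟨x, ⟨hx, ?_⟩, congrArg e hxz⟩
  by_contra hdet
  apply hinj
  have h3 : Function.Injective ((e : F →L[ℝ] X).comp (fderiv ℝ σ x)) :=
    (LinearMap.equivOfDetNeZero _ hdet).injective
  intro v w hvw
  exact h3 (by rw [ContinuousLinearMap.comp_apply, ContinuousLinearMap.comp_apply, hvw])

end P205F
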