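import Vale.Agent.Lib.P205I.IA1

/-!
# P205I module IA1b: general position, local density (second part; the proof is in the docstring of IA1)
-/

open scoped ContDiff Topology
open Set Module

namespace P205F

variable {Λ X F : Type} [NormedAddCommGroup Λ] [NormedSpace ℝ Λ] [FiniteDimensional ℝ Λ]
  [NormedAddCommGroup X] [NormedSpace ℝ X] [FiniteDimensional ℝ X]
  [NormedAddCommGroup F] [NormedSpace ℝ F] [FiniteDimensional ℝ F]

theorem IA1_local {U : Set X} (hU : IsOpen U) {L : X → Λ →L[ℝ] F} {c : X → F}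
    (hL : ContDiffOn ℝ ∞ L U) (hc : ContDiffOn ℝ ∞ c U) (hd : finrank ℝ X = finrank ℝ F) {x₀ : X}
    (hx₀ : x₀ ∈ U) (hs : Function.Surjective (L x₀)) :
    ∃ W ∈ 𝓝 x₀, W ⊆ U ∧ Dense {A : Λ | NDon (fun x => L x A + c x) W} := by
  have : CompleteSpace F := FiniteDimensional.complete ℝ F
  obtain ⟨j0, hj0⟩ := LinearMap.exists_rightInverse_of_surjective (L x₀ : Λ →ₗ[ℝ] F)
    (LinearMap.range_eq_top.2 hs)
  let j : F →L[ℝ] Λ := LinearMap.toContinuousLinearMap j0
  have hj : ∀ z, L x₀ (j z) = z := fun z => DFunLike.congr_fun hj0 z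
  let P : X → (F →L[ℝ] F) := fun x => (L x).comp j
  have hP : ContDiffOn ℝ ∞ P U := hL.clm_comp contDiffOn_const
  have hPx : P x₀ = 1 := by
    ext z
    exact hj z
  let W : Set X := U ∩ P ⁻¹' {T | IsUnit T}
  have hW : IsOpen W := hP.continuousOn.isOpen_inter_preimage hU Units.isOpen
  have hx₀W : x₀ ∈ W := ⟨hx₀, by
    show IsUnit (P x₀)
    rw [hPx]
    exact isUnit_one⟩
  refine ⟨W, hW.mem_nhds hx₀W, inter_subset_left, ?_⟩
  rw [Metric.dense_iff]
  intro A₀ δ hδ
  let b : X → F := fun x => L x A₀ + c x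
  let σ : X → F := fun x => -(Ring.inverse (P x)) (b x)
  have hLa : ∀ x ∈ U, ContDiffAt ℝ ∞ L x := fun x hx => hL.contDiffAt (hU.mem_nhds hx)
  have hca : ∀ x ∈ U, ContDiffAt ℝ ∞ c x := fun x hx => hc.contDiffAt (hU.mem_nhds hx)
  have hPa : ∀ x ∈ U, ContDiffAt ℝ ∞ P x := fun x hx => hP.contDiffAt (hU.mem_nhds hx)
  have hba : ∀ x ∈ U, ContDiffAt ℝ ∞ b x := fun x hx =>
    ((hLa x hx).clm_apply contDiffAt_const).add (hca x hx)
  have hσa : ∀ x ∈ W, ContDiffAt ℝ ∞ σ x := by
    rintro x ⟨hx, u, hu⟩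
    have h1 : ContDiffAt ℝ ∞ (fun y => Ring.inverse (P y)) x := by
      have h2 := contDiffAt_ringInverse (n := ∞) ℝ u
      rw [hu] at h2
      exact h2.comp x (hPa x hx)
    exact (h1.clm_apply (hba x hx)).neg
  have hPσ : ∀ x ∈ W, P x (σ x) = - b x := by
    rintro x ⟨hx, hu⟩
    have h1 : P x * Ring.inverse (P x) = 1 := Ring.mul_inverse_cancel _ hu
    have h2 := DFunLike.congr_fun h1 (b x)
    show P x (-(Ring.inverse (P x)) (b x)) = - b x
    rw [map_neg]
    exact congrArg Neg.neg h2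
  have hdense := IA1_sard hW (fun x hx => (hσa x hx).contDiffWithinAt) hd
  have hop : IsOpen {z : F | ‖j z‖ < δ} := isOpen_lt (j.continuous.norm) continuous_const
  obtain ⟨z, hz1, hz2⟩ := hdense.inter_open_nonempty _ hop ⟨0, by
    show ‖j 0‖ < δ
    rw [map_zero, norm_zero]
    exact hδ⟩
  refine ⟨A₀ + j z, ?_, ?_⟩
  · rw [mem_ball_iff_norm, add_sub_cancel_left]
    exact hz1
  · intro x hx h0
    have hg : ∀ y ∈ W, L y (A₀ + j z) + c y = P y (z - σ y) := by
      intro y hy
      rw [map_sub, hPσ y hy, map_add]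
      show L y A₀ + L y (j z) + c y = L y (j z) - -(L y A₀ + c y)
      abel
    have hinj : Function.Injective (P x) := by
      obtain ⟨u, hu⟩ := hx.2
      intro a a' haa
      have h1 : ∀ w, (↑u⁻¹ : F →L[ℝ] F) (P x w) = w := by
        intro w
        have h2 : (↑u⁻¹ : F →L[ℝ] F) * (P x) = 1 := by
          rw [← hu]
          exact u.inv_mul
        exact DFunLike.congr_fun h2 w
      rw [← h1 a, haa, h1 a']
    have hzσ : z - σ x = 0 := by
      have h1 : P x (z - σ x) = P x 0 := by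
        rw [← hg x hx, map_zero]
        exact h0
      exact hinj h1
    have hDσ := hz2 x hx (sub_eq_zero.1 hzσ).symm
    have hPd : HasFDerivAt P (fderiv ℝ P x) x :=
      ((hPa x hx.1).differentiableAt (by simp)).hasFDerivAt
    have hσd : HasFDerivAt σ (fderiv ℝ σ x) x :=
      ((hσa x hx).differentiableAt (by simp)).hasFDerivAt
    have h1 : HasFDerivAt (fun y => P y (z - σ y)) _ x := hPd.clm_apply (hσd.const_sub z)
    have h2 : (fun y => L y (A₀ + j z) + c y) =ᶠ[𝓝 x] fun y => P y (z - σ y) := by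
      filter_upwards [hW.mem_nhds hx] with y hy
      exact hg y hy
    have h3 : fderiv ℝ (fun y => L y (A₀ + j z) + c y) x = -((P x).comp (fderiv ℝ σ x)) := by
      rw [h2.fderiv_eq, h1.fderiv]
      ext w
      simp [hzσ]
    rw [h3]
    intro a a' haa
    have h4 : P x (fderiv ℝ σ x a) = P x (fderiv ℝ σ x a') := neg_injective haa
    exact hDσ (hinj h4)

end P205F
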