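import Vale.Agent.Lib.P205I.IA1b

/-!
# P205I module IA2: general position on compact sets

`IA2_open`: the set of `(A, x)` with `L x A + c x ≠ 0` or injective derivative is open in `Λ × U`
(derivative of `y ↦ L y A + c y` at `x` is continuous in `(A, x)`; injective linear maps form an open set), and `K` is
compact.  `IA2_main`: cover `K` by finitely many small compact sets where `IA1_local` applies; finite intersections of
open dense sets are dense.  `IA2_lt`: dimension of the source smaller than the dimension of the target: the range of a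
`C¹` map has dense complement (`ContDiffOn.dense_compl_image_of_dimH_lt_finrank` or
`ContDiff.dense_compl_range_of_finrank_lt_finrank`), same argument; openness by compactness.
-/

open scoped ContDiff Topology
open Set Module

namespace P205F

variable {Λ X F : Type} [NormedAddCommGroup Λ] [NormedSpace ℝ Λ] [FiniteDimensional ℝ Λ]
  [NormedAddCommGroup X] [NormedSpace ℝ X] [FiniteDimensional ℝ X]
  [NormedAddCommGroup F] [NormedSpace ℝ F] [FiniteDimensional ℝ F]

private theorem IA2_deriv {U : Set X} (hU : IsOpen U)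
    {L : X → Λ →L[ℝ] F} {c : X → F} (hL : ContDiffOn ℝ ∞ L U) (hc : ContDiffOn ℝ ∞ c U) {x : X}
    (hx : x ∈ U) (A : Λ) :
    fderiv ℝ (fun y => L y A + c y) x = (fderiv ℝ L x).flip A + fderiv ℝ c x := by
  have h1 : DifferentiableAt ℝ L x :=
    (hL.contDiffAt (hU.mem_nhds hx)).differentiableAt (by simp)
  have h2 : DifferentiableAt ℝ c x :=
    (hc.contDiffAt (hU.mem_nhds hx)).differentiableAt (by simp)
  have h3 : HasFDerivAt (fun y => L y A) ((fderiv ℝ L x).flip A) x := by
    have h4 := ((ContinuousLinearMap.apply ℝ F A).hasFDerivAt (x := L x)).comp x h1.hasFDerivAt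
    exact h4
  exact (h3.add h2.hasFDerivAt).fderiv

theorem IA2_open {U K : Set X} (hU : IsOpen U) (hK : IsCompact K) (hKU : K ⊆ U)
    {L : X → Λ →L[ℝ] F} {c : X → F} (hL : ContDiffOn ℝ ∞ L U) (hc : ContDiffOn ℝ ∞ c U) :
    IsOpen {A : Λ | NDon (fun x => L x A + c x) K} := by
  rw [isOpen_iff_mem_nhds]
  intro A₀ hA₀
  have hA₀' : NDon (fun x => L x A₀ + c x) K := hA₀
  have key : ∀ᶠ A in 𝓝 A₀, ∀ x ∈ K, (L x A + c x = 0 →
      Function.Injective (fderiv ℝ (fun y => L y A + c y) x)) := by
    refine hK.eventually_forall_of_forall_eventually fun x hx => ?_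
    have hxU : x ∈ U := hKU hx
    have cL : ContinuousAt L x := hL.continuousOn.continuousAt (hU.mem_nhds hxU)
    have cc : ContinuousAt c x := hc.continuousOn.continuousAt (hU.mem_nhds hxU)
    have cL' : ContinuousAt (fderiv ℝ L) x :=
      (hL.continuousOn_fderiv_of_isOpen hU (by simp)).continuousAt (hU.mem_nhds hxU)
    have cc' : ContinuousAt (fderiv ℝ c) x :=
      (hc.continuousOn_fderiv_of_isOpen hU (by simp)).continuousAt (hU.mem_nhds hxU)
    have s1 : Filter.Tendsto (fun z : Λ × X => z.2) (𝓝 (A₀, x)) (𝓝 x) := continuousAt_snd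
    have hG : ContinuousAt (fun z : Λ × X => L z.2 z.1 + c z.2) (A₀, x) := by
      have a1 : ContinuousAt (fun z : Λ × X => L z.2) (A₀, x) :=
        ContinuousAt.comp (f := fun z : Λ × X => z.2) (g := L) cL continuousAt_snd
      have a2 : ContinuousAt (fun z : Λ × X => c z.2) (A₀, x) :=
        ContinuousAt.comp (f := fun z : Λ × X => z.2) (g := c) cc continuousAt_snd
      exact (a1.clm_apply continuousAt_fst).add a2
    by_cases h0 : L x A₀ + c x = 0
    · have hinj := hA₀' x hx h0
      have hD : ContinuousAt (fun z : Λ × X => (fderiv ℝ L z.2).flip z.1 + fderiv ℝ c z.2)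
          (A₀, x) := by
        have a1 : ContinuousAt (fun z : Λ × X => (fderiv ℝ L z.2).flip) (A₀, x) := by
          have b1 : ContinuousAt (fun z : Λ × X => fderiv ℝ L z.2) (A₀, x) :=
            ContinuousAt.comp (f := fun z : Λ × X => z.2) (g := fderiv ℝ L) cL' continuousAt_snd
          exact (ContinuousLinearMap.flipₗᵢ ℝ X Λ F).continuous.continuousAt.comp b1
        have a2 : ContinuousAt (fun z : Λ × X => fderiv ℝ c z.2) (A₀, x) :=
          ContinuousAt.comp (f := fun z : Λ × X => z.2) (g := fderiv ℝ c) cc' continuousAt_snd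
        exact (a1.clm_apply continuousAt_fst).add a2
      have hopen : IsOpen {T : X →L[ℝ] F | Function.Injective T} :=
        ContinuousLinearMap.isOpen_injective
      rw [IA2_deriv hU hL hc hxU] at hinj
      have e1 : ∀ᶠ z : Λ × X in 𝓝 (A₀, x),
          Function.Injective ((fderiv ℝ L z.2).flip z.1 + fderiv ℝ c z.2) :=
        hD.eventually (hopen.mem_nhds hinj)
      have e2 : ∀ᶠ z : Λ × X in 𝓝 (A₀, x), z.2 ∈ U := s1.eventually (hU.mem_nhds hxU)
      filter_upwards [e1, e2] with z z1 z2 _
      rw [IA2_deriv hU hL hc z2]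
      exact z1
    · have e1 : ∀ᶠ z : Λ × X in 𝓝 (A₀, x), L z.2 z.1 + c z.2 ≠ 0 :=
        hG.eventually (isOpen_ne.mem_nhds h0)
      filter_upwards [e1] with z z1 z2
      exact absurd z2 z1
  exact key

theorem IA2_main {U K : Set X} (hU : IsOpen U) (hK : IsCompact K) (hKU : K ⊆ U)
    {L : X → Λ →L[ℝ] F} {c : X → F} (hL : ContDiffOn ℝ ∞ L U) (hc : ContDiffOn ℝ ∞ c U)
    (hd : finrank ℝ X = finrank ℝ F) (hs : ∀ x ∈ K, Function.Surjective (L x)) :
    Dense {A : Λ | NDon (fun x => L x A + c x) K} := by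
  have key : ∃ C : Set X, IsCompact C ∧ K ⊆ C ∧ C ⊆ U ∧
      Dense {A : Λ | NDon (fun x => L x A + c x) C} := by
    refine hK.induction_on (p := fun s => ∃ C : Set X, IsCompact C ∧ s ⊆ C ∧ C ⊆ U ∧
      Dense {A : Λ | NDon (fun x => L x A + c x) C}) ?_ ?_ ?_ ?_
    · refine ⟨∅, isCompact_empty, Subset.rfl, empty_subset _, ?_⟩
      have h1 : {A : Λ | NDon (fun x => L x A + c x) ∅} = univ :=
        eq_univ_of_forall fun A x hx => hx.elim
      rw [h1]
      exact dense_univ
    · rintro s t hst ⟨C, h1, h2, h3, h4⟩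
      exact ⟨C, h1, hst.trans h2, h3, h4⟩
    · rintro s t ⟨C, h1, h2, h3, h4⟩ ⟨C', h1', h2', h3', h4'⟩
      refine ⟨C ∪ C', h1.union h1', union_subset_union h2 h2', union_subset h3 h3', ?_⟩
      refine (h4.inter_of_isOpen_left h4' (IA2_open hU h1 h3 hL hc)).mono ?_
      rintro A ⟨a1, a2⟩ x (hx | hx)
      · exact a1 x hx
      · exact a2 x hx
    · intro x hx
      obtain ⟨W, hW, hWU, hD⟩ := IA1_local hU hL hc hd (hKU hx) (hs x hx)
      obtain ⟨C, hC, hCW, hCc⟩ := local_compact_nhds hW
      have hsub : {A : Λ | NDon (fun x => L x A + c x) W} ⊆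
          {A : Λ | NDon (fun x => L x A + c x) C} := fun A hA y hy => hA y (hCW hy)
      exact ⟨C, mem_nhdsWithin_of_mem_nhds hC, C, hCc, Subset.rfl, hCW.trans hWU,
        hD.mono hsub⟩
  obtain ⟨C, -, h2, -, h4⟩ := key
  have hsub : {A : Λ | NDon (fun x => L x A + c x) C} ⊆
      {A : Λ | NDon (fun x => L x A + c x) K} := fun A hA x hx => hA x (h2 hx)
  exact h4.mono hsub

end P205F
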