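import Mathlib

/-!
# P205I module IJ1: the cubic Veronese map

`P x` = all monomials `x_i`, `x_i x_j`, `x_i x_j x_k` (reindexed by `Fin m`).  For `x ≠ y` and `(v, w) ≠ 0` two linear
functionals (cubic polynomials `Q` without constant term) show the independence.  With
`l z = ⟪z - y, x - y⟫ / ‖x - y‖²`: `Q = l² (3 - 2 l)` has `Q x - Q y = 1`, `dQ x = dQ y = 0`; if `v ≠ 0` take
`Q = l² ⟪z - x, v⟫` (`Q x = Q y = 0`, `dQ x v = ‖v‖²`, `dQ y = 0`), if `w ≠ 0` take `(1 - l)² ⟪z - y, w⟫`.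
-/

open scoped ContDiff Topology
open Set Module

namespace P205F

/-- affine coordinates: `1` and the coordinates -/
noncomputable def ij1_X {n : ℕ} (z : EuclideanSpace ℝ (Fin n)) : Option (Fin n) → ℝ
  | none => 1
  | some i => z i

/-- index set of the monomials -/
abbrev Ij1I (n : ℕ) : Type := Option (Fin n) × Option (Fin n) × Option (Fin n)

/-- the cubic Veronese map -/
noncomputable def ij1_P (n : ℕ) (z : EuclideanSpace ℝ (Fin n)) :
    Fin (Fintype.card (Ij1I n)) → ℝ := fun q =>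
  ij1_X z ((Fintype.equivFin (Ij1I n)).symm q).1 *
    ij1_X z ((Fintype.equivFin (Ij1I n)).symm q).2.1 *
    ij1_X z ((Fintype.equivFin (Ij1I n)).symm q).2.2

theorem ij1_X_contDiff {n : ℕ} (i : Option (Fin n)) :
    ContDiff ℝ ∞ (fun z : EuclideanSpace ℝ (Fin n) => ij1_X z i) := by
  cases i with
  | none => exact contDiff_const
  | some i => exact (EuclideanSpace.proj (𝕜 := ℝ) i).contDiff

theorem ij1_P_contDiff (n : ℕ) : ContDiff ℝ ∞ (ij1_P n) := by
  rw [contDiff_pi]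
  intro q
  exact ((ij1_X_contDiff _).mul (ij1_X_contDiff _)).mul (ij1_X_contDiff _)

theorem ij1_aff {n : ℕ} (u : EuclideanSpace ℝ (Fin n)) (c : ℝ) :
    ∃ a : Option (Fin n) → ℝ, ∀ z, ∑ i, a i * ij1_X z i = inner ℝ u z + c := by
  refine ⟨fun i => i.elim c (fun j => u j), fun z => ?_⟩
  rw [Fintype.sum_option, PiLp.inner_apply]
  have h1 : ∀ i : Fin n, inner ℝ (u i) (z i) = u i * z i := fun i => by
    rw [RCLike.inner_apply]
    simp only [RCLike.conj_to_real]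
    ring
  simp only [Option.elim_none, Option.elim_some, ij1_X, mul_one, h1]
  ring

theorem ij1_func {n : ℕ} (a b c : Option (Fin n) → ℝ) :
    ∃ L : (Fin (Fintype.card (Ij1I n)) → ℝ) →L[ℝ] ℝ, ∀ z, L (ij1_P n z) =
      (∑ i, a i * ij1_X z i) * (∑ i, b i * ij1_X z i) * (∑ i, c i * ij1_X z i) := by
  refine ⟨∑ q, (a ((Fintype.equivFin (Ij1I n)).symm q).1 *
    b ((Fintype.equivFin (Ij1I n)).symm q).2.1 *
    c ((Fintype.equivFin (Ij1I n)).symm q).2.2) •
      ContinuousLinearMap.proj (R := ℝ) (φ := fun _ : Fin (Fintype.card (Ij1I n)) => ℝ) q,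
    fun z => ?_⟩
  rw [_root_.sum_apply]
  have h1 : ∀ q, ((a ((Fintype.equivFin (Ij1I n)).symm q).1 *
    b ((Fintype.equivFin (Ij1I n)).symm q).2.1 *
    c ((Fintype.equivFin (Ij1I n)).symm q).2.2) •
      ContinuousLinearMap.proj (R := ℝ) (φ := fun _ : Fin (Fintype.card (Ij1I n)) => ℝ) q)
        (ij1_P n z) = (fun p : Ij1I n => (a p.1 * ij1_X z p.1) * (b p.2.1 * ij1_X z p.2.1) *
          (c p.2.2 * ij1_X z p.2.2)) ((Fintype.equivFin (Ij1I n)).symm q) := by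
    intro q
    rw [_root_.smul_apply, ContinuousLinearMap.proj_apply, smul_eq_mul, ij1_P]
    ring
  rw [Finset.sum_congr rfl fun q _ => h1 q]
  refine (Equiv.sum_comp (Fintype.equivFin (Ij1I n)).symm (fun p : Ij1I n =>
    (a p.1 * ij1_X z p.1) * (b p.2.1 * ij1_X z p.2.1) * (c p.2.2 * ij1_X z p.2.2))).trans ?_
  simp only [Fintype.sum_prod_type]
  rw [mul_assoc, Finset.sum_mul_sum, Finset.sum_mul_sum]
  refine Finset.sum_congr rfl fun i _ => ?_
  simp only [Finset.mul_sum, mul_assoc]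

theorem ij1_key {n : ℕ} (u₁ u₂ u₃ : EuclideanSpace ℝ (Fin n)) (c₁ c₂ c₃ : ℝ) :
    ∃ L : (Fin (Fintype.card (Ij1I n)) → ℝ) →L[ℝ] ℝ,
      (∀ z, L (ij1_P n z) = (inner ℝ u₁ z + c₁) * (inner ℝ u₂ z + c₂) * (inner ℝ u₃ z + c₃)) ∧
      ∀ z v, L (fderiv ℝ (ij1_P n) z v) =
        inner ℝ u₁ v * (inner ℝ u₂ z + c₂) * (inner ℝ u₃ z + c₃) +
        (inner ℝ u₁ z + c₁) * inner ℝ u₂ v * (inner ℝ u₃ z + c₃) +
        (inner ℝ u₁ z + c₁) * (inner ℝ u₂ z + c₂) * inner ℝ u₃ v := by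
  obtain ⟨a, ha⟩ := ij1_aff u₁ c₁
  obtain ⟨b, hb⟩ := ij1_aff u₂ c₂
  obtain ⟨c, hc⟩ := ij1_aff u₃ c₃
  obtain ⟨L, hL⟩ := ij1_func a b c
  have hL' : ∀ z, L (ij1_P n z) =
      (inner ℝ u₁ z + c₁) * (inner ℝ u₂ z + c₂) * (inner ℝ u₃ z + c₃) := fun z => by
    rw [hL, ha, hb, hc]
  refine ⟨L, hL', fun z v => ?_⟩
  have hd : DifferentiableAt ℝ (ij1_P n) z :=
    ((ij1_P_contDiff n).differentiable (by simp)) z
  have h1 : HasFDerivAt (fun z => L (ij1_P n z)) (L.comp (fderiv ℝ (ij1_P n) z)) z :=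
    L.hasFDerivAt.comp z hd.hasFDerivAt
  have hi : ∀ (u : EuclideanSpace ℝ (Fin n)) (c : ℝ),
      HasFDerivAt (fun z => (inner ℝ u z + c : ℝ)) (innerSL ℝ u) z := fun u c =>
    (innerSL ℝ u).hasFDerivAt.add_const c
  have h2 := ((hi u₁ c₁).mul (hi u₂ c₂)).mul (hi u₃ c₃)
  have h3 : (fun z => L (ij1_P n z)) = fun z =>
      (inner ℝ u₁ z + c₁) * (inner ℝ u₂ z + c₂) * (inner ℝ u₃ z + c₃) := funext hL'
  rw [h3] at h1
  have h4 := h1.unique h2
  have h5 := congrArg (fun T : EuclideanSpace ℝ (Fin n) →L[ℝ] ℝ => T v) h4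
  simp only [ContinuousLinearMap.comp_apply, _root_.add_apply,
    _root_.smul_apply, smul_eq_mul, innerSL_apply_apply] at h5
  rw [h5]
  simp only [Pi.mul_apply]
  ring

theorem exists_cubic (n : ℕ) : ∃ (m : ℕ) (P : EuclideanSpace ℝ (Fin n) → (Fin m → ℝ)),
    ContDiff ℝ ∞ P ∧ (∀ x v, v ≠ 0 → fderiv ℝ P x v ≠ 0) ∧
    ∀ x y, x ≠ y → ∀ v w, ¬ (v = 0 ∧ w = 0) →
      LinearIndependent ℝ ![P x - P y, fderiv ℝ P x v - fderiv ℝ P y w] := by
  refine ⟨Fintype.card (Ij1I n), ij1_P n, ij1_P_contDiff n, ?_, ?_⟩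
  · intro x v hv h0
    obtain ⟨L, -, hL⟩ := ij1_key v 0 0 0 1 1
    have h1 := hL x v
    rw [h0, map_zero] at h1
    simp only [inner_zero_left, zero_add, mul_one, mul_zero, add_zero] at h1
    exact hv (inner_self_eq_zero.1 h1.symm)
  · intro x y hxy v w hvw
    rw [LinearIndependent.pair_iff]
    intro s t hst
    obtain ⟨r, hr⟩ : ∃ r : EuclideanSpace ℝ (Fin n), r = (‖x - y‖ ^ 2)⁻¹ • (x - y) := ⟨_, rfl⟩
    have hxy' : ‖x - y‖ ≠ 0 := norm_ne_zero_iff.2 (sub_ne_zero.2 hxy)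
    have hr1 : (inner ℝ r x : ℝ) + (- inner ℝ r y) = 1 := by
      rw [← sub_eq_add_neg, ← inner_sub_right, hr, inner_smul_left, real_inner_self_eq_norm_sq]
      simp only [RCLike.conj_to_real]
      field_simp
    have hr0 : (inner ℝ r y : ℝ) + (- inner ℝ r y) = 0 := by ring
    -- the first functional
    have hs : s = 0 := by
      obtain ⟨L, hL1, hL2⟩ := ij1_key r r ((-2 : ℝ) • r) (- inner ℝ r y) (- inner ℝ r y)
        (3 + 2 * inner ℝ r y)
      have h1 := congrArg L hst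
      rw [map_add, map_smul, map_smul, map_sub, map_sub, map_zero, hL1, hL1, hL2, hL2, hr1, hr0] at h1
      simp only [inner_smul_left, RCLike.conj_to_real, smul_eq_mul] at h1
      have h2 : (inner ℝ r x : ℝ) = 1 + inner ℝ r y := by linarith
      rw [h2] at h1
      linarith
    refine ⟨hs, ?_⟩
    rw [hs, zero_smul, zero_add] at hst
    rcases eq_or_ne v 0 with hv | hv
    · have hw : w ≠ 0 := fun hw => hvw ⟨hv, hw⟩
      obtain ⟨L, hL1, hL2⟩ := ij1_key (-r) (-r) w (1 + inner ℝ r y) (1 + inner ℝ r y)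
        (- inner ℝ w y)
      have h1 := congrArg L hst
      rw [map_smul, map_sub, map_zero, hL2, hL2] at h1
      simp only [inner_neg_left, smul_eq_mul] at h1
      have h2 : (inner ℝ r x : ℝ) = 1 + inner ℝ r y := by linarith
      rw [h2] at h1
      have h3 : t * inner ℝ w w = 0 := by
        linear_combination (-1 : ℝ) * h1
      rcases mul_eq_zero.1 h3 with h4 | h4
      · exact h4
      · exact absurd (inner_self_eq_zero.1 h4) hw
    · obtain ⟨L, hL1, hL2⟩ := ij1_key r r v (- inner ℝ r y) (- inner ℝ r y)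
        (- inner ℝ v x)
      have h1 := congrArg L hst
      rw [map_smul, map_sub, map_zero, hL2, hL2, hr1, hr0] at h1
      simp only [smul_eq_mul] at h1
      have h3 : t * inner ℝ v v = 0 := by
        linear_combination h1
      rcases mul_eq_zero.1 h3 with h4 | h4
      · exact h4
      · exact absurd (inner_self_eq_zero.1 h4) hv

end P205F
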