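import Mathlib
import Vale.Agent.Lib.P205F.TDefs

/-!
# P205I module IN1a: the difference quotient `hG` (see the docstring of IN1)
-/

noncomputable section

namespace P205F

open scoped ContDiff Topology RealInnerProductSpace
open Set

/-- the difference quotient -/
def hG (F : E2 → V4) (y v : E2) (t : ℝ) : V4 := ∫ s in (0 : ℝ)..1, fderiv ℝ F (y + (s * t) • v) v

section IN1aParam

variable {P V : Type*} [NormedAddCommGroup P] [NormedSpace ℝ P] [FiniteDimensional ℝ P]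
  [NormedAddCommGroup V] [NormedSpace ℝ V] [CompleteSpace V] {D : Set (P × ℝ)} {O : Set P}

omit [FiniteDimensional ℝ P] [NormedSpace ℝ P] [NormedSpace ℝ V] [CompleteSpace V] in
private theorem IN1a_slice (hDO : ∀ x ∈ O, ∀ s ∈ Icc (0 : ℝ) 1, (x, s) ∈ D) {G : P × ℝ → V}
    (hG : ContinuousOn G D) {x : P} (hx : x ∈ O) : ContinuousOn (fun s : ℝ => G (x, s)) (Icc 0 1) :=
  hG.comp (by fun_prop) fun s hs => hDO x hx s hs

omit [FiniteDimensional ℝ P] [NormedSpace ℝ P] [NormedSpace ℝ V] [CompleteSpace V] in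
private theorem IN1a_int (hDO : ∀ x ∈ O, ∀ s ∈ Icc (0 : ℝ) 1, (x, s) ∈ D) {G : P × ℝ → V}
    (hG : ContinuousOn G D) {x : P} (hx : x ∈ O) :
    IntervalIntegrable (fun s : ℝ => G (x, s)) MeasureTheory.volume 0 1 :=
  (IN1a_slice hDO hG hx).intervalIntegrable_of_Icc zero_le_one

omit [FiniteDimensional ℝ P] [NormedSpace ℝ P] [NormedSpace ℝ V] [CompleteSpace V] in
private theorem IN1a_meas (hDO : ∀ x ∈ O, ∀ s ∈ Icc (0 : ℝ) 1, (x, s) ∈ D) {G : P × ℝ → V}
    (hG : ContinuousOn G D) {x : P} (hx : x ∈ O) :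
    MeasureTheory.AEStronglyMeasurable (fun s : ℝ => G (x, s))
      (MeasureTheory.volume.restrict (uIoc 0 1)) := by
  rw [uIoc_of_le zero_le_one]
  exact ((IN1a_slice hDO hG hx).mono Ioc_subset_Icc_self).aestronglyMeasurable measurableSet_Ioc

omit [CompleteSpace V] in
/-- differentiation under the integral sign -/
private theorem IN1a_deriv (hD : IsOpen D) (hO : IsOpen O)
    (hDO : ∀ x ∈ O, ∀ s ∈ Icc (0 : ℝ) 1, (x, s) ∈ D) {G : P × ℝ → V} (hG : ContDiffOn ℝ ∞ G D)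
    {x : P} (hx : x ∈ O) :
    HasFDerivAt (fun y => ∫ s in (0 : ℝ)..1, G (y, s))
      (∫ s in (0 : ℝ)..1, (fderiv ℝ G (x, s)).comp (ContinuousLinearMap.inl ℝ P ℝ)) x := by
  have hprop : ProperSpace P := FiniteDimensional.proper ℝ P
  have hGX : ContinuousOn (fun q => (fderiv ℝ G q).comp (ContinuousLinearMap.inl ℝ P ℝ)) D :=
    ((hG.fderiv_of_isOpen hD (m := ∞) (by simp)).clm_comp contDiffOn_const).continuousOn
  obtain ⟨ρ, hρ, hρ'⟩ := Metric.nhds_basis_closedBall.mem_iff.1 (hO.mem_nhds hx)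
  have hK : IsCompact (Metric.closedBall x ρ ×ˢ Icc (0 : ℝ) 1) :=
    (isCompact_closedBall x ρ).prod isCompact_Icc
  have hsub : Metric.closedBall x ρ ×ˢ Icc (0 : ℝ) 1 ⊆ D := fun q hq => hDO q.1 (hρ' hq.1) q.2 hq.2
  obtain ⟨C, hC⟩ := hK.exists_bound_of_continuousOn (hGX.mono hsub)
  refine intervalIntegral.hasFDerivAt_integral_of_dominated_of_fderiv_le
    (F := fun y s => G (y, s))
    (F' := fun y s => (fderiv ℝ G (y, s)).comp (ContinuousLinearMap.inl ℝ P ℝ))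
    (bound := fun _ => C) (Metric.closedBall_mem_nhds x hρ) ?_ ?_ ?_ ?_ ?_ ?_
  · filter_upwards [hO.mem_nhds hx] with y hy
    exact IN1a_meas hDO hG.continuousOn hy
  · exact IN1a_int hDO hG.continuousOn hx
  · exact IN1a_meas hDO hGX hx
  · refine Filter.Eventually.of_forall fun t ht y hy => hC (y, t) ⟨hy, ?_⟩
    rw [uIoc_of_le zero_le_one] at ht
    exact ⟨ht.1.le, ht.2⟩
  · exact intervalIntegrable_const
  · refine Filter.Eventually.of_forall fun t ht y hy => ?_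
    rw [uIoc_of_le zero_le_one] at ht
    have h1 : HasFDerivAt G (fderiv ℝ G (y, t)) (y, t) :=
      ((hG.contDiffAt (hD.mem_nhds (hDO y (hρ' hy) t ⟨ht.1.le, ht.2⟩))).differentiableAt
        (by simp)).hasFDerivAt
    exact h1.comp y (hasFDerivAt_prodMk_left y t)

private theorem IN1a_smooth (hD : IsOpen D) (hO : IsOpen O)
    (hDO : ∀ x ∈ O, ∀ s ∈ Icc (0 : ℝ) 1, (x, s) ∈ D) (n : ℕ) : ∀ {G : P × ℝ → V},
    ContDiffOn ℝ ∞ G D → ContDiffOn ℝ n (fun y => ∫ s in (0 : ℝ)..1, G (y, s)) O := by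
  induction n with
  | zero =>
    intro G hG
    rw [Nat.cast_zero, contDiffOn_zero]
    exact fun x hx => (IN1a_deriv hD hO hDO hG hx).continuousAt.continuousWithinAt
  | succ n ih =>
    intro G hG
    have h3 : ((n + 1 : ℕ) : WithTop ℕ∞) = (n : WithTop ℕ∞) + 1 := by push_cast; rfl
    rw [h3, contDiffOn_succ_iff_fderiv_apply hO.uniqueDiffOn]
    refine ⟨fun y hy => (IN1a_deriv hD hO hDO hG hy).differentiableAt.differentiableWithinAt,
      fun h => absurd h (by simp), fun y => ?_⟩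
    have h4 : ContDiffOn ℝ ∞ (fun q => fderiv ℝ G q (y, 0)) D :=
      (hG.fderiv_of_isOpen hD (m := ∞) (by simp)).clm_apply contDiffOn_const
    refine (ih h4).congr fun x hx => ?_
    rw [fderivWithin_of_isOpen hO hx, (IN1a_deriv hD hO hDO hG hx).fderiv]
    have hGX : ContinuousOn (fun q => (fderiv ℝ G q).comp (ContinuousLinearMap.inl ℝ P ℝ)) D :=
      ((hG.fderiv_of_isOpen hD (m := ∞) (by simp)).clm_comp contDiffOn_const).continuousOn
    rw [ContinuousLinearMap.intervalIntegral_apply (IN1a_int hDO hGX hx)]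
    rfl

end IN1aParam

theorem hG_eq {F : E2 → V4} {U : Set E2} (hU : IsOpen U) (hF : ContDiffOn ℝ ∞ F U) {y v : E2} {t : ℝ}
    (h : ∀ s ∈ Icc (0 : ℝ) 1, y + (s * t) • v ∈ U) : F (y + t • v) - F y = t • hG F y v t := by
  have hfd : ContinuousOn (fderiv ℝ F) U := (hF.fderiv_of_isOpen hU (m := ∞) (by simp)).continuousOn
  have hc : Continuous fun s : ℝ => y + (s * t) • v := by fun_prop
  have hcont : ContinuousOn (fun s : ℝ => fderiv ℝ F (y + (s * t) • v) v) (Icc 0 1) :=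
    (hfd.comp hc.continuousOn h).clm_apply continuousOn_const
  have hint : IntervalIntegrable (fun s : ℝ => fderiv ℝ F (y + (s * t) • v) v)
      MeasureTheory.volume 0 1 := hcont.intervalIntegrable_of_Icc zero_le_one
  have hder : ∀ s ∈ uIcc (0 : ℝ) 1, HasDerivAt (fun s : ℝ => F (y + (s * t) • v))
      (t • fderiv ℝ F (y + (s * t) • v) v) s := by
    intro s hs
    rw [uIcc_of_le zero_le_one] at hs
    have h1 : HasFDerivAt F (fderiv ℝ F (y + (s * t) • v)) (y + (s * t) • v) :=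
      ((hF.contDiffAt (hU.mem_nhds (h s hs))).differentiableAt (by simp)).hasFDerivAt
    have h2 : HasDerivAt (fun s : ℝ => y + (s * t) • v) (t • v) s := by
      have h3 : HasDerivAt (fun s : ℝ => s * t) t s := by
        simpa using (hasDerivAt_id s).mul_const t
      exact (h3.smul_const v).const_add y
    have h4 := h1.comp_hasDerivAt s h2
    rw [← map_smul]
    exact h4
  have hftc := intervalIntegral.integral_eq_sub_of_hasDerivAt hder (hint.smul t)
  rw [intervalIntegral.integral_smul] at hftc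
  rw [hG, hftc, one_mul, zero_mul, zero_smul, add_zero]

theorem hG_smooth {F : E2 → V4} {U : Set E2} (hU : IsOpen U) (hF : ContDiffOn ℝ ∞ F U) {y v : E2}
    (hy : y ∈ U) : ContDiffAt ℝ ∞ (fun q : (E2 × E2) × ℝ => hG F q.1.1 q.1.2 q.2) ((y, v), 0) := by
  have hcs : ContDiff ℝ ∞ (fun p : ((E2 × E2) × ℝ) × ℝ => p.1.1.1 + (p.2 * p.1.2) • p.1.1.2) := by
    fun_prop
  have hD : IsOpen ((fun p : ((E2 × E2) × ℝ) × ℝ => p.1.1.1 + (p.2 * p.1.2) • p.1.1.2) ⁻¹' U) :=
    hU.preimage hcs.continuous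
  have hfd : ContDiffOn ℝ ∞ (fderiv ℝ F) U := hF.fderiv_of_isOpen hU (m := ∞) (by simp)
  have hG' : ContDiffOn ℝ ∞ (fun p : ((E2 × E2) × ℝ) × ℝ =>
      fderiv ℝ F (p.1.1.1 + (p.2 * p.1.2) • p.1.1.2) p.1.1.2)
      ((fun p : ((E2 × E2) × ℝ) × ℝ => p.1.1.1 + (p.2 * p.1.2) • p.1.1.2) ⁻¹' U) := by
    have h1 : ContDiffOn ℝ ∞ (fun p : ((E2 × E2) × ℝ) × ℝ =>
        fderiv ℝ F (p.1.1.1 + (p.2 * p.1.2) • p.1.1.2))
        ((fun p : ((E2 × E2) × ℝ) × ℝ => p.1.1.1 + (p.2 * p.1.2) • p.1.1.2) ⁻¹' U) :=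
      hfd.comp hcs.contDiffOn fun p hp => hp
    have h2 : ContDiff ℝ ∞ (fun p : ((E2 × E2) × ℝ) × ℝ => p.1.1.2) := by fun_prop
    exact h1.clm_apply h2.contDiffOn
  obtain ⟨u, w, hu, hw, hqu, hIw, huw⟩ := generalized_tube_lemma
    (s := {(((y, v), 0) : (E2 × E2) × ℝ)}) isCompact_singleton (t := Icc (0 : ℝ) 1) isCompact_Icc
    hD (by
      rintro ⟨q, s⟩ ⟨hq, hs⟩
      rw [mem_singleton_iff] at hq
      subst hq
      change y + (s * 0) • v ∈ U
      rw [mul_zero, zero_smul, add_zero]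
      exact hy)
  have hsm : ContDiffOn ℝ ∞ (fun q : (E2 × E2) × ℝ => ∫ s in (0 : ℝ)..1,
      fderiv ℝ F (q.1.1 + (s * q.2) • q.1.2) q.1.2) u :=
    contDiffOn_infty.2 fun n => IN1a_smooth hD hu
      (fun x hx s hs => huw (mk_mem_prod hx (hIw hs))) n hG'
  exact hsm.contDiffAt (hu.mem_nhds (hqu (mem_singleton _)))

theorem hG_zero (F : E2 → V4) (y v : E2) : hG F y v 0 = fderiv ℝ F y v := by
  simp [hG]

end P205F
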