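import Mathlib
import Vale.Agent.Lib.P205I.IGDefs
import Vale.Agent.Lib.P205I.IN1a

/-!
# P205I module IN1: blow-up at the diagonal (planar)

`hG F y v t = ∫₀¹ DF (y + s t v) v ds`, so `F (y + t v) - F y = t • hG F y v t`, smooth in `(y, v, t)` where the segment
stays in the domain, `hG F y v 0 = DF y v`.
`IN1_cc`: at `(c, v)` with `DF c v = a4` and the nondegeneracy condition the derivative of `(y, v) ↦ hG F y v 0` is
invertible, so (implicit function theorem, uniform in small `t`) unique solutions, and the derivative in `(y, v)` stays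
injective.  `IN1_reg`: for `t ≠ 0` the pair `(y + t v, y)` is then a regular pair: `(y, v) ↦ (y + t v, y)` is a linear
isomorphism and `F (y + t v) - F y = t hG`.
-/

noncomputable section

namespace P205F

open scoped ContDiff Topology RealInnerProductSpace
open Set

theorem IN1_equiv {A B : Type} [NormedAddCommGroup A] [NormedSpace ℝ A] [NormedAddCommGroup B]
    [NormedSpace ℝ B] [FiniteDimensional ℝ A] [FiniteDimensional ℝ B] (L : A →L[ℝ] B)
    (hd : Module.finrank ℝ A = Module.finrank ℝ B) (hi : ∀ a, L a = 0 → a = 0) :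
    ∃ e : A ≃L[ℝ] B, (e : A →L[ℝ] B) = L := by
  have hinj : Function.Injective (L : A →ₗ[ℝ] B) :=
    (injective_iff_map_eq_zero (L : A →ₗ[ℝ] B)).2 hi
  refine ⟨((L : A →ₗ[ℝ] B).linearEquivOfInjective hinj hd).toContinuousLinearEquiv, ?_⟩
  ext a
  rfl

theorem IN1_seg {U : Set E2} (hU : IsOpen U) {c v : E2} (hc : c ∈ U) :
    ∀ᶠ q in 𝓝 (((c, v), 0) : (E2 × E2) × ℝ), ∀ s ∈ Icc (0 : ℝ) 1,
      q.1.1 + (s * q.2) • q.1.2 ∈ U := by
  refine isCompact_Icc.eventually_forall_of_forall_eventually fun s _ => ?_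
  have h1 : Continuous fun z : ((E2 × E2) × ℝ) × ℝ => z.1.1.1 + (z.2 * z.1.2) • z.1.1.2 := by
    fun_prop
  refine h1.continuousAt.eventually_mem (hU.mem_nhds ?_)
  show c + (s * 0) • v ∈ U
  rw [mul_zero, zero_smul, add_zero]
  exact hc

/-- the blown up map -/
def IN1_H (F : E2 → V4) (q : (E2 × E2) × ℝ) : V4 := hG F q.1.1 q.1.2 q.2

theorem IN1_der {F : E2 → V4} {U : Set E2} (hU : IsOpen U) (hF : ContDiffOn ℝ ∞ F U) {c v : E2}
    (hc : c ∈ U) (u w : E2) : fderiv ℝ (IN1_H F) ((c, v), 0) ((u, w), 0) =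
      fderiv ℝ (fun y => fderiv ℝ F y v) c u + fderiv ℝ F c w := by
  have h1 : ContDiffAt ℝ ∞ (IN1_H F) ((c, v), 0) := hG_smooth hU hF hc
  have h2 : DifferentiableAt ℝ (IN1_H F) ((c, v), 0) := h1.differentiableAt (by simp)
  have h3 : HasFDerivAt (fun x : E2 × E2 => (x, (0 : ℝ)))
      (ContinuousLinearMap.inl ℝ (E2 × E2) ℝ) (c, v) :=
    (ContinuousLinearMap.inl ℝ (E2 × E2) ℝ).hasFDerivAt
  have h4 : HasFDerivAt (IN1_H F ∘ fun x : E2 × E2 => (x, (0 : ℝ)))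
      ((fderiv ℝ (IN1_H F) ((c, v), 0)).comp (ContinuousLinearMap.inl ℝ (E2 × E2) ℝ)) (c, v) :=
    HasFDerivAt.comp (c, v) h2.hasFDerivAt h3
  have h5 : (IN1_H F ∘ fun x : E2 × E2 => (x, (0 : ℝ))) = fun x => fderiv ℝ F x.1 x.2 := by
    funext x
    exact hG_zero F x.1 x.2
  rw [h5] at h4
  have h6 : ContDiffAt ℝ ∞ F c := hF.contDiffAt (hU.mem_nhds hc)
  have h7 : DifferentiableAt ℝ (fderiv ℝ F) c :=
    (h6.fderiv_right (m := ∞) (by simp)).differentiableAt (by simp)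
  have h8 : HasFDerivAt (fun x : E2 × E2 => fderiv ℝ F x.1)
      ((fderiv ℝ (fderiv ℝ F) c).comp (ContinuousLinearMap.fst ℝ E2 E2)) (c, v) :=
    HasFDerivAt.comp (c, v) (f := Prod.fst) h7.hasFDerivAt hasFDerivAt_fst
  have h9 : HasFDerivAt (fun x : E2 × E2 => fderiv ℝ F x.1 x.2) _ (c, v) :=
    h8.clm_apply hasFDerivAt_snd
  have h10 := h4.unique h9
  have h11 := congrArg (fun L => L (u, w)) h10
  have h12 : fderiv ℝ (fun y => fderiv ℝ F y v) c u = fderiv ℝ (fderiv ℝ F) c u v := by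
    rw [fderiv_clm_apply h7 (differentiableAt_const v)]
    simp
  rw [h12]
  refine (show fderiv ℝ (IN1_H F) ((c, v), 0) ((u, w), 0) = _ from h11).trans ?_
  simp [add_comm]

/-- unique solutions of the blown up equation near a nondegenerate point -/
theorem IN1_cc {F : E2 → V4} {U : Set E2} (hU : IsOpen U) (hF : ContDiffOn ℝ ∞ F U) {c v : E2}
    (hc : c ∈ U) (hv : fderiv ℝ F c v = a4) (hnd : ∀ u w, fderiv ℝ (fun y => fderiv ℝ F y v) c u +
      fderiv ℝ F c w = 0 → u = 0 ∧ w = 0) : ∀ V ∈ 𝓝 (c, v), ∃ W ∈ 𝓝 (c, v), W ⊆ V ∧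
      ∃ δ : ℝ, 0 < δ ∧ ∀ t : ℝ, |t| < δ → ∃ z, {x : E2 × E2 | x ∈ W ∧ hG F x.1 x.2 t = a4} = {z} ∧
        (t ≠ 0 → z.1 ∈ U ∧ z.1 + t • z.2 ∈ U ∧
          Function.Injective (fderiv ℝ (fun q : E2 × E2 => F q.1 - F q.2) (z.1 + t • z.2, z.1))) := by
  intro V hV
  have hH : ContDiffAt ℝ ∞ (IN1_H F) ((c, v), 0) := hG_smooth hU hF hc
  have hH1 : ContDiffAt ℝ 1 (IN1_H F) ((c, v), 0) := hH.of_le (by exact_mod_cast le_top)
  have hHd : DifferentiableAt ℝ (IN1_H F) ((c, v), 0) := hH.differentiableAt (by simp)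
  have hE : Module.finrank ℝ (E2 × E2) = Module.finrank ℝ V4 := by
    simp
  -- the derivative in the first variable
  obtain ⟨e0, he0⟩ := IN1_equiv
    ((fderiv ℝ (IN1_H F) ((c, v), 0)).comp (ContinuousLinearMap.inl ℝ (E2 × E2) ℝ)) hE (by
      rintro ⟨u, w⟩ h
      have h1 : fderiv ℝ (IN1_H F) ((c, v), 0) ((u, w), 0) = 0 := h
      rw [IN1_der hU hF hc] at h1
      obtain ⟨h2, h3⟩ := hnd u w h1
      rw [h2, h3]
      rfl)
  -- the derivative of the full map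
  obtain ⟨e1, he1⟩ := IN1_equiv
    ((fderiv ℝ (IN1_H F) ((c, v), 0)).prod (ContinuousLinearMap.snd ℝ (E2 × E2) ℝ))
    (by simp) (by
      rintro ⟨x, t⟩ h
      have h1 : fderiv ℝ (IN1_H F) ((c, v), 0) (x, t) = 0 := (Prod.ext_iff.1 h).1
      have h2 : t = 0 := (Prod.ext_iff.1 h).2
      subst h2
      have h3 : e0 x = 0 := by
        have h4 := congrArg (fun L : (E2 × E2) →L[ℝ] V4 => L x) he0
        exact (show e0 x = _ from h4).trans h1
      rw [(e0.map_eq_zero_iff).1 h3]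
      rfl)
  have hΦ1 : ContDiffAt ℝ 1 (fun q : (E2 × E2) × ℝ => (IN1_H F q, q.2)) ((c, v), 0) :=
    hH1.prodMk contDiffAt_snd
  have hΦ2 : HasFDerivAt (fun q : (E2 × E2) × ℝ => (IN1_H F q, q.2))
      (e1 : (E2 × E2) × ℝ →L[ℝ] V4 × ℝ) ((c, v), 0) := by
    rw [he1]
    exact hHd.hasFDerivAt.prodMk hasFDerivAt_snd
  obtain ⟨e, hes, hee⟩ : ∃ e : OpenPartialHomeomorph ((E2 × E2) × ℝ) (V4 × ℝ),
      (((c, v), 0) : (E2 × E2) × ℝ) ∈ e.source ∧ ∀ q, e q = (IN1_H F q, q.2) :=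
    ⟨hΦ1.toOpenPartialHomeomorph _ hΦ2 one_ne_zero,
      hΦ1.mem_toOpenPartialHomeomorph_source hΦ2 one_ne_zero, fun _ => rfl⟩
  have hev : e ((c, v), 0) = (a4, 0) := by
    rw [hee]
    have : IN1_H F ((c, v), 0) = a4 := (hG_zero F c v).trans hv
    rw [this]
  -- the good neighbourhood
  have hN1 : ∀ᶠ q in 𝓝 (((c, v), 0) : (E2 × E2) × ℝ), q ∈ e.source :=
    e.open_source.mem_nhds hes
  have hN2 : ∀ᶠ q in 𝓝 (((c, v), 0) : (E2 × E2) × ℝ), q.1 ∈ V :=
    continuousAt_fst.eventually_mem hV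
  have hN3 : ∀ᶠ q in 𝓝 (((c, v), 0) : (E2 × E2) × ℝ), DifferentiableAt ℝ (IN1_H F) q :=
    (hH1.eventually (by simp)).mono fun q hq => hq.differentiableAt (by simp)
  have hN4 : ∀ᶠ q in 𝓝 (((c, v), 0) : (E2 × E2) × ℝ),
      (fderiv ℝ (IN1_H F) q).comp (ContinuousLinearMap.inl ℝ (E2 × E2) ℝ) ∈
        range ((↑) : ((E2 × E2) ≃L[ℝ] V4) → ((E2 × E2) →L[ℝ] V4)) := by
    have h1 : ContinuousAt (fderiv ℝ (IN1_H F)) ((c, v), 0) :=
      (hH.fderiv_right (m := 0) (by simp)).continuousAt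
    have h2 : ContinuousAt (fun q => (fderiv ℝ (IN1_H F) q).comp
        (ContinuousLinearMap.inl ℝ (E2 × E2) ℝ)) ((c, v), 0) :=
      h1.clm_comp continuousAt_const
    refine h2.eventually_mem ?_
    rw [← he0]
    exact e0.nhds
  have hN5 := IN1_seg hU (v := v) hc
  have hN := hN1.and (hN2.and (hN3.and (hN4.and hN5)))
  obtain ⟨W, T, hW, hcW, hT, h0T, hWT⟩ := mem_nhds_prod_iff'.1 hN
  obtain ⟨δ1, hδ1, hδ1T⟩ := Metric.mem_nhds_iff.1 (hT.mem_nhds h0T)
  have hs1 : ContinuousAt e.symm (a4, 0) := by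
    rw [← hev]
    exact e.symm.continuousAt (e.map_source hes)
  have hs2 : ContinuousAt (fun t : ℝ => e.symm (a4, t)) 0 :=
    ContinuousAt.comp (g := e.symm) (f := fun t : ℝ => ((a4, t) : V4 × ℝ)) hs1
      (continuousAt_const.prodMk continuousAt_id)
  have hs3 : ∀ᶠ t in 𝓝 (0 : ℝ), (e.symm (a4, t)).1 ∈ W := by
    refine (continuousAt_fst.comp hs2).eventually_mem (hW.mem_nhds ?_)
    show (e.symm (a4, 0)).1 ∈ W
    rw [← hev, e.left_inv hes]
    exact hcW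
  have hs4 : ∀ᶠ t in 𝓝 (0 : ℝ), ((a4, t) : V4 × ℝ) ∈ e.target := by
    refine ContinuousAt.eventually_mem (f := fun t : ℝ => ((a4, t) : V4 × ℝ))
      (continuousAt_const.prodMk continuousAt_id) (e.open_target.mem_nhds ?_)
    rw [← hev]
    exact e.map_source hes
  obtain ⟨δ2, hδ2, hδ2s⟩ := Metric.mem_nhds_iff.1 (hs3.and hs4)
  refine ⟨W, hW.mem_nhds hcW, fun x hx => (hWT (mk_mem_prod hx h0T)).2.1, min δ1 δ2,
    lt_min hδ1 hδ2, fun t ht => ?_⟩
  have htT : t ∈ T := hδ1T (by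
    rw [Metric.mem_ball, Real.dist_eq, sub_zero]
    exact ht.trans_le (min_le_left _ _))
  obtain ⟨hz1, hz2⟩ := hδ2s (show t ∈ Metric.ball (0 : ℝ) δ2 by
    rw [Metric.mem_ball, Real.dist_eq, sub_zero]
    exact ht.trans_le (min_le_right _ _))
  have hq := e.right_inv hz2
  rw [hee] at hq
  have hq1 : IN1_H F (e.symm (a4, t)) = a4 := (Prod.ext_iff.1 hq).1
  have hq2 : (e.symm (a4, t)).2 = t := (Prod.ext_iff.1 hq).2
  obtain ⟨z, hz⟩ : ∃ z : E2 × E2, z = (e.symm (a4, t)).1 := ⟨_, rfl⟩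
  have hzq : e.symm (a4, t) = (z, t) := Prod.ext hz.symm hq2
  rw [← hz] at hz1
  rw [hzq] at hq1
  refine ⟨z, ?_, fun ht0 => ?_⟩
  · ext x
    constructor
    · rintro ⟨hx, hxa⟩
      have h1 : e (x, t) = e (z, t) := by
        rw [hee, hee]
        exact Prod.ext ((show IN1_H F (x, t) = a4 from hxa).trans hq1.symm) rfl
      have h2 := e.injOn (hWT (mk_mem_prod hx htT)).1 (hWT (mk_mem_prod hz1 htT)).1 h1
      exact (Prod.ext_iff.1 h2).1
    · intro hx
      rw [mem_singleton_iff.1 hx]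
      exact ⟨hz1, hq1⟩
  · obtain ⟨-, -, hz3, hz4, hz5⟩ := hWT (mk_mem_prod hz1 htT)
    have hzU : z.1 ∈ U := by
      have := hz5 0 ⟨le_rfl, zero_le_one⟩
      simpa using this
    have hzU' : z.1 + t • z.2 ∈ U := by
      have := hz5 1 ⟨zero_le_one, le_rfl⟩
      simpa using this
    refine ⟨hzU, hzU', ?_⟩
    obtain ⟨e2, he2⟩ := hz4
    -- the linear change of variables
    let A : (E2 × E2) →L[ℝ] (E2 × E2) :=
      (ContinuousLinearMap.fst ℝ E2 E2 + t • ContinuousLinearMap.snd ℝ E2 E2).prod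
        (ContinuousLinearMap.fst ℝ E2 E2)
    have hA : ∀ x : E2 × E2, A x = (x.1 + t • x.2, x.1) := fun x => rfl
    have hdF : ∀ y ∈ U, DifferentiableAt ℝ F y := fun y hy =>
      (hF.contDiffAt (hU.mem_nhds hy)).differentiableAt (by simp)
    have hΨ : DifferentiableAt ℝ (fun q : E2 × E2 => F q.1 - F q.2) (z.1 + t • z.2, z.1) := by
      refine DifferentiableAt.sub ?_ ?_
      · exact DifferentiableAt.comp (g := F) (f := Prod.fst)
          ((z.1 + t • z.2, z.1) : E2 × E2) (hdF _ hzU') differentiableAt_fst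
      · exact DifferentiableAt.comp (g := F) (f := Prod.snd)
          ((z.1 + t • z.2, z.1) : E2 × E2) (hdF _ hzU) differentiableAt_snd
    have h1 : HasFDerivAt ((fun q : E2 × E2 => F q.1 - F q.2) ∘ A)
        ((fderiv ℝ (fun q : E2 × E2 => F q.1 - F q.2) (z.1 + t • z.2, z.1)).comp A) z :=
      HasFDerivAt.comp z (by rw [hA]; exact hΨ.hasFDerivAt) A.hasFDerivAt
    have h2 : ((fun q : E2 × E2 => F q.1 - F q.2) ∘ A) =ᶠ[𝓝 z]
        fun x => t • IN1_H F (x, t) := by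
      filter_upwards [hW.mem_nhds hz1] with x hx
      exact hG_eq hU hF (hWT (mk_mem_prod hx htT)).2.2.2.2
    have h3 : HasFDerivAt (fun x : E2 × E2 => (x, t))
        (ContinuousLinearMap.inl ℝ (E2 × E2) ℝ) z := hasFDerivAt_prodMk_left z t
    have h4 : HasFDerivAt (fun x : E2 × E2 => IN1_H F (x, t))
        ((fderiv ℝ (IN1_H F) (z, t)).comp (ContinuousLinearMap.inl ℝ (E2 × E2) ℝ)) z :=
      HasFDerivAt.comp (g := IN1_H F) (f := fun x : E2 × E2 => (x, t)) z hz3.hasFDerivAt h3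
    have h5 := (h4.const_smul t).congr_of_eventuallyEq h2
    have h6 := h1.unique h5
    refine (injective_iff_map_eq_zero _).2 fun q hq => ?_
    obtain ⟨x, hx⟩ : ∃ x : E2 × E2, x = (q.2, t⁻¹ • (q.1 - q.2)) := ⟨_, rfl⟩
    have hAx : A x = q := by
      rw [hA, hx]
      refine Prod.ext ?_ rfl
      show q.2 + t • t⁻¹ • (q.1 - q.2) = q.1
      rw [smul_smul, mul_inv_cancel₀ ht0, one_smul, add_sub_cancel]
    have h7 := congrArg (fun L : (E2 × E2) →L[ℝ] V4 => L x) h6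
    have h8 : fderiv ℝ (fun q : E2 × E2 => F q.1 - F q.2) (z.1 + t • z.2, z.1) (A x) =
        t • ((fderiv ℝ (IN1_H F) (z, t)).comp (ContinuousLinearMap.inl ℝ (E2 × E2) ℝ)) x := h7
    rw [hAx, hq, ← he2] at h8
    have h9 : e2 x = 0 := by
      rcases smul_eq_zero.1 h8.symm with h | h
      · exact absurd h ht0
      · exact h
    have h10 : x = 0 := (e2.map_eq_zero_iff).1 h9
    rw [← hAx, h10, map_zero]

end P205F
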