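import Mathlib

/-!
# P205I module IS1: sweeping lemma and counting lemma

`S t ⊆ X` closed family in a compact space.  `sweep_even`: near every solution `(x, t)`, `t > 0`, the number of solutions
for `t' ≠ t` near `t` in a small neighbourhood of `x` has a constant parity; no solutions for large `t`; then at every
regular level the number of solutions is even.  Proof: for `t > 0` the set `S t` is finite (compact and discrete), its
points have disjoint good neighbourhoods `U_i`, off `⋃ U_i` there are no solutions for `t'` near `t` (closedness,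
compactness), so the parity of `(S t').ncard` is constant for `t' ≠ t` near `t`; a locally constant function on the
connected set `(0, ∞)` is constant; compare with a large level; at the regular level also `t' = t` is allowed.
`count_lemma`: similar.  The set `P` is finite because it is closed (second hypothesis) and discrete (two points of `P` in
one good `U` would give two solutions in `U`).
-/

open scoped Topology
open Set

namespace P205F

variable {X : Type} [TopologicalSpace X] [CompactSpace X] [T2Space X]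

omit [CompactSpace X] [T2Space X] in
private theorem IS1_closed (S : ℝ → Set X) (hcl : IsClosed {q : X × ℝ | q.1 ∈ S q.2}) (t : ℝ) :
    IsClosed (S t) := by
  have h : Continuous fun x : X => (x, t) := by fun_prop
  exact hcl.preimage h

omit [T2Space X] in
private theorem IS1_finite (S : ℝ → Set X) (hcl : IsClosed {q : X × ℝ | q.1 ∈ S q.2}) {t : ℝ}
    (hiso : ∀ x ∈ S t, ∃ U ∈ 𝓝 x, S t ∩ U = {x}) : (S t).Finite := by
  have hc : IsCompact (S t) := (IS1_closed S hcl t).isCompact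
  refine hc.finite ?_
  refine isDiscrete_iff_forall_mem_exists_isOpen.2 fun x hx => ?_
  obtain ⟨U, hU, hUx⟩ := hiso x hx
  obtain ⟨W, hWU, hW, hxW⟩ := mem_nhds_iff.1 hU
  refine ⟨W, hW, ?_⟩
  ext y
  constructor
  · rintro ⟨hyW, hyS⟩
    have : y ∈ S t ∩ U := ⟨hyS, hWU hyW⟩
    rw [hUx] at this
    exact this
  · rintro rfl
    exact ⟨hxW, hx⟩

/-- Good disjoint neighbourhoods of the points of `S t`. -/
private theorem IS1_decomp (S : ℝ → Set X) (hcl : IsClosed {q : X × ℝ | q.1 ∈ S q.2}) {t : ℝ}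
    (hfin : (S t).Finite) (Q : X → Set X → ℝ → Prop)
    (hQ : ∀ x ∈ S t, ∀ V ∈ 𝓝 x, ∃ U ∈ 𝓝 x, U ⊆ V ∧ ∃ δ : ℝ, 0 < δ ∧
      ∀ t' : ℝ, |t' - t| < δ → Q x U t') :
    ∃ U : X → Set X, (S t).PairwiseDisjoint U ∧ ∃ δ : ℝ, 0 < δ ∧ ∀ t' : ℝ, |t' - t| < δ →
      S t' ⊆ ⋃ x ∈ S t, U x ∧ ∀ x ∈ S t, Q x (U x) t' := by
  classical
  obtain ⟨V, hV, hVd⟩ := hfin.t2_separation
  have h1 : ∀ x : X, ∃ U : Set X, ∃ δ : ℝ, 0 < δ ∧ (x ∈ S t → U ∈ 𝓝 x ∧ U ⊆ V x ∧
      ∀ t' : ℝ, |t' - t| < δ → Q x U t') := by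
    intro x
    by_cases hx : x ∈ S t
    · obtain ⟨U, hU, hUV, δ, hδ, h⟩ := hQ x hx (V x) ((hV x).2.mem_nhds (hV x).1)
      exact ⟨U, δ, hδ, fun _ => ⟨hU, hUV, h⟩⟩
    · exact ⟨∅, 1, one_pos, fun h => absurd h hx⟩
  choose U δ hδ hU using h1
  refine ⟨U, ?_, ?_⟩
  · intro x hx y hy hxy
    exact Disjoint.mono (hU x hx).2.1 (hU y hy).2.1 (hVd hx hy hxy)
  -- off the union there are no solutions nearby
  have hopen : IsOpen (⋃ x ∈ S t, interior (U x)) :=
    isOpen_biUnion fun x _ => isOpen_interior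
  have hKc : IsClosed (⋃ x ∈ S t, interior (U x))ᶜ := hopen.isClosed_compl
  have hproj : IsClosed (Prod.snd '' ({q : X × ℝ | q.1 ∈ S q.2} ∩
      ((⋃ x ∈ S t, interior (U x))ᶜ ×ˢ (univ : Set ℝ)))) :=
    isClosedMap_snd_of_compactSpace _ (hcl.inter (hKc.prod isClosed_univ))
  have hnot : t ∉ Prod.snd '' ({q : X × ℝ | q.1 ∈ S q.2} ∩
      ((⋃ x ∈ S t, interior (U x))ᶜ ×ˢ (univ : Set ℝ))) := by
    rintro ⟨⟨y, s⟩, ⟨hy1, hy2⟩, hs⟩
    simp only at hs
    subst hs
    exact hy2.1 (mem_biUnion hy1 (mem_interior_iff_mem_nhds.2 (hU y hy1).1))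
  obtain ⟨ε, hε, hball⟩ := Metric.isOpen_iff.1 hproj.isOpen_compl t hnot
  have hmin : ∃ δ₀ : ℝ, 0 < δ₀ ∧ ∀ x ∈ S t, δ₀ ≤ δ x := by
    by_cases hne : (S t).Nonempty
    · obtain ⟨x₀, hx₀, hmin⟩ := exists_min_image (S t) δ hfin hne
      exact ⟨δ x₀, hδ x₀, hmin⟩
    · refine ⟨1, one_pos, fun x hx => absurd ⟨x, hx⟩ hne⟩
  obtain ⟨δ₀, hδ₀, hle⟩ := hmin
  refine ⟨min ε δ₀, lt_min hε hδ₀, fun t' ht' => ⟨?_, fun x hx => ?_⟩⟩
  · intro y hy
    by_contra hcon
    have h2 : t' ∈ Metric.ball t ε := by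
      rw [Metric.mem_ball, Real.dist_eq]
      exact lt_of_lt_of_le ht' (min_le_left _ _)
    refine hball h2 ⟨(y, t'), ⟨hy, ?_, mem_univ _⟩, rfl⟩
    intro hin
    apply hcon
    obtain ⟨x, hx, hyx⟩ := mem_iUnion₂.1 hin
    exact mem_iUnion₂.2 ⟨x, hx, interior_subset hyx⟩
  · exact (hU x hx).2.2 t' (lt_of_lt_of_le ht' ((min_le_right _ _).trans (hle x hx)))

omit [TopologicalSpace X] [CompactSpace X] [T2Space X] in
/-- Counting with disjoint pieces. -/
private theorem IS1_count {A B : Set X} (hA : A.Finite) (U : X → Set X)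
    (hd : A.PairwiseDisjoint U) (hB : B ⊆ ⋃ x ∈ A, U x)
    (hf : ∀ x ∈ A, (B ∩ U x).Finite) :
    B.Finite ∧ B.ncard = ∑ x ∈ hA.toFinset, (B ∩ U x).ncard := by
  classical
  have hBeq : B = ⋃ x ∈ A, (B ∩ U x) := by
    ext y
    constructor
    · intro hy
      obtain ⟨x, hx, hyx⟩ := mem_iUnion₂.1 (hB hy)
      exact mem_iUnion₂.2 ⟨x, hx, hy, hyx⟩
    · intro hy
      obtain ⟨x, _, hyx⟩ := mem_iUnion₂.1 hy
      exact hyx.1
  have hfin : B.Finite := by
    rw [hBeq]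
    exact hA.biUnion hf
  refine ⟨hfin, ?_⟩
  have hfx : ∀ x, (B ∩ U x).Finite := fun x => hfin.subset inter_subset_left
  have h1 : hfin.toFinset = hA.toFinset.biUnion fun x => (hfx x).toFinset := by
    ext y
    simp only [Finite.mem_toFinset, Finset.mem_biUnion, mem_inter_iff]
    constructor
    · intro hy
      obtain ⟨x, hx, hyx⟩ := mem_iUnion₂.1 (hB hy)
      exact ⟨x, hx, hy, hyx⟩
    · rintro ⟨x, _, hy, _⟩
      exact hy
  rw [ncard_eq_toFinset_card B hfin, h1, Finset.card_biUnion]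
  · refine Finset.sum_congr rfl fun x _ => ?_
    rw [ncard_eq_toFinset_card _ (hfx x)]
  · intro x hx y hy hxy
    refine Finset.disjoint_left.2 ?_
    intro z hzx hzy
    simp only [Finset.mem_coe, Finite.mem_toFinset, mem_inter_iff] at hx hy hzx hzy
    exact Set.disjoint_left.1 (hd hx hy hxy) hzx.2 hzy.2

theorem sweep_even (S : ℝ → Set X) (hcl : IsClosed {q : X × ℝ | q.1 ∈ S q.2})
    (hloc : ∀ t : ℝ, 0 < t → ∀ x ∈ S t, ∃ e : Prop, ∀ V ∈ 𝓝 x, ∃ U ∈ 𝓝 x, U ⊆ V ∧ ∃ δ : ℝ, 0 < δ ∧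
      ∀ t' : ℝ, |t' - t| < δ → t' ≠ t → (S t' ∩ U).Finite ∧ (Odd (S t' ∩ U).ncard ↔ e))
    (hiso : ∀ t : ℝ, 0 < t → ∀ x ∈ S t, ∃ U ∈ 𝓝 x, S t ∩ U = {x})
    (hbig : ∃ T : ℝ, ∀ t : ℝ, T ≤ t → S t = ∅) {t₀ : ℝ} (ht₀ : 0 < t₀)
    (hreg : ∀ x ∈ S t₀, ∀ V ∈ 𝓝 x, ∃ U ∈ 𝓝 x, U ⊆ V ∧ ∃ δ : ℝ, 0 < δ ∧
      ∀ t' : ℝ, |t' - t₀| < δ → ∃ x', S t' ∩ U = {x'}) :
    (S t₀).Finite ∧ Even (S t₀).ncard := by
  classical
  have hfin : ∀ t : ℝ, 0 < t → (S t).Finite := fun t ht => IS1_finite S hcl (hiso t ht)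
  -- parity is constant on punctured neighbourhoods
  have hpar : ∀ t : ℝ, 0 < t → ∃ E : Prop, ∃ δ : ℝ, 0 < δ ∧ ∀ t' : ℝ, |t' - t| < δ → t' ≠ t →
      (Odd (S t').ncard ↔ E) := by
    intro t ht
    have he : ∀ x : X, ∃ e : Prop, x ∈ S t → ∀ V ∈ 𝓝 x, ∃ U ∈ 𝓝 x, U ⊆ V ∧ ∃ δ : ℝ, 0 < δ ∧
        ∀ t' : ℝ, |t' - t| < δ → t' ≠ t → (S t' ∩ U).Finite ∧ (Odd (S t' ∩ U).ncard ↔ e) := by
      intro x
      by_cases hx : x ∈ S t
      · obtain ⟨e, h⟩ := hloc t ht x hx
        exact ⟨e, fun _ => h⟩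
      · exact ⟨True, fun h => absurd h hx⟩
    choose e he using he
    obtain ⟨U, hd, δ, hδ, hU⟩ := IS1_decomp S hcl (hfin t ht)
      (fun x U t' => t' ≠ t → (S t' ∩ U).Finite ∧ (Odd (S t' ∩ U).ncard ↔ e x))
      (fun x hx V hV => he x hx V hV)
    refine ⟨Odd ((hfin t ht).toFinset.filter fun x => e x).card, δ, hδ, fun t' ht' hne => ?_⟩
    obtain ⟨hsub, hall⟩ := hU t' ht'
    obtain ⟨_, hcard⟩ := IS1_count (hfin t ht) U hd hsub fun x hx => (hall x hx hne).1
    rw [hcard, Finset.odd_sum_iff_odd_card_odd]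
    have h2 : ((hfin t ht).toFinset.filter fun x => Odd (S t' ∩ U x).ncard) =
        (hfin t ht).toFinset.filter fun x => e x := by
      refine Finset.filter_congr fun x hx => ?_
      exact (hall x ((Finite.mem_toFinset _).1 hx) hne).2
    rw [h2]
  have hpar' : ∀ t : ℝ, ∃ E : Prop, 0 < t → ∃ δ : ℝ, 0 < δ ∧ ∀ t' : ℝ, |t' - t| < δ → t' ≠ t →
      (Odd (S t').ncard ↔ E) := by
    intro t
    by_cases ht : 0 < t
    · obtain ⟨E, h⟩ := hpar t ht
      exact ⟨E, fun _ => h⟩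
    · exact ⟨True, fun h => absurd h ht⟩
  choose E hE using hpar'
  -- local constancy
  have hlc : ∀ t : ℝ, 0 < t → ∀ᶠ s in 𝓝 t, 0 < s ∧ (E s ↔ E t) := by
    intro t ht
    obtain ⟨δ, hδ, h⟩ := hE t ht
    have h1 : ∀ᶠ s in 𝓝 t, |s - t| < δ := by
      have := Metric.ball_mem_nhds t hδ
      filter_upwards [this] with s hs
      rwa [Metric.mem_ball, Real.dist_eq] at hs
    filter_upwards [h1, lt_mem_nhds ht] with s hs hs0
    refine ⟨hs0, ?_⟩
    by_cases hst : s = t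
    · rw [hst]
    obtain ⟨δ', hδ', h'⟩ := hE s hs0
    -- choose r near s, different from s and t, near t
    have hr : ∃ r : ℝ, |r - s| < δ' ∧ r ≠ s ∧ |r - t| < δ ∧ r ≠ t := by
      have hpos : 0 < min (min δ' (δ - |s - t|)) |s - t| := by
        refine lt_min (lt_min hδ' (by linarith)) (abs_pos.2 (sub_ne_zero.2 hst))
      set η := min (min δ' (δ - |s - t|)) |s - t| with hη
      have ha : η ≤ δ' := (min_le_left _ _).trans (min_le_left _ _)
      have hb : η ≤ δ - |s - t| := (min_le_left _ _).trans (min_le_right _ _)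
      have hc : η ≤ |s - t| := min_le_right _ _
      refine ⟨s + η / 2, ?_, ?_, ?_, ?_⟩
      · rw [add_sub_cancel_left, abs_of_pos (by linarith)]
        linarith
      · intro h0
        linarith
      · have h3 : s + η / 2 - t = (s - t) + η / 2 := by ring
        rw [h3]
        calc |(s - t) + η / 2| ≤ |s - t| + |η / 2| := abs_add_le _ _
          _ = |s - t| + η / 2 := by rw [abs_of_pos (by linarith : (0 : ℝ) < η / 2)]
          _ < δ := by linarith
      · intro h0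
        have h3 : s - t = -(η / 2) := by linarith
        rw [h3, abs_neg, abs_of_pos (by linarith : (0 : ℝ) < η / 2)] at hc
        linarith
    obtain ⟨r, hr1, hr2, hr3, hr4⟩ := hr
    exact (h' r hr1 hr2).symm.trans (h r hr3 hr4)
  -- constant on `(0, ∞)`
  have hfalse : ∀ t : ℝ, 0 < t → ¬ E t := by
    obtain ⟨T, hT⟩ := hbig
    have hlarge : ¬ E (max T 0 + 1) := by
      have hpos : 0 < max T 0 + 1 := by
        have := le_max_right T 0
        linarith
      obtain ⟨δ, hδ, h⟩ := hE _ hpos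
      have h1 := h (max T 0 + 1 + δ / 2)
        (by rw [add_sub_cancel_left, abs_of_pos (by linarith)]; linarith)
        (by intro h0; linarith)
      intro hcon
      have h2 := h1.2 hcon
      rw [hT _ (by have := le_max_left T 0; linarith)] at h2
      simp at h2
    intro t ht hEt
    have hconn : IsPreconnected (Ioi (0 : ℝ)) := isPreconnected_Ioi
    have hU : IsOpen {s : ℝ | 0 < s ∧ E s} := by
      refine isOpen_iff_mem_nhds.2 fun s hs => ?_
      filter_upwards [hlc s hs.1] with r hr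
      exact ⟨hr.1, hr.2.2 hs.2⟩
    have hV : IsOpen {s : ℝ | 0 < s ∧ ¬ E s} := by
      refine isOpen_iff_mem_nhds.2 fun s hs => ?_
      filter_upwards [hlc s hs.1] with r hr
      exact ⟨hr.1, fun h => hs.2 (hr.2.1 h)⟩
    have hpos : 0 < max T 0 + 1 := by
      have := le_max_right T 0
      linarith
    obtain ⟨s, _, hs1, hs2⟩ := hconn _ _ hU hV
      (fun s hs => by
        by_cases h : E s
        · exact Or.inl ⟨hs, h⟩
        · exact Or.inr ⟨hs, h⟩)
      ⟨t, ht, ht, hEt⟩ ⟨_, hpos, hpos, hlarge⟩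
    exact hs2.2 hs1.2
  -- the regular level
  have hf0 := hfin t₀ ht₀
  refine ⟨hf0, ?_⟩
  obtain ⟨U, hd, δ, hδ, hU⟩ := IS1_decomp S hcl hf0
    (fun x U t' => ∃ x', S t' ∩ U = {x'}) hreg
  have hcount : ∀ t' : ℝ, |t' - t₀| < δ → (S t').ncard = hf0.toFinset.card := by
    intro t' ht'
    obtain ⟨hsub, hall⟩ := hU t' ht'
    obtain ⟨_, hcard⟩ := IS1_count hf0 U hd hsub fun x hx => by
      obtain ⟨x', hx'⟩ := hall x hx
      rw [hx']
      exact finite_singleton x'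
    rw [hcard, Finset.card_eq_sum_ones]
    refine Finset.sum_congr rfl fun x hx => ?_
    obtain ⟨x', hx'⟩ := hall x ((Finite.mem_toFinset _).1 hx)
    rw [hx', ncard_singleton]
  obtain ⟨δ', hδ', h'⟩ := hE t₀ ht₀
  have hηpos : 0 < min δ δ' := lt_min hδ hδ'
  have h1 := h' (t₀ + min δ δ' / 2)
    (by
      rw [add_sub_cancel_left, abs_of_pos (by linarith)]
      have := min_le_right δ δ'
      linarith)
    (by intro h0; linarith)
  have h2 := hcount (t₀ + min δ δ' / 2) (by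
      rw [add_sub_cancel_left, abs_of_pos (by linarith)]
      have := min_le_left δ δ'
      linarith)
  have h3 := hcount t₀ (by simpa using hδ)
  rw [h2, ← h3] at h1
  rw [← Nat.not_odd_iff_even]
  intro hodd
  exact hfalse t₀ ht₀ (h1.1 hodd)

end P205F
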