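import Mathlib
import Vale.Agent.Lib.P205F.TDefs

/-!
# P205I module IS2: local structure at a regular pair (planar)

Inverse function theorem.
-/

noncomputable section

namespace P205F

open scoped ContDiff Topology RealInnerProductSpace
open Set

/-- unique solutions near a point with injective derivative -/
theorem IS2_inv {Ψ : E2 × E2 → V4} {z : E2 × E2} (hΨ : ContDiffAt ℝ ∞ Ψ z)
    (hi : Function.Injective (fderiv ℝ Ψ z)) : ∀ V ∈ 𝓝 z, ∃ U ∈ 𝓝 z, U ⊆ V ∧ ∃ δ : ℝ, 0 < δ ∧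
      ∀ y : V4, ‖y - Ψ z‖ < δ → ∃ z', {x | x ∈ U ∧ Ψ x = y} = {z'} := by
  intro V hV
  have hfin : Module.finrank ℝ (E2 × E2) = Module.finrank ℝ V4 := by
    simp [Module.finrank_prod]
  let L : (E2 × E2) ≃L[ℝ] V4 :=
    (LinearEquiv.ofInjectiveOfFinrankEq (fderiv ℝ Ψ z).toLinearMap hi hfin).toContinuousLinearEquiv
  have hL : (L : (E2 × E2) →L[ℝ] V4) = fderiv ℝ Ψ z := by
    refine ContinuousLinearMap.ext fun x => ?_
    rfl
  have hs : HasStrictFDerivAt Ψ (L : (E2 × E2) →L[ℝ] V4) z := by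
    rw [hL]
    exact hΨ.hasStrictFDerivAt (by simp)
  let e := hs.toOpenPartialHomeomorph Ψ
  have hez : z ∈ e.source := hs.mem_toOpenPartialHomeomorph_source
  have hU : e.source ∩ V ∈ 𝓝 z := Filter.inter_mem (e.open_source.mem_nhds hez) hV
  refine ⟨e.source ∩ V, hU, Set.inter_subset_right, ?_⟩
  have h1 : e '' (e.source ∩ V) ∈ 𝓝 (e z) := by
    rw [← e.map_nhds_eq hez]
    exact Filter.image_mem_map hU
  obtain ⟨δ, hδ, h2⟩ := Metric.mem_nhds_iff.1 h1
  refine ⟨δ, hδ, fun y hy => ?_⟩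
  have hy' : y ∈ Metric.ball (e z) δ := by
    rw [mem_ball_iff_norm]
    exact hy
  obtain ⟨z', hz', hzy⟩ := h2 hy'
  refine ⟨z', ?_⟩
  ext x
  simp only [Set.mem_ofPred_eq, Set.mem_singleton_iff]
  constructor
  · rintro ⟨hx, hxy⟩
    refine e.injOn hx.1 hz'.1 ?_
    rw [hzy]
    exact hxy
  · rintro rfl
    exact ⟨hz', hzy⟩

end P205F
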