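import Mathlib

/-!
# P205I module IS3a: one variable (see the docstring of IS3)
-/

noncomputable section

namespace P205F

open scoped ContDiff Topology RealInnerProductSpace
open Set

theorem IS3a_core {τ : ℝ → ℝ} {ε : ℝ} (hε : 0 < ε) (hc : ContinuousOn τ (Icc (-ε) ε))
    (ha : StrictAntiOn τ (Icc (-ε) 0)) (hm : StrictMonoOn τ (Icc 0 ε)) :
    ∃ δ : ℝ, 0 < δ ∧
      (∀ t : ℝ, |t - τ 0| < δ → t ≠ τ 0 → {σ | |σ| < ε ∧ τ σ = t}.Finite ∧
        Even {σ | |σ| < ε ∧ τ σ = t}.ncard) ∧ {σ | |σ| < ε ∧ τ σ = τ 0} = {0} := by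
  have hneg : -ε < 0 := neg_lt_zero.2 hε
  have m0 : (0 : ℝ) ∈ Icc 0 ε := ⟨le_rfl, hε.le⟩
  have me : ε ∈ Icc 0 ε := ⟨hε.le, le_rfl⟩
  have n0 : (0 : ℝ) ∈ Icc (-ε) 0 := ⟨hneg.le, le_rfl⟩
  have ne : -ε ∈ Icc (-ε) 0 := ⟨le_rfl, hneg.le⟩
  have hp : τ 0 < τ ε := hm m0 me hε
  have hn : τ 0 < τ (-ε) := ha ne n0 hneg
  have gt_of : ∀ σ : ℝ, |σ| < ε → σ ≠ 0 → τ 0 < τ σ := by
    intro σ hσ h0
    obtain ⟨h1, h2⟩ := abs_lt.1 hσ
    rcases lt_or_gt_of_ne h0 with h | h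
    · exact ha ⟨h1.le, h.le⟩ n0 h
    · exact hm m0 ⟨h.le, h2.le⟩ h
  refine ⟨min (τ ε - τ 0) (τ (-ε) - τ 0), lt_min (sub_pos.2 hp) (sub_pos.2 hn), ?_, ?_⟩
  · intro t ht hne
    have ht1 : |t - τ 0| < τ ε - τ 0 := ht.trans_le (min_le_left _ _)
    have ht2 : |t - τ 0| < τ (-ε) - τ 0 := ht.trans_le (min_le_right _ _)
    rcases lt_or_gt_of_ne hne with h | h
    · have hempty : {σ | |σ| < ε ∧ τ σ = t} = (∅ : Set ℝ) := by
        rw [Set.eq_empty_iff_forall_notMem]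
        rintro σ ⟨h1, h2⟩
        by_cases h0 : σ = 0
        · rw [h0] at h2
          exact hne h2.symm
        · have := gt_of σ h1 h0
          rw [h2] at this
          exact absurd h (not_lt.2 this.le)
      rw [hempty, Set.ncard_empty]
      exact ⟨Set.finite_empty, ⟨0, rfl⟩⟩
    · have hte : t < τ ε := by
        have := (le_abs_self (t - τ 0)).trans_lt ht1
        linarith
      have htn : t < τ (-ε) := by
        have := (le_abs_self (t - τ 0)).trans_lt ht2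
        linarith
      obtain ⟨a, ha1, ha2⟩ : t ∈ τ '' Ioo 0 ε :=
        intermediate_value_Ioo hε.le (hc.mono (Icc_subset_Icc hneg.le le_rfl)) ⟨h, hte⟩
      obtain ⟨b, hb1, hb2⟩ : t ∈ τ '' Ioo (-ε) 0 :=
        intermediate_value_Ioo' hneg.le (hc.mono (Icc_subset_Icc le_rfl hε.le)) ⟨h, htn⟩
      have hset : {σ | |σ| < ε ∧ τ σ = t} = ({a, b} : Set ℝ) := by
        ext σ
        simp only [Set.mem_ofPred_eq, Set.mem_insert_iff, Set.mem_singleton_iff]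
        constructor
        · rintro ⟨h1, h2⟩
          obtain ⟨h3, h4⟩ := abs_lt.1 h1
          rcases lt_trichotomy σ 0 with h5 | h5 | h5
          · right
            exact ha.injOn ⟨h3.le, h5.le⟩ ⟨hb1.1.le, hb1.2.le⟩ (h2.trans hb2.symm)
          · exfalso
            rw [h5] at h2
            exact hne h2.symm
          · left
            exact hm.injOn ⟨h5.le, h4.le⟩ ⟨ha1.1.le, ha1.2.le⟩ (h2.trans ha2.symm)
        · rintro (h1 | h1)
          · rw [h1]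
            exact ⟨abs_lt.2 ⟨hneg.trans ha1.1, ha1.2⟩, ha2⟩
          · rw [h1]
            exact ⟨abs_lt.2 ⟨hb1.1, hb1.2.trans hε⟩, hb2⟩
      have hab : a ≠ b := (hb1.2.trans ha1.1).ne'
      rw [hset, Set.ncard_pair hab]
      exact ⟨Set.toFinite _, ⟨1, rfl⟩⟩
  · ext σ
    simp only [Set.mem_ofPred_eq, Set.mem_singleton_iff]
    constructor
    · rintro ⟨h1, h2⟩
      by_contra h0
      exact (gt_of σ h1 h0).ne h2.symm
    · rintro rfl
      exact ⟨by rw [abs_zero]; exact hε, rfl⟩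

theorem IS3a_deriv {τ : ℝ → ℝ} {x : ℝ} (hτ : ContDiffAt ℝ ∞ τ x) :
    ContDiffAt ℝ ∞ (deriv τ) x := by
  have h1 : ContDiffAt ℝ ∞ (fderiv ℝ τ) x := hτ.fderiv_right (m := ∞) (by simp)
  have h2 : deriv τ = fun y => fderiv ℝ τ y 1 := by
    funext y
    rfl
  rw [h2]
  exact h1.clm_apply contDiffAt_const

theorem IS3a_pos {τ : ℝ → ℝ} (hτ : ContDiffAt ℝ ∞ τ 0) (h1 : deriv τ 0 = 0)
    (h2 : 0 < deriv (deriv τ) 0) : ∃ ε₀ : ℝ, 0 < ε₀ ∧ ∀ ε : ℝ, 0 < ε → ε < ε₀ → ∃ δ : ℝ, 0 < δ ∧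
      (∀ t : ℝ, |t - τ 0| < δ → t ≠ τ 0 → {σ | |σ| < ε ∧ τ σ = t}.Finite ∧
        Even {σ | |σ| < ε ∧ τ σ = t}.ncard) ∧ {σ | |σ| < ε ∧ τ σ = τ 0} = {0} := by
  have hd1 := IS3a_deriv hτ
  have hd2 := IS3a_deriv hd1
  have ev1 : ∀ᶠ y in 𝓝 (0 : ℝ), 0 < deriv (deriv τ) y :=
    hd2.continuousAt.eventually (lt_mem_nhds h2)
  have ev2 : ∀ᶠ y in 𝓝 (0 : ℝ), DifferentiableAt ℝ τ y := by
    have h3 : ContDiffAt ℝ 1 τ 0 := hτ.of_le (by exact_mod_cast le_top)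
    filter_upwards [h3.eventually (by simp)] with y hy
    exact hy.differentiableAt one_ne_zero
  have ev3 : ∀ᶠ y in 𝓝 (0 : ℝ), DifferentiableAt ℝ (deriv τ) y := by
    have h3 : ContDiffAt ℝ 1 (deriv τ) 0 := hd1.of_le (by exact_mod_cast le_top)
    filter_upwards [h3.eventually (by simp)] with y hy
    exact hy.differentiableAt one_ne_zero
  obtain ⟨r, hr, hball⟩ := Metric.eventually_nhds_iff.1 (ev1.and (ev2.and ev3))
  refine ⟨r, hr, fun ε hε hεr => ?_⟩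
  have hin : ∀ y ∈ Icc (-ε) ε, 0 < deriv (deriv τ) y ∧ DifferentiableAt ℝ τ y ∧
      DifferentiableAt ℝ (deriv τ) y := by
    intro y hy
    refine hball ?_
    rw [Real.dist_eq, sub_zero]
    exact (abs_le.2 hy).trans_lt hεr
  have hneg : -ε < 0 := neg_lt_zero.2 hε
  have hmono : StrictMonoOn (deriv τ) (Icc (-ε) ε) := by
    refine strictMonoOn_of_deriv_pos (convex_Icc _ _) ?_ ?_
    · exact fun y hy => (hin y hy).2.2.continuousAt.continuousWithinAt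
    · intro y hy
      exact (hin y (interior_subset hy)).1
  have hc : ContinuousOn τ (Icc (-ε) ε) :=
    fun y hy => (hin y hy).2.1.continuousAt.continuousWithinAt
  refine IS3a_core hε hc ?_ ?_
  · refine strictAntiOn_of_deriv_neg (convex_Icc _ _) (hc.mono (Icc_subset_Icc le_rfl hε.le)) ?_
    intro y hy
    rw [interior_Icc] at hy
    have h3 := hmono ⟨hy.1.le, (hy.2.trans hε).le⟩ ⟨hneg.le, hε.le⟩ hy.2
    rwa [h1] at h3
  · refine strictMonoOn_of_deriv_pos (convex_Icc _ _) (hc.mono (Icc_subset_Icc hneg.le le_rfl)) ?_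
    intro y hy
    rw [interior_Icc] at hy
    have h3 := hmono ⟨hneg.le, hε.le⟩ ⟨(hneg.trans hy.1).le, hy.2.le⟩ hy.1
    rwa [h1] at h3

theorem IS3_one {τ : ℝ → ℝ} (hτ : ContDiffAt ℝ ∞ τ 0) (h1 : deriv τ 0 = 0)
    (h2 : deriv (deriv τ) 0 ≠ 0) : ∃ ε₀ : ℝ, 0 < ε₀ ∧ ∀ ε : ℝ, 0 < ε → ε < ε₀ → ∃ δ : ℝ, 0 < δ ∧
      (∀ t : ℝ, |t - τ 0| < δ → t ≠ τ 0 → {σ | |σ| < ε ∧ τ σ = t}.Finite ∧
        Even {σ | |σ| < ε ∧ τ σ = t}.ncard) ∧ {σ | |σ| < ε ∧ τ σ = τ 0} = {0} := by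
  rcases lt_or_gt_of_ne h2 with h | h
  · have e1 : deriv (fun y => -τ y) = fun y => -deriv τ y := by
      funext y
      exact deriv.fun_neg
    have e2 : deriv (deriv (fun y => -τ y)) 0 = -deriv (deriv τ) 0 := by
      rw [e1]
      exact deriv.fun_neg
    have h3 : deriv (fun y => -τ y) 0 = 0 := by
      rw [e1]
      show -deriv τ 0 = 0
      rw [h1, neg_zero]
    obtain ⟨ε₀, hε₀, H⟩ := IS3a_pos (τ := fun y => -τ y) hτ.neg h3 (by rw [e2]; linarith)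
    refine ⟨ε₀, hε₀, fun ε hε hεr => ?_⟩
    obtain ⟨δ, hδ, H1, H2⟩ := H ε hε hεr
    have hset : ∀ t : ℝ, {σ | |σ| < ε ∧ τ σ = t} = {σ | |σ| < ε ∧ -τ σ = -t} := by
      intro t
      ext σ
      simp only [Set.mem_ofPred_eq, neg_inj]
    refine ⟨δ, hδ, fun t ht hne => ?_, ?_⟩
    · rw [hset]
      refine H1 (-t) ?_ ?_
      · have e : -t - -τ 0 = -(t - τ 0) := by ring
        rw [e, abs_neg]
        exact ht
      · exact fun h' => hne (neg_inj.1 h')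
    · rw [hset]
      exact H2
  · exact IS3a_pos hτ h1 h

end P205F
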