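import Mathlib
import Vale.Agent.Lib.P205I.IGDefs
import Vale.Agent.Lib.P205I.IS3a

/-!
# P205I module IS3: local structure at a fold (planar)

`IS3_one`: one variable, `τ` smooth near `0`, `τ' 0 = 0`, `τ'' 0 ≠ 0`: strictly monotone on each side.
`IS3_fold`: choose a linear functional `λ` with `λ k = 1`; `(z, t) ↦ (Ψ z - t a4, λ (z - z₀))` is a local diffeomorphism at
`(z₀, t₀)` (kernel: `DΨ u = s a4` gives `s = 0`, `u = c k`, `c = λ u = 0`), so the solutions of `Ψ z = t a4` near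
`(z₀, t₀)` form a curve `(z σ, t σ)`, `t' 0 = 0`, `z' 0 = k`, and `D²Ψ (k, k) + DΨ (z'' 0) = t'' 0 a4` shows
`t'' 0 ≠ 0`.
-/

noncomputable section

namespace P205F

open scoped ContDiff Topology RealInnerProductSpace
open Set

/-- second derivative along the curve of solutions -/
theorem IS3_second {Ψ : E2 × E2 → V4} {z : E2 × E2} (hΨ : ContDiffAt ℝ ∞ Ψ z)
    {x : ℝ → E2 × E2} {τ : ℝ → ℝ} (hx : ContDiffAt ℝ ∞ x 0) (hτ : ContDiffAt ℝ ∞ τ 0)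
    (hx0 : x 0 = z) (h : ∀ᶠ σ in 𝓝 (0 : ℝ), Ψ (x σ) = τ σ • a4) :
    fderiv ℝ Ψ z (deriv x 0) = deriv τ 0 • a4 ∧
    fderiv ℝ (fun y => fderiv ℝ Ψ y (deriv x 0)) z (deriv x 0) +
      fderiv ℝ Ψ z (deriv (deriv x) 0) = deriv (deriv τ) 0 • a4 := by
  have h1inf : (1 : WithTop ℕ∞) ≠ 0 := one_ne_zero
  have hxd : ∀ᶠ σ in 𝓝 (0 : ℝ), DifferentiableAt ℝ x σ := by
    have h1 : ContDiffAt ℝ 1 x 0 := hx.of_le (by simp)
    exact (h1.eventually (by simp)).mono fun σ hσ => hσ.differentiableAt h1inf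
  have hτd : ∀ᶠ σ in 𝓝 (0 : ℝ), DifferentiableAt ℝ τ σ := by
    have h1 : ContDiffAt ℝ 1 τ 0 := hτ.of_le (by simp)
    exact (h1.eventually (by simp)).mono fun σ hσ => hσ.differentiableAt h1inf
  have hΨd : ∀ᶠ σ in 𝓝 (0 : ℝ), DifferentiableAt ℝ Ψ (x σ) := by
    have h1 : ContDiffAt ℝ 1 Ψ z := hΨ.of_le (by simp)
    have h2 : ∀ᶠ y in 𝓝 z, DifferentiableAt ℝ Ψ y :=
      (h1.eventually (by simp)).mono fun σ hσ => hσ.differentiableAt h1inf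
    have h3 : Filter.Tendsto x (𝓝 0) (𝓝 z) := by
      rw [← hx0]
      exact hx.continuousAt
    exact h3.eventually h2
  have hA : (fun σ => Ψ (x σ)) =ᶠ[𝓝 0] fun σ => τ σ • a4 := h
  have hB : (fun σ => fderiv ℝ Ψ (x σ) (deriv x σ)) =ᶠ[𝓝 0] fun σ => deriv τ σ • a4 := by
    filter_upwards [hA.deriv, hxd, hτd, hΨd] with σ h1 h2 h3 h4
    have h5 : HasDerivAt (fun s => Ψ (x s)) (fderiv ℝ Ψ (x σ) (deriv x σ)) σ :=
      h4.hasFDerivAt.comp_hasDerivAt σ h2.hasDerivAt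
    have h6 : HasDerivAt (fun s => τ s • a4) (deriv τ σ • a4) σ := h3.hasDerivAt.smul_const a4
    rw [h5.deriv, h6.deriv] at h1
    exact h1
  have hfd : DifferentiableAt ℝ (fderiv ℝ Ψ) z :=
    (hΨ.fderiv_right (m := 1) (by norm_cast)).differentiableAt h1inf
  have hxx : DifferentiableAt ℝ (deriv x) 0 := by
    have h2 : ContDiffAt ℝ 1 (fderiv ℝ x) 0 := hx.fderiv_right (m := 1) (by norm_cast)
    exact (h2.clm_apply (contDiffAt_const (c := (1 : ℝ)))).differentiableAt h1inf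
  have hττ : DifferentiableAt ℝ (deriv τ) 0 := by
    have h2 : ContDiffAt ℝ 1 (fderiv ℝ τ) 0 := hτ.fderiv_right (m := 1) (by norm_cast)
    exact (h2.clm_apply (contDiffAt_const (c := (1 : ℝ)))).differentiableAt h1inf
  refine ⟨?_, ?_⟩
  · have := hB.self_of_nhds
    simpa only [hx0] using this
  · have h1 : HasDerivAt (fun σ => fderiv ℝ Ψ (x σ)) (fderiv ℝ (fderiv ℝ Ψ) z (deriv x 0)) 0 := by
      have h2 : HasFDerivAt (fderiv ℝ Ψ) (fderiv ℝ (fderiv ℝ Ψ) z) (x 0) := by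
        rw [hx0]
        exact hfd.hasFDerivAt
      exact h2.comp_hasDerivAt 0 (hx.differentiableAt (by simp)).hasDerivAt
    have h3 := h1.clm_apply hxx.hasDerivAt
    have h4 : HasDerivAt (fun σ => deriv τ σ • a4) (deriv (deriv τ) 0 • a4) 0 :=
      hττ.hasDerivAt.smul_const a4
    have h5 := hB.deriv_eq
    rw [h3.deriv, h4.deriv, hx0] at h5
    have h6 : fderiv ℝ (fun y => fderiv ℝ Ψ y (deriv x 0)) z (deriv x 0) =
        fderiv ℝ (fderiv ℝ Ψ) z (deriv x 0) (deriv x 0) := by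
      have h7 := hfd.hasFDerivAt.clm_apply (hasFDerivAt_const (deriv x 0) z)
      rw [h7.fderiv]
      simp
    rw [h6]
    exact h5

theorem IS3_fold {Ψ : E2 × E2 → V4} {z : E2 × E2} (hΨ : ContDiffAt ℝ ∞ Ψ z) {t₀ : ℝ}
    (h0 : Ψ z = t₀ • a4) (hf : FoldAt Ψ z) : ∀ V ∈ 𝓝 z, ∃ U ∈ 𝓝 z, U ⊆ V ∧ ∃ δ : ℝ, 0 < δ ∧
      (∀ t : ℝ, |t - t₀| < δ → t ≠ t₀ → {x | x ∈ U ∧ Ψ x = t • a4}.Finite ∧
        Even {x | x ∈ U ∧ Ψ x = t • a4}.ncard) ∧ {x | x ∈ U ∧ Ψ x = t₀ • a4} = {z} := by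
  obtain ⟨k, hk0, hk1, hk2, hk3, hk4⟩ := hf
  obtain ⟨lam, hlam⟩ := SeparatingDual.exists_eq_one (R := ℝ) hk0
  let Φ : (E2 × E2) × ℝ → V4 × ℝ := fun p => (Ψ p.1 - p.2 • a4, lam (p.1 - z))
  have hΦc : ContDiffAt ℝ ∞ Φ (z, t₀) := by
    have h1 : ContDiffAt ℝ ∞ (fun p : (E2 × E2) × ℝ => Ψ p.1) (z, t₀) :=
      ContDiffAt.comp (z, t₀) (hΨ : ContDiffAt ℝ ∞ Ψ ((z, t₀) : (E2 × E2) × ℝ).1) contDiffAt_fst
    have h2 : ContDiffAt ℝ ∞ (fun p : (E2 × E2) × ℝ => p.2 • a4) (z, t₀) :=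
      contDiffAt_snd.smul contDiffAt_const
    have h3 : ContDiffAt ℝ ∞ (fun p : (E2 × E2) × ℝ => lam (p.1 - z)) (z, t₀) :=
      lam.contDiff.contDiffAt.comp (z, t₀) (contDiffAt_fst.sub contDiffAt_const)
    exact (h1.sub h2).prodMk h3
  let D : ((E2 × E2) × ℝ) →L[ℝ] V4 × ℝ :=
    ((fderiv ℝ Ψ z).comp (ContinuousLinearMap.fst ℝ (E2 × E2) ℝ) -
      (ContinuousLinearMap.snd ℝ (E2 × E2) ℝ).smulRight a4).prod
      (lam.comp (ContinuousLinearMap.fst ℝ (E2 × E2) ℝ))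
  have hD : HasFDerivAt Φ D (z, t₀) := by
    have h1 : HasFDerivAt (fun p : (E2 × E2) × ℝ => Ψ p.1)
        ((fderiv ℝ Ψ z).comp (ContinuousLinearMap.fst ℝ (E2 × E2) ℝ)) (z, t₀) :=
      HasFDerivAt.comp (z, t₀) (g := Ψ) (f := Prod.fst)
        ((hΨ.differentiableAt (by simp)).hasFDerivAt) hasFDerivAt_fst
    have h2 : HasFDerivAt (fun p : (E2 × E2) × ℝ => p.2 • a4)
        ((ContinuousLinearMap.snd ℝ (E2 × E2) ℝ).smulRight a4) (z, t₀) :=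
      hasFDerivAt_snd.smul_const a4
    have h3 : HasFDerivAt (fun p : (E2 × E2) × ℝ => lam (p.1 - z))
        (lam.comp (ContinuousLinearMap.fst ℝ (E2 × E2) ℝ)) (z, t₀) :=
      lam.hasFDerivAt.comp (z, t₀) (hasFDerivAt_fst.sub_const z)
    exact (h1.sub h2).prodMk h3
  have hDap : ∀ u s, D (u, s) = (fderiv ℝ Ψ z u - s • a4, lam u) := fun u s => rfl
  have hDinj : Function.Injective (D : ((E2 × E2) × ℝ) →ₗ[ℝ] V4 × ℝ) := by
    rw [injective_iff_map_eq_zero]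
    rintro ⟨u, s⟩ hus
    have h1 : (fderiv ℝ Ψ z u - s • a4, lam u) = ((0, 0) : V4 × ℝ) := hus
    have h2 : fderiv ℝ Ψ z u - s • a4 = 0 := congrArg Prod.fst h1
    have h3 : lam u = 0 := congrArg Prod.snd h1
    have h4 := hk3 u s (sub_eq_zero.1 h2)
    rw [h4, zero_smul, sub_zero] at h2
    obtain ⟨c, hc⟩ := hk2 u h2
    rw [hc, map_smul, hlam, smul_eq_mul, mul_one] at h3
    rw [hc, h3, h4, zero_smul]
    rfl
  have hdim : Module.finrank ℝ ((E2 × E2) × ℝ) = Module.finrank ℝ (V4 × ℝ) := by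
    simp [Module.finrank_prod]
  let e' : ((E2 × E2) × ℝ) ≃L[ℝ] V4 × ℝ :=
    (LinearMap.linearEquivOfInjective (D : ((E2 × E2) × ℝ) →ₗ[ℝ] V4 × ℝ) hDinj
      hdim).toContinuousLinearEquiv
  have he' : (e' : ((E2 × E2) × ℝ) →L[ℝ] V4 × ℝ) = D := by
    refine ContinuousLinearMap.ext fun w => ?_
    exact LinearMap.linearEquivOfInjective_apply hDinj hdim w
  have hD' : HasFDerivAt Φ (e' : ((E2 × E2) × ℝ) →L[ℝ] V4 × ℝ) (z, t₀) := by rw [he']; exact hD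
  have hinf : (∞ : WithTop ℕ∞) ≠ 0 := by simp
  let e := hΦc.toOpenPartialHomeomorph Φ hD' hinf
  have hes : (z, t₀) ∈ e.source := hΦc.mem_toOpenPartialHomeomorph_source hD' hinf
  have hec : ∀ p, e p = Φ p := fun p => rfl
  have hΦ0 : Φ (z, t₀) = (0, 0) := by
    show (Ψ z - t₀ • a4, lam (z - z)) = (0, 0)
    rw [h0, sub_self, sub_self, map_zero]
  have h00 : ((0, 0) : V4 × ℝ) ∈ e.target := by
    have := e.map_source hes
    rwa [hec, hΦ0] at this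
  have hγ0 : e.symm (0, 0) = (z, t₀) := by
    rw [← hΦ0, ← hec]
    exact e.left_inv hes
  have hsymm : ContDiffAt ℝ ∞ e.symm (0, 0) := by
    have h1 := hΦc.to_localInverse hD' hinf
    rw [hΦ0] at h1
    exact h1
  have hγc : ContDiffAt ℝ ∞ (fun σ : ℝ => e.symm ((0, σ) : V4 × ℝ)) 0 :=
    ContDiffAt.comp (0 : ℝ) (g := e.symm) (f := fun σ : ℝ => ((0, σ) : V4 × ℝ)) hsymm
      (contDiffAt_const.prodMk contDiffAt_id)
  let x : ℝ → E2 × E2 := fun σ => (e.symm ((0, σ) : V4 × ℝ)).1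
  let τ : ℝ → ℝ := fun σ => (e.symm ((0, σ) : V4 × ℝ)).2
  have hxc : ContDiffAt ℝ ∞ x 0 := hγc.fst
  have hτc : ContDiffAt ℝ ∞ τ 0 := hγc.snd
  have hx0 : x 0 = z := congrArg Prod.fst hγ0
  have hτ0 : τ 0 = t₀ := congrArg Prod.snd hγ0
  have hcont : Continuous (fun σ : ℝ => ((0, σ) : V4 × ℝ)) := by fun_prop
  have htar : ∀ᶠ σ in 𝓝 (0 : ℝ), ((0, σ) : V4 × ℝ) ∈ e.target :=
    hcont.continuousAt.eventually (e.open_target.mem_nhds h00)
  have hsol : ∀ σ : ℝ, ((0, σ) : V4 × ℝ) ∈ e.target → Ψ (x σ) = τ σ • a4 ∧ lam (x σ - z) = σ := by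
    intro σ hσ
    have h1 := e.right_inv hσ
    rw [hec] at h1
    have h2 : (Ψ (x σ) - τ σ • a4, lam (x σ - z)) = ((0, σ) : V4 × ℝ) := h1
    exact ⟨sub_eq_zero.1 (congrArg Prod.fst h2), congrArg Prod.snd h2⟩
  obtain ⟨hs1, hs2⟩ := IS3_second hΨ hxc hτc hx0 (htar.mono fun σ hσ => (hsol σ hσ).1)
  have hτ1 : deriv τ 0 = 0 := hk3 _ _ hs1
  have hx1 : deriv x 0 = k := by
    rw [hτ1, zero_smul] at hs1
    obtain ⟨c, hc⟩ := hk2 _ hs1
    have h1 : (fun σ => lam (x σ - z)) =ᶠ[𝓝 0] fun σ => σ := htar.mono fun σ hσ => (hsol σ hσ).2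
    have h2 : HasDerivAt (fun σ => lam (x σ - z)) (lam (deriv x 0)) 0 :=
      lam.hasFDerivAt.comp_hasDerivAt 0
        ((hxc.differentiableAt (by simp)).hasDerivAt.sub_const z)
    have h3 := h1.deriv_eq
    rw [h2.deriv, deriv_id''] at h3
    rw [hc, map_smul, hlam, smul_eq_mul, mul_one] at h3
    rw [hc, h3, one_smul]
  have hτ2 : deriv (deriv τ) 0 ≠ 0 := by
    intro h
    apply hk4
    refine ⟨-deriv (deriv x) 0, ?_⟩
    rw [hx1, h, zero_smul] at hs2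
    rw [map_neg]
    exact eq_neg_of_add_eq_zero_left hs2
  obtain ⟨ε₀, hε₀, hone⟩ := IS3_one hτc hτ1 hτ2
  intro V hV
  -- product neighbourhood in the source
  have hsrc : e.source ∈ 𝓝 ((z, t₀) : (E2 × E2) × ℝ) := e.open_source.mem_nhds hes
  rw [nhds_prod_eq, Filter.mem_prod_iff] at hsrc
  obtain ⟨N, hN, T, hT, hNT⟩ := hsrc
  obtain ⟨η, hη, hηT⟩ := Metric.mem_nhds_iff.1 hT
  have hev : ∀ᶠ σ in 𝓝 (0 : ℝ), ((0, σ) : V4 × ℝ) ∈ e.target ∧ x σ ∈ N ∩ V := by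
    refine htar.and ?_
    have h1 : Filter.Tendsto x (𝓝 0) (𝓝 z) := by
      rw [← hx0]
      exact hxc.continuousAt
    exact h1 (Filter.inter_mem hN hV)
  obtain ⟨ε₁, hε₁, hε₁'⟩ := Metric.eventually_nhds_iff.1 hev
  set ε : ℝ := min (ε₀ / 2) (ε₁ / 2) with hε
  have hεp : 0 < ε := by rw [hε]; positivity
  have hεε₀ : ε < ε₀ := (min_le_left _ _).trans_lt (by linarith)
  have hεε₁ : ε < ε₁ := (min_le_right _ _).trans_lt (by linarith)
  obtain ⟨δ, hδ, hδ1, hδ2⟩ := hone ε hεp hεε₀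
  have hsmall : ∀ σ : ℝ, |σ| < ε → ((0, σ) : V4 × ℝ) ∈ e.target ∧ x σ ∈ N ∩ V := by
    intro σ hσ
    refine hε₁' ?_
    rw [dist_zero_right, Real.norm_eq_abs]
    linarith
  let U : Set (E2 × E2) := (N ∩ V) ∩ {y | |lam (y - z)| < ε}
  have hU : U ∈ 𝓝 z := by
    refine Filter.inter_mem (Filter.inter_mem hN hV) ?_
    have h1 : Continuous (fun y : E2 × E2 => |lam (y - z)|) := by fun_prop
    have h2 : IsOpen {y : E2 × E2 | |lam (y - z)| < ε} := isOpen_lt h1 continuous_const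
    refine h2.mem_nhds ?_
    show |lam (z - z)| < ε
    rw [sub_self, map_zero, abs_zero]
    exact hεp
  have hset : ∀ t : ℝ, |t - t₀| < η → {y | y ∈ U ∧ Ψ y = t • a4} = x '' {σ | |σ| < ε ∧ τ σ = t} := by
    intro t ht
    ext y
    constructor
    · rintro ⟨⟨⟨hyN, hyV⟩, hyε⟩, hyΨ⟩
      have h1 : (y, t) ∈ e.source := hNT ⟨hyN, hηT (by
        rw [Metric.mem_ball, Real.dist_eq]
        exact ht)⟩
      have h2 : Φ (y, t) = (0, lam (y - z)) := by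
        show (Ψ y - t • a4, lam (y - z)) = _
        rw [hyΨ, sub_self]
      have h3 : e.symm (0, lam (y - z)) = (y, t) := by
        rw [← h2, ← hec]
        exact e.left_inv h1
      refine ⟨lam (y - z), ⟨hyε, ?_⟩, ?_⟩
      · exact congrArg Prod.snd h3
      · exact congrArg Prod.fst h3
    · rintro ⟨σ, ⟨hσ, hστ⟩, rfl⟩
      have h1 := hsmall σ hσ
      have h2 := hsol σ h1.1
      refine ⟨⟨h1.2, ?_⟩, ?_⟩
      · show |lam (x σ - z)| < ε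
        rw [h2.2]
        exact hσ
      · rw [h2.1, hστ]
  have hinj : ∀ t : ℝ, InjOn x {σ | |σ| < ε ∧ τ σ = t} := by
    rintro t σ ⟨hσ, -⟩ σ' ⟨hσ', -⟩ hxx
    have h1 := (hsol σ (hsmall σ hσ).1).2
    have h2 := (hsol σ' (hsmall σ' hσ').1).2
    rw [← h1, ← h2, hxx]
  refine ⟨U, hU, fun y hy => hy.1.2, min δ η, lt_min hδ hη, fun t ht htt => ?_, ?_⟩
  · have h1 := hδ1 t (by rw [hτ0]; exact ht.trans_le (min_le_left _ _)) (by rw [hτ0]; exact htt)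
    rw [hset t (ht.trans_le (min_le_right _ _))]
    refine ⟨h1.1.image x, ?_⟩
    rw [(hinj t).ncard_image]
    exact h1.2
  · rw [hset t₀ (by rw [sub_self, abs_zero]; exact hη)]
    rw [hτ0] at hδ2
    rw [hδ2, image_singleton, hx0]

end P205F
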