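import Vale.Agent.Lib.P205I.IS1
import Vale.Agent.Lib.P205I.IS2
import Vale.Agent.Lib.P205I.IS3
import Vale.Agent.Lib.P205F.MD1

/-!
# P205I module IS4: the sweeping lemma on the surface

Apply `sweep_even` to `X = M × M`, `S = Sol4 f N`: a pair `z ∈ Sol4 f N t` with `t ≠ 0` has `z.1 ≠ z.2`; charts `k, l` of the
atlas around its components (`cover`), `offD`; `IS2_inv` or `IS3_fold` transported to `M × M` (`N` is clopen); `Sol4` is empty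
for large `t` because `f` is bounded.
-/

noncomputable section

namespace P205F

open scoped Manifold ContDiff Topology RealInnerProductSpace
open Set

variable {M : Type} [TopologicalSpace M] [ChartedSpace E2 M] [IsManifold 𝓘(ℝ, E2) ∞ M] [T2Space M]
  [CompactSpace M]

private theorem IS4_a4 : ‖a4‖ = 1 := by
  unfold a4
  rw [PiLp.norm_single]
  exact norm_one

private theorem IS4_norm (t t' : ℝ) : ‖t' • a4 - t • a4‖ = |t' - t| := by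
  rw [← sub_smul, norm_smul, IS4_a4, mul_one, Real.norm_eq_abs]

omit [T2Space M] [CompactSpace M] in
private theorem IS4_smooth {𝒜 : FinAtlas M} {f : M → V4} (hf : Sm f) {k l : Fin 𝒜.n}
    {x : E2 × E2} (h1 : x.1 ∈ (𝒜.φ k).target) (h2 : x.2 ∈ (𝒜.φ l).target) :
    ContDiffAt ℝ ∞ (dif 𝒜 f k l) x := by
  have a1 : ContDiffAt ℝ ∞ (f ∘ (𝒜.φ k).symm) x.1 :=
    (hf.loc (𝒜.mem k)).contDiffAt ((𝒜.φ k).open_target.mem_nhds h1)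
  have a2 : ContDiffAt ℝ ∞ (f ∘ (𝒜.φ l).symm) x.2 :=
    (hf.loc (𝒜.mem l)).contDiffAt ((𝒜.φ l).open_target.mem_nhds h2)
  exact (a1.comp x contDiffAt_fst).sub (a2.comp x contDiffAt_snd)

omit [IsManifold 𝓘(ℝ, E2) ∞ M] [T2Space M] [CompactSpace M] in
/-- transport of planar neighbourhoods to `M × M` -/
private theorem IS4_tr {𝒜 : FinAtlas M} {f : M → V4} {N : Set M} (hN : IsClopen N)
    {z : M × M} (hz1 : z.1 ∈ N) (hz2 : z.2 ∈ N) {k l : Fin 𝒜.n} (hk : z.1 ∈ (𝒜.φ k).source)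
    (hl : z.2 ∈ (𝒜.φ l).source) {V : Set (M × M)} (hV : V ∈ 𝓝 z) :
    ∃ W ∈ 𝓝 ((𝒜.φ k) z.1, (𝒜.φ l) z.2), ∀ U ∈ 𝓝 ((𝒜.φ k) z.1, (𝒜.φ l) z.2), U ⊆ W →
      ∃ U' ∈ 𝓝 z, U' ⊆ V ∧
        (∀ t : ℝ, Sol4 f N t ∩ U' = (fun x : E2 × E2 => ((𝒜.φ k).symm x.1, (𝒜.φ l).symm x.2)) ''
          {x | x ∈ U ∧ dif 𝒜 f k l x = t • a4}) ∧
        InjOn (fun x : E2 × E2 => ((𝒜.φ k).symm x.1, (𝒜.φ l).symm x.2)) U := by
  set g : E2 × E2 → M × M := fun x => ((𝒜.φ k).symm x.1, (𝒜.φ l).symm x.2) with hg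
  have hkt : (𝒜.φ k) z.1 ∈ (𝒜.φ k).target := (𝒜.φ k).map_source hk
  have hlt : (𝒜.φ l) z.2 ∈ (𝒜.φ l).target := (𝒜.φ l).map_source hl
  have hgz : g ((𝒜.φ k) z.1, (𝒜.φ l) z.2) = z := by
    simp only [hg]
    rw [(𝒜.φ k).left_inv hk, (𝒜.φ l).left_inv hl]
  have hgc : ContinuousAt g ((𝒜.φ k) z.1, (𝒜.φ l) z.2) := by
    have c1 : ContinuousAt (𝒜.φ k).symm ((𝒜.φ k) z.1) := (𝒜.φ k).symm.continuousAt hkt
    have c2 : ContinuousAt (𝒜.φ l).symm ((𝒜.φ l) z.2) := (𝒜.φ l).symm.continuousAt hlt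
    exact ContinuousAt.prodMk (c1.comp (f := Prod.fst) continuousAt_fst)
      (c2.comp (f := Prod.snd) continuousAt_snd)
  have hVN : V ∩ (N ×ˢ N) ∈ 𝓝 (g ((𝒜.φ k) z.1, (𝒜.φ l) z.2)) := by
    rw [hgz]
    refine Filter.inter_mem hV ?_
    exact (hN.isOpen.prod hN.isOpen).mem_nhds ⟨hz1, hz2⟩
  have hT : (𝒜.φ k).target ×ˢ (𝒜.φ l).target ∈ 𝓝 ((𝒜.φ k) z.1, (𝒜.φ l) z.2) :=
    ((𝒜.φ k).open_target.prod (𝒜.φ l).open_target).mem_nhds ⟨hkt, hlt⟩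
  refine ⟨((𝒜.φ k).target ×ˢ (𝒜.φ l).target) ∩ g ⁻¹' (V ∩ (N ×ˢ N)),
    Filter.inter_mem hT (hgc hVN), ?_⟩
  intro U hU hUW
  have hfc : ContinuousAt (fun w : M × M => ((𝒜.φ k) w.1, (𝒜.φ l) w.2)) z := by
    have c1 : ContinuousAt (𝒜.φ k) z.1 := (𝒜.φ k).continuousAt hk
    have c2 : ContinuousAt (𝒜.φ l) z.2 := (𝒜.φ l).continuousAt hl
    exact ContinuousAt.prodMk (c1.comp (f := Prod.fst) continuousAt_fst)
      (c2.comp (f := Prod.snd) continuousAt_snd)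
  have hS : (𝒜.φ k).source ×ˢ (𝒜.φ l).source ∈ 𝓝 z :=
    ((𝒜.φ k).open_source.prod (𝒜.φ l).open_source).mem_nhds ⟨hk, hl⟩
  refine ⟨((𝒜.φ k).source ×ˢ (𝒜.φ l).source) ∩
    (fun w : M × M => ((𝒜.φ k) w.1, (𝒜.φ l) w.2)) ⁻¹' U, Filter.inter_mem hS (hfc hU), ?_, ?_, ?_⟩
  · rintro w ⟨⟨hw1, hw2⟩, hw3⟩
    have h1 := (hUW hw3).2.1
    have h2 : g ((𝒜.φ k) w.1, (𝒜.φ l) w.2) = w := by
      simp only [hg]
      rw [(𝒜.φ k).left_inv hw1, (𝒜.φ l).left_inv hw2]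
    rwa [h2] at h1
  · intro t
    ext w
    constructor
    · rintro ⟨⟨_, _, hw3⟩, ⟨hw4, hw5⟩, hw6⟩
      refine ⟨((𝒜.φ k) w.1, (𝒜.φ l) w.2), ⟨hw6, ?_⟩, ?_⟩
      · simp only [dif]
        rw [(𝒜.φ k).left_inv hw4, (𝒜.φ l).left_inv hw5]
        exact hw3
      · simp only [hg]
        rw [(𝒜.φ k).left_inv hw4, (𝒜.φ l).left_inv hw5]
    · rintro ⟨x, ⟨hx1, hx2⟩, rfl⟩
      obtain ⟨⟨hx3, hx4⟩, hx5, hx6⟩ := hUW hx1
      refine ⟨⟨hx6.1, hx6.2, hx2⟩, ⟨(𝒜.φ k).map_target hx3, (𝒜.φ l).map_target hx4⟩, ?_⟩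
      simp only [hg, mem_preimage]
      rw [(𝒜.φ k).right_inv hx3, (𝒜.φ l).right_inv hx4]
      exact hx1
  · intro x hx y hy hxy
    obtain ⟨⟨hx3, hx4⟩, _⟩ := hUW hx
    obtain ⟨⟨hy3, hy4⟩, _⟩ := hUW hy
    simp only [hg, Prod.mk.injEq] at hxy
    exact Prod.ext ((𝒜.φ k).symm.injOn hx3 hy3 hxy.1) ((𝒜.φ l).symm.injOn hx4 hy4 hxy.2)

/-- the case of an injective derivative -/
private theorem IS4_inj {𝒜 : FinAtlas M} {f : M → V4} (hf : Sm f) {N : Set M} (hN : IsClopen N)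
    {t : ℝ} {z : M × M} (hz : z ∈ Sol4 f N t) {k l : Fin 𝒜.n} (hk : z.1 ∈ (𝒜.φ k).source)
    (hl : z.2 ∈ (𝒜.φ l).source)
    (hi : Function.Injective (fderiv ℝ (dif 𝒜 f k l) ((𝒜.φ k) z.1, (𝒜.φ l) z.2))) :
    ∀ V ∈ 𝓝 z, ∃ U ∈ 𝓝 z, U ⊆ V ∧
      ∃ δ : ℝ, 0 < δ ∧ ∀ t' : ℝ, |t' - t| < δ → ∃ z', Sol4 f N t' ∩ U = {z'} := by
  intro V hV
  obtain ⟨W, hW, hWU⟩ := IS4_tr (f := f) hN hz.1 hz.2.1 hk hl hV
  obtain ⟨U, hU, hUW, δ, hδ, hu⟩ := IS2_inv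
    (IS4_smooth hf ((𝒜.φ k).map_source hk) ((𝒜.φ l).map_source hl)) hi W hW
  obtain ⟨U', hU', hUV, hSt, _⟩ := hWU U hU hUW
  refine ⟨U', hU', hUV, δ, hδ, fun t' ht' => ?_⟩
  have h1 : dif 𝒜 f k l ((𝒜.φ k) z.1, (𝒜.φ l) z.2) = t • a4 := by
    simp only [dif]
    rw [(𝒜.φ k).left_inv hk, (𝒜.φ l).left_inv hl]
    exact hz.2.2
  obtain ⟨z', hz'⟩ := hu (t' • a4) (by rw [h1, IS4_norm]; exact ht')
  exact ⟨((𝒜.φ k).symm z'.1, (𝒜.φ l).symm z'.2), by rw [hSt, hz', image_singleton]⟩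

/-- local uniqueness near a regular pair of `M × M` -/
theorem IS4_reg {𝒜 : FinAtlas M} {f : M → V4} (hf : Sm f) {N : Set M} (hN : IsClopen N) {t : ℝ}
    {z : M × M} (hz : z ∈ Sol4 f N t) (hr : RegP 𝒜 f z) : ∀ V ∈ 𝓝 z, ∃ U ∈ 𝓝 z, U ⊆ V ∧
      ∃ δ : ℝ, 0 < δ ∧ ∀ t' : ℝ, |t' - t| < δ → ∃ z', Sol4 f N t' ∩ U = {z'} := by
  obtain ⟨k, hk, hk'⟩ := 𝒜.cover z.1
  obtain ⟨l, hl, hl'⟩ := 𝒜.cover z.2
  have hb : Metric.ball (0 : E2) 1 ⊆ Metric.closedBall (0 : E2) 2 :=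
    (Metric.ball_subset_closedBall).trans (Metric.closedBall_subset_closedBall (by norm_num))
  exact IS4_inj hf hN hz hk hl (hr k l hk (hb hk') hl (hb hl'))

theorem sweep_M {𝒜 : FinAtlas M} {f : M → V4} (h : Gen4 𝒜 f) {N : Set M} (hN : IsClopen N) {t₀ : ℝ}
    (ht₀ : 0 < t₀) (hreg : ∀ z ∈ Sol4 f N t₀, RegP 𝒜 f z) :
    (Sol4 f N t₀).Finite ∧ Even (Sol4 f N t₀).ncard := by
  have hf := h.sm
  have hfc : Continuous f := ContMDiff.continuous hf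
  have hb : Metric.ball (0 : E2) 1 ⊆ Metric.closedBall (0 : E2) 2 :=
    (Metric.ball_subset_closedBall).trans (Metric.closedBall_subset_closedBall (by norm_num))
  -- charts around a pair, off the diagonal
  have hch : ∀ t : ℝ, 0 < t → ∀ z ∈ Sol4 f N t, ∃ k l : Fin 𝒜.n, z.1 ∈ (𝒜.φ k).source ∧
      z.2 ∈ (𝒜.φ l).source ∧
      dif 𝒜 f k l ((𝒜.φ k) z.1, (𝒜.φ l) z.2) = t • a4 ∧
      (Function.Injective (fderiv ℝ (dif 𝒜 f k l) ((𝒜.φ k) z.1, (𝒜.φ l) z.2)) ∨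
        FoldAt (dif 𝒜 f k l) ((𝒜.φ k) z.1, (𝒜.φ l) z.2)) := by
    intro t ht z hz
    obtain ⟨k, hk, hk'⟩ := 𝒜.cover z.1
    obtain ⟨l, hl, hl'⟩ := 𝒜.cover z.2
    have h1 : dif 𝒜 f k l ((𝒜.φ k) z.1, (𝒜.φ l) z.2) = t • a4 := by
      simp only [dif]
      rw [(𝒜.φ k).left_inv hk, (𝒜.φ l).left_inv hl]
      exact hz.2.2
    refine ⟨k, l, hk, hl, h1, h.fold k l _ ⟨hb hk', hb hl', ?_⟩ t h1⟩
    simp only
    rw [(𝒜.φ k).left_inv hk, (𝒜.φ l).left_inv hl]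
    intro he
    have h2 := hz.2.2
    rw [he, sub_self] at h2
    have h3 : ‖t • a4‖ = 0 := by rw [← h2, norm_zero]
    rw [norm_smul, IS4_a4, mul_one, Real.norm_eq_abs, abs_of_pos ht] at h3
    exact ht.ne' h3
  refine sweep_even (Sol4 f N) ?_ ?_ ?_ ?_ ht₀ ?_
  · have e : {q : (M × M) × ℝ | q.1 ∈ Sol4 f N q.2} =
        (fun q : (M × M) × ℝ => q.1.1) ⁻¹' N ∩ ((fun q : (M × M) × ℝ => q.1.2) ⁻¹' N ∩
          {q | f q.1.1 - f q.1.2 = q.2 • a4}) := by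
      ext q
      rfl
    rw [e]
    refine (hN.isClosed.preimage (by fun_prop)).inter
      ((hN.isClosed.preimage (by fun_prop)).inter (isClosed_eq (by fun_prop) (by fun_prop)))
  · intro t ht z hz
    obtain ⟨k, l, hk, hl, h1, h2⟩ := hch t ht z hz
    rcases h2 with h2 | h2
    · refine ⟨True, fun V hV => ?_⟩
      obtain ⟨U, hU, hUV, δ, hδ, hu⟩ := IS4_inj hf hN hz hk hl h2 V hV
      refine ⟨U, hU, hUV, δ, hδ, fun t' ht' _ => ?_⟩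
      obtain ⟨z', hz'⟩ := hu t' ht'
      rw [hz', ncard_singleton]
      exact ⟨finite_singleton _, by simp⟩
    · refine ⟨False, fun V hV => ?_⟩
      obtain ⟨W, hW, hWU⟩ := IS4_tr (f := f) hN hz.1 hz.2.1 hk hl hV
      obtain ⟨U, hU, hUW, δ, hδ, hu, _⟩ := IS3_fold
        (IS4_smooth hf ((𝒜.φ k).map_source hk) ((𝒜.φ l).map_source hl)) h1 h2 W hW
      obtain ⟨U', hU', hUV, hSt, hinj⟩ := hWU U hU hUW
      refine ⟨U', hU', hUV, δ, hδ, fun t' ht' hne => ?_⟩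
      obtain ⟨hfin, heven⟩ := hu t' ht' hne
      rw [hSt]
      refine ⟨hfin.image _, ?_⟩
      rw [InjOn.ncard_image (hinj.mono fun x hx => hx.1)]
      simpa using heven
  · intro t ht z hz
    obtain ⟨k, l, hk, hl, h1, h2⟩ := hch t ht z hz
    rcases h2 with h2 | h2
    · obtain ⟨U, hU, _, δ, hδ, hu⟩ := IS4_inj hf hN hz hk hl h2 univ Filter.univ_mem
      obtain ⟨z', hz'⟩ := hu t (by simpa using hδ)
      have h3 : z ∈ Sol4 f N t ∩ U := ⟨hz, mem_of_mem_nhds hU⟩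
      refine ⟨U, hU, ?_⟩
      rw [hz'] at h3 ⊢
      rw [mem_singleton_iff.1 h3]
    · obtain ⟨W, hW, hWU⟩ := IS4_tr (f := f) hN hz.1 hz.2.1 hk hl (V := univ) Filter.univ_mem
      obtain ⟨U, hU, hUW, δ, hδ, _, hu⟩ := IS3_fold
        (IS4_smooth hf ((𝒜.φ k).map_source hk) ((𝒜.φ l).map_source hl)) h1 h2 W hW
      obtain ⟨U', hU', hUV, hSt, hinj⟩ := hWU U hU hUW
      refine ⟨U', hU', ?_⟩
      rw [hSt, hu, image_singleton]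
      dsimp only
      rw [(𝒜.φ k).left_inv hk, (𝒜.φ l).left_inv hl]
  · obtain ⟨C, hC⟩ : ∃ C : ℝ, ∀ p : M, ‖f p‖ ≤ C := by
      obtain ⟨C, hC⟩ := isCompact_univ.exists_bound_of_continuousOn (f := f) hfc.continuousOn
      exact ⟨C, fun p => hC p (mem_univ p)⟩
    refine ⟨|C| + |C| + 1, fun t ht => ?_⟩
    rw [eq_empty_iff_forall_notMem]
    intro z hz
    have h1 : ‖t • a4‖ ≤ ‖f z.1‖ + ‖f z.2‖ := by
      rw [← hz.2.2]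
      exact norm_sub_le _ _
    have h2 := hC z.1
    have h3 := hC z.2
    have h4 := le_abs_self C
    have h5 := abs_nonneg C
    rw [norm_smul, IS4_a4, mul_one, Real.norm_eq_abs, abs_of_nonneg (by linarith)] at h1
    linarith
  · intro z hz
    exact IS4_reg hf hN hz (hreg z hz)

end P205F
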