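import Mathlib

/-!
# P205I K2: explicit loops in `ℂ \ {0}` with given mean

`g(c,s,t) = e^d (1 + al e^{it})² (1 + be e^{-it})²`, `d = (1/2) log (1 + |c-1|⁴)`,
`w = -2 + sqrt (3 + c e^{-d})`, `al = w / 0.9`, `be = 0.9 s`.  `|c e^{-d}|² = |c|²/(1+|c-1|⁴) ≤ 2.4`, hence
`Re (3 + c e^{-d}) ≥ 1.45`, `|w| ≤ |-2 + sqrt 3| + |c e^{-d}| / |sqrt(3 + c e^{-d}) + sqrt 3| < 0.8`, so `|al| < 1`,
`|be| < 1` and `g ≠ 0`.  Mean over `t`: `e^d (1 + 4 al be + (al be)²)` (coefficients of `e^{0}`); for `s = 1`,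
`al be = w` and `1 + 4w + w² = c e^{-d}`; for `c = 1`: `w = 0`, `d = 0`, mean `1`.
`P` = zero-mean primitive of `g - mean`, a trigonometric polynomial of degree `≤ 2`.
-/

noncomputable section

namespace P205F

open scoped Manifold ContDiff Topology RealInnerProductSpace
open Set

set_option maxSynthPendingDepth 3

theorem K2_ineq (x y : ℝ) : x ^ 2 + y ^ 2 ≤ 12 / 5 * (1 + ((x - 1) ^ 2 + y ^ 2) ^ 2) := by
  nlinarith [sq_nonneg (x - 1 - 73 / 100), sq_nonneg ((x - 1) ^ 2 + y ^ 2 - 1 / 2), sq_nonneg y]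

/-- `e^d` -/
def K2_D (c : ℂ) : ℝ := Real.sqrt (1 + ((c.re - 1) ^ 2 + c.im ^ 2) ^ 2)

theorem K2_D_pos (c : ℂ) : 0 < K2_D c := Real.sqrt_pos.2 (by positivity)

theorem K2_D_sq (c : ℂ) : K2_D c ^ 2 = 1 + ((c.re - 1) ^ 2 + c.im ^ 2) ^ 2 :=
  Real.sq_sqrt (by positivity)

theorem K2_D_one : K2_D 1 = 1 := by simp [K2_D]

theorem K2_re : ContDiff ℝ ∞ (fun c : ℂ => c.re) := Complex.reCLM.contDiff

theorem K2_im : ContDiff ℝ ∞ (fun c : ℂ => c.im) := Complex.imCLM.contDiff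

theorem K2_D_smooth : ContDiff ℝ ∞ K2_D :=
  ContDiff.sqrt (contDiff_const.add ((((K2_re.sub contDiff_const).pow 2).add
    (K2_im.pow 2)).pow 2)) (fun c => by positivity)

/-- `c e^{-d}` -/
def K2_z (c : ℂ) : ℂ := (K2_D c)⁻¹ • c

theorem K2_z_smooth : ContDiff ℝ ∞ K2_z :=
  (K2_D_smooth.inv fun c => (K2_D_pos c).ne').smul contDiff_id

theorem K2_z_norm (c : ℂ) : ‖K2_z c‖ ≤ 31 / 20 := by
  have h1 : ‖K2_z c‖ = (K2_D c)⁻¹ * ‖c‖ := by
    rw [K2_z, norm_smul, norm_inv, Real.norm_of_nonneg (K2_D_pos c).le]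
  have h2 : ‖c‖ ^ 2 = c.re ^ 2 + c.im ^ 2 := by
    rw [← Complex.normSq_eq_norm_sq, Complex.normSq_apply]
    ring
  have h3 : ‖c‖ ^ 2 ≤ (31 / 20 * K2_D c) ^ 2 := by
    rw [h2, mul_pow, K2_D_sq]
    have := K2_ineq c.re c.im
    nlinarith [sq_nonneg ((c.re - 1) ^ 2 + c.im ^ 2)]
  have h4 : ‖c‖ ≤ 31 / 20 * K2_D c :=
    (pow_le_pow_iff_left₀ (norm_nonneg _) (by have := K2_D_pos c; positivity) two_ne_zero).1 h3
  rw [h1, inv_mul_le_iff₀ (K2_D_pos c)]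
  linarith

theorem K2_re_pos (c : ℂ) : 29 / 20 ≤ (3 + K2_z c).re := by
  have h1 := (abs_le.1 ((Complex.abs_re_le_norm (K2_z c)).trans (K2_z_norm c))).1
  rw [Complex.add_re]
  have : (3 : ℂ).re = 3 := rfl
  rw [this]
  linarith

/-- square root of `3 + z` -/
def K2_r (c : ℂ) : ℂ := Complex.exp (Complex.log (3 + K2_z c) / 2)

theorem K2_r_sq (c : ℂ) : K2_r c ^ 2 = 3 + K2_z c := by
  have h0 : (3 + K2_z c) ≠ 0 := by
    intro h
    have := K2_re_pos c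
    rw [h] at this
    norm_num at this
  rw [K2_r, ← Complex.exp_nat_mul]
  have : ((2 : ℕ) : ℂ) * (Complex.log (3 + K2_z c) / 2) = Complex.log (3 + K2_z c) := by
    push_cast
    ring
  rw [this, Complex.exp_log h0]

theorem K2_r_pos (c : ℂ) : 0 < (K2_r c).re := by
  rw [K2_r, Complex.exp_re]
  refine mul_pos (Real.exp_pos _) (Real.cos_pos_of_mem_Ioo ?_)
  have h1 : |Complex.arg (3 + K2_z c)| < Real.pi / 2 :=
    Complex.abs_arg_lt_pi_div_two_iff.2 (Or.inl (by linarith [K2_re_pos c]))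
  have h2 : (Complex.log (3 + K2_z c) / 2).im = Complex.arg (3 + K2_z c) / 2 := by
    rw [show (2 : ℂ) = ((2 : ℝ) : ℂ) by norm_num, Complex.div_ofReal_im, Complex.log_im]
  rw [h2]
  have h3 := abs_lt.1 h1
  constructor <;> linarith [Real.pi_pos]

theorem K2_r_smooth : ContDiff ℝ ∞ K2_r := by
  refine contDiff_iff_contDiffAt.2 fun c => ?_
  have h1 : 3 + K2_z c ∈ Complex.slitPlane := by
    rw [Complex.mem_slitPlane_iff]
    exact Or.inl (by linarith [K2_re_pos c])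
  have h2 : ContDiffAt ℝ ∞ Complex.log (3 + K2_z c) :=
    (Complex.contDiffAt_log h1).restrict_scalars ℝ
  have h3 : ContDiffAt ℝ ∞ (fun c => Complex.log (3 + K2_z c)) c :=
    ContDiffAt.comp (g := Complex.log) (f := fun c => 3 + K2_z c) c h2
      (contDiff_const.add K2_z_smooth).contDiffAt
  have h4 : ContDiffAt ℝ ∞ (fun c => Complex.log (3 + K2_z c) / 2) c := by
    simp only [div_eq_mul_inv]
    exact h3.mul contDiffAt_const
  exact h4.cexp

theorem K2_w_norm (c : ℂ) : ‖K2_r c - 2‖ < 9 / 10 := by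
  have h1 := K2_r_sq c
  have h2 := K2_r_pos c
  have h3 := K2_re_pos c
  have h4 : 6 / 5 ≤ (K2_r c).re := by
    rw [← h1, pow_two, Complex.mul_re] at h3
    nlinarith [mul_self_nonneg (K2_r c).im]
  have hs : (17 / 10 : ℝ) ^ 2 ≤ 3 := by norm_num
  have h5 : 173 / 100 ≤ Real.sqrt 3 := Real.le_sqrt_of_sq_le (by norm_num)
  have h6 : Real.sqrt 3 ≤ 2 := (Real.sqrt_le_left (by norm_num)).2 (by norm_num)
  have h7 : ‖K2_r c - (Real.sqrt 3 : ℂ)‖ * ‖K2_r c + (Real.sqrt 3 : ℂ)‖ ≤ 31 / 20 := by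
    rw [← norm_mul]
    have h8 : (K2_r c - (Real.sqrt 3 : ℂ)) * (K2_r c + (Real.sqrt 3 : ℂ)) = K2_z c := by
      have h9 : ((Real.sqrt 3 : ℝ) : ℂ) ^ 2 = 3 := by
        rw [← Complex.ofReal_pow, Real.sq_sqrt (by norm_num)]
        norm_num
      linear_combination h1 - h9
    rw [h8]
    exact K2_z_norm c
  have h8 : 29 / 10 ≤ ‖K2_r c + (Real.sqrt 3 : ℂ)‖ := by
    refine le_trans ?_ (Complex.re_le_norm _)
    rw [Complex.add_re, Complex.ofReal_re]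
    linarith
  have h9 : ‖K2_r c - (Real.sqrt 3 : ℂ)‖ ≤ 11 / 20 := by
    by_contra hc
    nlinarith [norm_nonneg (K2_r c - (Real.sqrt 3 : ℂ))]
  have h10 : K2_r c - 2 = (K2_r c - (Real.sqrt 3 : ℂ)) + ((Real.sqrt 3 - 2 : ℝ) : ℂ) := by
    push_cast
    ring
  rw [h10]
  refine (norm_add_le _ _).trans_lt ?_
  rw [Complex.norm_real, Real.norm_eq_abs, abs_of_nonpos (by linarith)]
  linarith

/-- the coefficients -/
def K2_al (c : ℂ) : ℂ := 10 / 9 * (K2_r c - 2)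

def K2_be (s : ℝ) : ℂ := 9 / 10 * (s : ℂ)

def K2_g (c : ℂ) (s t : ℝ) : ℂ :=
  (K2_D c : ℂ) * ((1 + K2_al c * Complex.exp (Complex.I * t)) ^ 2 *
    (1 + K2_be s * Complex.exp (-(Complex.I * t))) ^ 2)

def K2_P (c : ℂ) (s t : ℝ) : ℂ :=
  (K2_D c : ℂ) * (-(Complex.I * (2 * K2_al c + 2 * K2_al c ^ 2 * K2_be s) *
      Complex.exp (Complex.I * t)) -
    Complex.I / 2 * K2_al c ^ 2 * Complex.exp (Complex.I * t) ^ 2 +
    Complex.I * (2 * K2_be s + 2 * K2_al c * K2_be s ^ 2) * Complex.exp (-(Complex.I * t)) +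
    Complex.I / 2 * K2_be s ^ 2 * Complex.exp (-(Complex.I * t)) ^ 2)

theorem K2_al_smooth : ContDiff ℝ ∞ (fun q : ℂ × ℝ × ℝ => K2_al q.1) :=
  (contDiff_const.mul (K2_r_smooth.sub contDiff_const)).comp contDiff_fst

theorem K2_be_smooth : ContDiff ℝ ∞ (fun q : ℂ × ℝ × ℝ => K2_be q.2.1) :=
  contDiff_const.mul (Complex.ofRealCLM.contDiff.comp (contDiff_fst.comp contDiff_snd))

theorem K2_D_smooth' : ContDiff ℝ ∞ (fun q : ℂ × ℝ × ℝ => (K2_D q.1 : ℂ)) :=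
  Complex.ofRealCLM.contDiff.comp (K2_D_smooth.comp contDiff_fst)

theorem K2_it : ContDiff ℝ ∞ (fun q : ℂ × ℝ × ℝ => Complex.I * (q.2.2 : ℂ)) :=
  contDiff_const.mul (Complex.ofRealCLM.contDiff.comp (contDiff_snd.comp contDiff_snd))

theorem K2_E : ContDiff ℝ ∞ (fun q : ℂ × ℝ × ℝ => Complex.exp (Complex.I * (q.2.2 : ℂ))) :=
  K2_it.cexp

theorem K2_E' : ContDiff ℝ ∞ (fun q : ℂ × ℝ × ℝ => Complex.exp (-(Complex.I * (q.2.2 : ℂ)))) :=
  K2_it.neg.cexp

theorem K2_one {a e : ℂ} (ha : ‖a‖ < 1) (he : ‖e‖ = 1) : 1 + a * e ≠ 0 := by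
  intro h
  have h1 : a * e = -1 := by linear_combination h
  have h2 : ‖a * e‖ = 1 := by rw [h1, norm_neg, norm_one]
  rw [norm_mul, he, mul_one] at h2
  linarith

theorem K2_hasDeriv (t : ℝ) : HasDerivAt (fun t : ℝ => Complex.exp (Complex.I * (t : ℂ)))
    (Complex.exp (Complex.I * (t : ℂ)) * Complex.I) t := by
  have h1 : HasDerivAt (fun t : ℝ => Complex.I * (t : ℂ)) (Complex.I * 1) t :=
    (HasDerivAt.ofReal_comp (hasDerivAt_id t)).const_mul Complex.I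
  rw [mul_one] at h1
  exact h1.cexp

theorem K2_hasDeriv' (t : ℝ) : HasDerivAt (fun t : ℝ => Complex.exp (-(Complex.I * (t : ℂ))))
    (Complex.exp (-(Complex.I * (t : ℂ))) * -Complex.I) t := by
  have h1 : HasDerivAt (fun t : ℝ => Complex.I * (t : ℂ)) (Complex.I * 1) t :=
    (HasDerivAt.ofReal_comp (hasDerivAt_id t)).const_mul Complex.I
  rw [mul_one] at h1
  exact h1.neg.cexp

theorem K2_EE (t : ℝ) : Complex.exp (Complex.I * (t : ℂ)) * Complex.exp (-(Complex.I * (t : ℂ))) =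
    1 := by
  rw [← Complex.exp_add, add_neg_cancel, Complex.exp_zero]

theorem exists_loops : ∃ g P : ℂ → ℝ → ℝ → ℂ,
    ContDiff ℝ ∞ (fun q : ℂ × ℝ × ℝ => g q.1 q.2.1 q.2.2) ∧
    ContDiff ℝ ∞ (fun q : ℂ × ℝ × ℝ => P q.1 q.2.1 q.2.2) ∧
    (∀ c s t, s ∈ Icc (0 : ℝ) 1 → g c s t ≠ 0) ∧
    (∀ c s t, s ∈ Icc (0 : ℝ) 1 → (s = 1 ∨ c = 1) → HasDerivAt (P c s) (g c s t - c) t) ∧
    (∀ c s t, P c s (t + 2 * Real.pi) = P c s t) ∧ (∀ c s t, g c s (t + 2 * Real.pi) = g c s t) ∧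
    (∀ t, P 1 0 t = 0) ∧ ∀ t, g 1 0 t = 1 := by
  have hz1 : K2_z 1 = 1 := by simp [K2_z, K2_D_one]
  have hr1 : K2_r 1 = 2 := by
    have h1 := K2_r_sq 1
    rw [hz1] at h1
    have h2 : (K2_r 1 - 2) * (K2_r 1 + 2) = 0 := by linear_combination h1
    rcases mul_eq_zero.1 h2 with h | h
    · linear_combination h
    · exfalso
      have h3 := K2_r_pos 1
      have h4 : K2_r 1 = -2 := by linear_combination h
      rw [h4] at h3
      norm_num at h3
  have hal1 : K2_al 1 = 0 := by simp [K2_al, hr1]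
  have hbe0 : K2_be 0 = 0 := by simp [K2_be]
  have hper : ∀ t : ℝ, Complex.exp (Complex.I * ((t + 2 * Real.pi : ℝ) : ℂ)) =
      Complex.exp (Complex.I * (t : ℂ)) := fun t => by
    have h1 : Complex.I * ((t + 2 * Real.pi : ℝ) : ℂ) = Complex.I * t + 2 * Real.pi * Complex.I := by
      push_cast
      ring
    rw [h1, Complex.exp_add, Complex.exp_two_pi_mul_I, mul_one]
  have hper' : ∀ t : ℝ, Complex.exp (-(Complex.I * ((t + 2 * Real.pi : ℝ) : ℂ))) =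
      Complex.exp (-(Complex.I * (t : ℂ))) := fun t => by
    rw [Complex.exp_neg, hper, Complex.exp_neg]
  refine ⟨K2_g, K2_P, ?_, ?_, ?_, ?_, ?_, ?_, ?_, ?_⟩
  · exact K2_D_smooth'.mul (((contDiff_const.add (K2_al_smooth.mul K2_E)).pow 2).mul
      ((contDiff_const.add (K2_be_smooth.mul K2_E')).pow 2))
  · refine K2_D_smooth'.mul ((((contDiff_const.mul ((contDiff_const.mul K2_al_smooth).add
      ((contDiff_const.mul (K2_al_smooth.pow 2)).mul K2_be_smooth))).mul K2_E).neg.sub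
      ((contDiff_const.mul (K2_al_smooth.pow 2)).mul (K2_E.pow 2))).add ?_ |>.add ?_)
    · exact (contDiff_const.mul ((contDiff_const.mul K2_be_smooth).add
        ((contDiff_const.mul K2_al_smooth).mul (K2_be_smooth.pow 2)))).mul K2_E'
    · exact (contDiff_const.mul (K2_be_smooth.pow 2)).mul (K2_E'.pow 2)
  · intro c s t hs
    have h1 : ‖K2_al c‖ < 1 := by
      have := K2_w_norm c
      rw [K2_al, norm_mul]
      have h2 : ‖(10 / 9 : ℂ)‖ = 10 / 9 := by norm_num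
      rw [h2]
      linarith
    have h2 : ‖K2_be s‖ < 1 := by
      rw [K2_be, norm_mul, Complex.norm_real, Real.norm_of_nonneg hs.1]
      have h3 : ‖(9 / 10 : ℂ)‖ = 9 / 10 := by norm_num
      rw [h3]
      linarith [hs.2]
    have h3 : ‖Complex.exp (Complex.I * (t : ℂ))‖ = 1 := by
      rw [mul_comm, Complex.norm_exp_ofReal_mul_I]
    have h4 : ‖Complex.exp (-(Complex.I * (t : ℂ)))‖ = 1 := by
      rw [Complex.exp_neg, norm_inv, h3, inv_one]
    exact mul_ne_zero (Complex.ofReal_ne_zero.2 (K2_D_pos c).ne')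
      (mul_ne_zero (pow_ne_zero 2 (K2_one h1 h3)) (pow_ne_zero 2 (K2_one h2 h4)))
  · intro c s t hs hsc
    have hmean : (K2_D c : ℂ) * (1 + 4 * (K2_al c * K2_be s) + (K2_al c * K2_be s) ^ 2) = c := by
      rcases hsc with rfl | rfl
      · have h1 : K2_al c * K2_be 1 = K2_r c - 2 := by
          rw [K2_al, K2_be]
          push_cast
          ring
        rw [h1]
        have h2 : 1 + 4 * (K2_r c - 2) + (K2_r c - 2) ^ 2 = K2_z c := by
          linear_combination K2_r_sq c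
        rw [h2, K2_z, Complex.real_smul, ← mul_assoc, ← Complex.ofReal_mul,
          mul_inv_cancel₀ (K2_D_pos c).ne', Complex.ofReal_one, one_mul]
      · rw [hal1, K2_D_one]
        simp
    have h1 := K2_hasDeriv t
    have h2 := K2_hasDeriv' t
    have h3 := (((((h1.const_mul (Complex.I * (2 * K2_al c + 2 * K2_al c ^ 2 * K2_be s))).neg).sub
      ((h1.pow 2).const_mul (Complex.I / 2 * K2_al c ^ 2))).add
      (h2.const_mul (Complex.I * (2 * K2_be s + 2 * K2_al c * K2_be s ^ 2)))).add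
      ((h2.pow 2).const_mul (Complex.I / 2 * K2_be s ^ 2))).const_mul (K2_D c : ℂ)
    refine h3.congr_deriv ?_
    have hEE := K2_EE t
    have hI := Complex.I_sq
    have key : ∀ (D a b E F i : ℂ), E * F = 1 → i ^ 2 = -1 →
        D * (1 + 4 * (a * b) + (a * b) ^ 2) = c →
        D * (-(i * (2 * a + 2 * a ^ 2 * b) * (E * i)) - i / 2 * a ^ 2 * (2 * E * (E * i)) +
          i * (2 * b + 2 * a * b ^ 2) * (F * -i) + i / 2 * b ^ 2 * (2 * F * (F * -i))) =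
        D * ((1 + a * E) ^ 2 * (1 + b * F) ^ 2) - c := by
      intro D a b E F i h1 h2 h3
      linear_combination (-D * (2 * a + 2 * a ^ 2 * b) * E - D * a ^ 2 * E ^ 2 -
        D * (2 * b + 2 * a * b ^ 2) * F - D * b ^ 2 * F ^ 2) * h2 - h3 -
        D * (4 * a * b + 2 * a ^ 2 * b * E + 2 * a * b ^ 2 * F + a ^ 2 * b ^ 2 * (E * F + 1)) * h1
    have := key (K2_D c) (K2_al c) (K2_be s) _ _ Complex.I hEE hI hmean
    rw [K2_g, ← this]
    norm_num
  · intro c s t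
    rw [K2_P, K2_P, hper, hper']
  · intro c s t
    rw [K2_g, K2_g, hper, hper']
  · intro t
    simp [K2_P, hal1, hbe0]
  · intro t
    simp [K2_g, hal1, hbe0, K2_D_one]

end P205F
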