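import Mathlib
import Vale.Agent.Lib.P205F.MDefs

/-!
# P205I K3: a nonvanishing function equal to `φ` off a compact set

`m(z) = (z - 1)(z̄ + 1) = |z|² - 1 + 2 i y`, `u = φ / m` on `Rct ε` minus the two zeros.  WLOG (conjugate `φ`)
`φ` preserves the orientation at `1` and reverses it at `-1`.  Near `1`, `Z = z - 1`: `φ = pZ + qZ̄ + O(|Z|²)` with
`|q| < |p|`, `m = Z (2 + Z̄)`, so `u / (p/2)` is close to `1 + (q/p) Z̄/Z`, which has real part `≥ 1 - |q/p| > 0`; similarly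
near `-1`.  Replace `u` near each of the two points by `k exp (χ Log (u/k))` (`k = p/2`, `χ = 0` near the point and `χ = 1`
away): `ũ` smooth and nonvanishing on `Rct ε`.  `B(z) = |z|² - 1 + 2 ρ(z) + 2 i y`, `ρ` a bump function with values in
`[0,1]`, `= 1` on `[-1,1] × {0}`, compact support in `Rct ε`: nonvanishing (if `y = 0` the real part is positive).
`b0 := ũ B`.
-/

noncomputable section

namespace P205F

open scoped Manifold ContDiff Topology RealInnerProductSpace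
open Set

set_option maxSynthPendingDepth 3

/-- the open rectangle -/
def Rct (ε : ℝ) : Set E2 := {x | |x.1| < 1 + ε ∧ |x.2| < ε}

/-- Jacobian determinant of a complex valued function of the plane -/
def jacC (φ : E2 → ℂ) (x : E2) : ℝ :=
  (fderiv ℝ φ x e1).re * (fderiv ℝ φ x e2).im - (fderiv ℝ φ x e1).im * (fderiv ℝ φ x e2).re

/-- the complex coordinate -/
def K3_z : E2 →L[ℝ] ℂ := (Complex.equivRealProdCLM.symm : E2 →L[ℝ] ℂ)

/-- the conjugate complex coordinate -/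
def K3_zb : E2 →L[ℝ] ℂ := (Complex.conjCLE : ℂ →L[ℝ] ℂ).comp K3_z

theorem K3_z_apply (x : E2) : K3_z x = x.1 + x.2 * Complex.I := by
  show Complex.equivRealProdCLM.symm x = _
  exact Complex.equivRealProdCLM_symm_apply x

theorem K3_zb_apply (x : E2) : K3_zb x = x.1 - x.2 * Complex.I := by
  show (starRingEnd ℂ) (K3_z x) = _
  rw [K3_z_apply]
  simp [sub_eq_add_neg]

theorem K3_z_re (x : E2) : (K3_z x).re = x.1 := by rw [K3_z_apply]; simp

theorem K3_z_im (x : E2) : (K3_z x).im = x.2 := by rw [K3_z_apply]; simp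

theorem K3_norm_le_z (x : E2) : ‖x‖ ≤ ‖K3_z x‖ := by
  rw [Prod.norm_def]
  refine max_le ?_ ?_
  · rw [← K3_z_re x, Real.norm_eq_abs]; exact Complex.abs_re_le_norm _
  · rw [← K3_z_im x, Real.norm_eq_abs]; exact Complex.abs_im_le_norm _

theorem K3_norm_zb (x : E2) : ‖K3_zb x‖ = ‖K3_z x‖ := by
  show ‖(starRingEnd ℂ) (K3_z x)‖ = _
  exact Complex.norm_conj _

/-- near a zero `φ` can be deformed linearly to a linear map close to its derivative -/
theorem K3_local {φ : E2 → ℂ} {c : E2} (h : DifferentiableAt ℝ φ c) (h0 : φ c = 0)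
    (N : E2 →L[ℝ] ℂ) {k : ℂ} (hk : k ≠ 0) {θ : ℝ} (hθ : θ < 1)
    (hL : ∀ w, ‖fderiv ℝ φ c w - k * N w‖ ≤ θ * (‖k‖ * ‖N w‖)) (hN : ∀ w, ‖w‖ ≤ ‖N w‖) :
    ∃ r : ℝ, 0 < r ∧ ∀ x, x ≠ c → ‖x - c‖ ≤ r → ∀ t : ℝ, 0 ≤ t → t ≤ 1 →
      φ x + t * (k * N (x - c) - φ x) ≠ 0 := by
  have hkp : 0 < ‖k‖ := norm_pos_iff.2 hk
  have h1 := h.hasFDerivAt.isLittleO
  have h2 := h1.def (show (0 : ℝ) < (1 - θ) / 2 * ‖k‖ by
    have : 0 < 1 - θ := by linarith
    positivity)
  rw [Metric.eventually_nhds_iff] at h2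
  obtain ⟨r, hr, h3⟩ := h2
  refine ⟨r / 2, by positivity, fun x hx hxr t ht0 ht1 hzero => ?_⟩
  have h4 := h3 (y := x) (by rw [dist_eq_norm]; linarith)
  rw [h0, sub_zero] at h4
  have hxc : 0 < ‖x - c‖ := norm_pos_iff.2 (sub_ne_zero.2 hx)
  have hNx := hN (x - c)
  have hNp : 0 < ‖N (x - c)‖ := hxc.trans_le hNx
  have h5 : ‖φ x - k * N (x - c)‖ < ‖k‖ * ‖N (x - c)‖ := by
    calc ‖φ x - k * N (x - c)‖
        = ‖(φ x - fderiv ℝ φ c (x - c)) + (fderiv ℝ φ c (x - c) - k * N (x - c))‖ := by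
          congr 1; ring
      _ ≤ ‖φ x - fderiv ℝ φ c (x - c)‖ + ‖fderiv ℝ φ c (x - c) - k * N (x - c)‖ :=
          norm_add_le _ _
      _ ≤ (1 - θ) / 2 * ‖k‖ * ‖x - c‖ + θ * (‖k‖ * ‖N (x - c)‖) := add_le_add h4 (hL _)
      _ ≤ (1 - θ) / 2 * ‖k‖ * ‖N (x - c)‖ + θ * (‖k‖ * ‖N (x - c)‖) := by
          have : 0 ≤ (1 - θ) / 2 * ‖k‖ := by
            have : 0 < 1 - θ := by linarith
            positivity
          exact add_le_add (mul_le_mul_of_nonneg_left hNx this) le_rfl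
      _ = (1 - (1 - θ) / 2) * (‖k‖ * ‖N (x - c)‖) := by ring
      _ < 1 * (‖k‖ * ‖N (x - c)‖) := by
          refine mul_lt_mul_of_pos_right ?_ (by positivity)
          linarith
      _ = ‖k‖ * ‖N (x - c)‖ := one_mul _
  have h6 : k * N (x - c) = -(((1 - t : ℝ) : ℂ) * (φ x - k * N (x - c))) := by
    have : φ x + t * (k * N (x - c) - φ x) =
        ((1 - t : ℝ) : ℂ) * (φ x - k * N (x - c)) + k * N (x - c) := by
      push_cast; ring
    rw [this] at hzero
    exact (neg_eq_of_add_eq_zero_right hzero).symm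
  have h7 : ‖k‖ * ‖N (x - c)‖ = (1 - t) * ‖φ x - k * N (x - c)‖ := by
    have h8 := congrArg norm h6
    rw [norm_mul, norm_neg, norm_mul, Complex.norm_real, Real.norm_eq_abs,
      abs_of_nonneg (by linarith)] at h8
    exact h8
  have h9 : (1 - t) * ‖φ x - k * N (x - c)‖ ≤ 1 * ‖φ x - k * N (x - c)‖ :=
    mul_le_mul_of_nonneg_right (by linarith) (norm_nonneg _)
  linarith

theorem K3_fderiv_decomp (φ : E2 → ℂ) (c w : E2) : fderiv ℝ φ c w =
    ((fderiv ℝ φ c e1 - Complex.I * fderiv ℝ φ c e2) / 2) * K3_z w +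
    ((fderiv ℝ φ c e1 + Complex.I * fderiv ℝ φ c e2) / 2) * K3_zb w := by
  have h1 : w = w.1 • e1 + w.2 • e2 := by
    ext <;> simp [e1, e2]
  have h2 : fderiv ℝ φ c w = w.1 * fderiv ℝ φ c e1 + w.2 * fderiv ℝ φ c e2 := by
    conv_lhs => rw [h1]
    rw [map_add, map_smul, map_smul, Complex.real_smul, Complex.real_smul]
  rw [h2, K3_z_apply, K3_zb_apply]
  have h3 := Complex.I_mul_I
  linear_combination ((w.2 : ℂ) * fderiv ℝ φ c e2) * h3

theorem K3_jac (φ : E2 → ℂ) (c : E2) :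
    ‖(fderiv ℝ φ c e1 - Complex.I * fderiv ℝ φ c e2) / 2‖ ^ 2 -
    ‖(fderiv ℝ φ c e1 + Complex.I * fderiv ℝ φ c e2) / 2‖ ^ 2 = jacC φ c := by
  rw [jacC, ← Complex.normSq_eq_norm_sq, ← Complex.normSq_eq_norm_sq, map_div₀, map_div₀]
  simp only [Complex.normSq_apply, Complex.sub_re, Complex.sub_im, Complex.add_re, Complex.add_im,
    Complex.mul_re, Complex.mul_im, Complex.I_re, Complex.I_im, Complex.re_ofNat, Complex.im_ofNat]
  ring

/-- orientation preserving zero: model `k z` -/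
theorem K3_pos {φ : E2 → ℂ} {c : E2} (h : DifferentiableAt ℝ φ c) (h0 : φ c = 0)
    (hj : 0 < jacC φ c) : ∃ k : ℂ, k ≠ 0 ∧ ∃ r : ℝ, 0 < r ∧ ∀ x, x ≠ c → ‖x - c‖ ≤ r →
      ∀ t : ℝ, 0 ≤ t → t ≤ 1 → φ x + t * (k * K3_z (x - c) - φ x) ≠ 0 := by
  set p := (fderiv ℝ φ c e1 - Complex.I * fderiv ℝ φ c e2) / 2 with hp
  set q := (fderiv ℝ φ c e1 + Complex.I * fderiv ℝ φ c e2) / 2 with hq
  have h1 : ‖p‖ ^ 2 - ‖q‖ ^ 2 = jacC φ c := K3_jac φ c
  have h2 : ‖q‖ < ‖p‖ := by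
    by_contra h3
    push Not at h3
    have := mul_self_le_mul_self (norm_nonneg p) h3
    nlinarith
  have hp0 : 0 < ‖p‖ := (norm_nonneg q).trans_lt h2
  refine ⟨p, norm_pos_iff.1 hp0, K3_local h h0 K3_z (norm_pos_iff.1 hp0) (θ := ‖q‖ / ‖p‖)
    ((div_lt_one hp0).2 h2) (fun w => ?_) K3_norm_le_z⟩
  have h3 : fderiv ℝ φ c w - p * K3_z w = q * K3_zb w := by
    rw [K3_fderiv_decomp φ c w]; ring
  rw [h3, norm_mul, K3_norm_zb, ← mul_assoc, div_mul_cancel₀ _ hp0.ne']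

/-- orientation reversing zero: model `k conj z` -/
theorem K3_neg {φ : E2 → ℂ} {c : E2} (h : DifferentiableAt ℝ φ c) (h0 : φ c = 0)
    (hj : jacC φ c < 0) : ∃ k : ℂ, k ≠ 0 ∧ ∃ r : ℝ, 0 < r ∧ ∀ x, x ≠ c → ‖x - c‖ ≤ r →
      ∀ t : ℝ, 0 ≤ t → t ≤ 1 → φ x + t * (k * K3_zb (x - c) - φ x) ≠ 0 := by
  set p := (fderiv ℝ φ c e1 - Complex.I * fderiv ℝ φ c e2) / 2 with hp
  set q := (fderiv ℝ φ c e1 + Complex.I * fderiv ℝ φ c e2) / 2 with hq
  have h1 : ‖p‖ ^ 2 - ‖q‖ ^ 2 = jacC φ c := K3_jac φ c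
  have h2 : ‖p‖ < ‖q‖ := by
    by_contra h3
    push Not at h3
    have := mul_self_le_mul_self (norm_nonneg q) h3
    nlinarith
  have hq0 : 0 < ‖q‖ := (norm_nonneg p).trans_lt h2
  refine ⟨q, norm_pos_iff.1 hq0, K3_local h h0 K3_zb (norm_pos_iff.1 hq0) (θ := ‖p‖ / ‖q‖)
    ((div_lt_one hq0).2 h2) (fun w => ?_) (fun w => ?_)⟩
  · have h3 : fderiv ℝ φ c w - q * K3_zb w = p * K3_z w := by
      rw [K3_fderiv_decomp φ c w]; ring
    rw [h3, norm_mul, K3_norm_zb, ← mul_assoc, div_mul_cancel₀ _ hq0.ne']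
  · rw [K3_norm_zb]; exact K3_norm_le_z w

theorem K3_div {f g : E2 → ℂ} {x : E2} (hf : ContDiffAt ℝ ∞ f x) (hg : ContDiffAt ℝ ∞ g x)
    (h : g x ≠ 0) : ContDiffAt ℝ ∞ (fun y => f y / g y) x := by
  simp only [div_eq_mul_inv]
  exact hf.mul (hg.inv h)

theorem K3_rct_open (ε : ℝ) : IsOpen (Rct ε) := by
  have h1 : IsOpen {x : E2 | |x.1| < 1 + ε} :=
    isOpen_lt (continuous_abs.comp continuous_fst) continuous_const
  have h2 : IsOpen {x : E2 | |x.2| < ε} :=
    isOpen_lt (continuous_abs.comp continuous_snd) continuous_const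
  exact h1.inter h2

theorem K3_main {ε : ℝ} (hε : 0 < ε) {φ : E2 → ℂ} (hφ : ContDiffOn ℝ ∞ φ (Rct ε))
    (hz : ∀ x ∈ Rct ε, φ x = 0 ↔ (x = (-1, 0) ∨ x = (1, 0)))
    (hs1 : 0 < jacC φ (1, 0)) (hs2 : jacC φ (-1, 0) < 0) :
    ∃ b0 : E2 → ℂ, ContDiffOn ℝ ∞ b0 (Rct ε) ∧ (∀ x ∈ Rct ε, b0 x ≠ 0) ∧
      ∃ K ⊆ Rct ε, IsCompact K ∧ ∀ x ∈ Rct ε, x ∉ K → b0 x = φ x := by
  have hc1 : ((1, 0) : E2) ∈ Rct ε := by
    refine ⟨?_, ?_⟩
    · show |(1 : ℝ)| < 1 + ε
      rw [abs_one]; linarith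
    · show |(0 : ℝ)| < ε
      rwa [abs_zero]
  have hc2 : ((-1, 0) : E2) ∈ Rct ε := by
    refine ⟨?_, ?_⟩
    · show |(-1 : ℝ)| < 1 + ε
      rw [abs_neg, abs_one]; linarith
    · show |(0 : ℝ)| < ε
      rwa [abs_zero]
  have hO := K3_rct_open ε
  have hφa : ∀ x ∈ Rct ε, ContDiffAt ℝ ∞ φ x := fun x hx => hφ.contDiffAt (hO.mem_nhds hx)
  have hd : ∀ x ∈ Rct ε, DifferentiableAt ℝ φ x := fun x hx =>
    (hφa x hx).differentiableAt (by simp)
  obtain ⟨k1, hk1, r1, hr1, hl1⟩ := K3_pos (hd _ hc1) ((hz _ hc1).2 (Or.inr rfl)) hs1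
  obtain ⟨k2, hk2, r2, hr2, hl2⟩ := K3_neg (hd _ hc2) ((hz _ hc2).2 (Or.inl rfl)) hs2
  set r : ℝ := min (min r1 r2) (min (ε / 2) (1 / 2)) with hr
  have hr0 : 0 < r := by rw [hr]; positivity
  have hrr1 : r ≤ r1 := (min_le_left _ _).trans (min_le_left _ _)
  have hrr2 : r ≤ r2 := (min_le_left _ _).trans (min_le_right _ _)
  have hrε : r ≤ ε / 2 := (min_le_right _ _).trans (min_le_left _ _)
  have hrh : r ≤ 1 / 2 := (min_le_right _ _).trans (min_le_right _ _)
  let χ1 : ContDiffBump ((1, 0) : E2) := ⟨r / 2, r, by positivity, by linarith⟩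
  let χ2 : ContDiffBump ((-1, 0) : E2) := ⟨r / 2, r, by positivity, by linarith⟩
  let β1 : ContDiffBump (0 : ℝ) := ⟨1 + ε / 4, 1 + ε / 2, by positivity, by linarith⟩
  let β2 : ContDiffBump (0 : ℝ) := ⟨ε / 4, ε / 2, by positivity, by linarith⟩
  let ρ : E2 → ℝ := fun x => β1 x.1 * β2 x.2
  let m : E2 → ℂ := fun x => (K3_z x - 1) * (K3_zb x + 1)
  let B : E2 → ℂ := fun x => m x + 2 * (ρ x : ℂ)
  let ψ : E2 → ℂ := fun x => φ x + (χ1 x : ℝ) * (k1 * K3_z (x - (1, 0)) - φ x) +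
    (χ2 x : ℝ) * (k2 * K3_zb (x - (-1, 0)) - φ x)
  have hz1 : ∀ x : E2, K3_z (x - (1, 0)) = K3_z x - 1 := by
    intro x
    rw [map_sub, K3_z_apply (1, 0)]
    simp
  have hz2 : ∀ x : E2, K3_zb (x - (-1, 0)) = K3_zb x + 1 := by
    intro x
    rw [map_sub, K3_zb_apply (-1, 0)]
    simp
  have hχ1z : ∀ x : E2, r ≤ ‖x - (1, 0)‖ → χ1 x = 0 := fun x hx =>
    χ1.zero_of_le_dist (by rw [dist_eq_norm]; exact hx)
  have hχ2z : ∀ x : E2, r ≤ ‖x - (-1, 0)‖ → χ2 x = 0 := fun x hx =>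
    χ2.zero_of_le_dist (by rw [dist_eq_norm]; exact hx)
  have hsep : ∀ x : E2, ‖x - (1, 0)‖ < r → r ≤ ‖x - (-1, 0)‖ := by
    intro x hx
    have h1 : ‖((1, 0) : E2) - (-1, 0)‖ ≤ ‖x - (-1, 0)‖ + ‖x - (1, 0)‖ := by
      have : ((1, 0) : E2) - (-1, 0) = (x - (-1, 0)) - (x - (1, 0)) := by abel
      rw [this]
      exact norm_sub_le _ _
    have h2 : ‖((1, 0) : E2) - (-1, 0)‖ = 2 := by
      rw [Prod.norm_def]
      norm_num
    rw [h2] at h1
    linarith
  have hmz : ∀ x : E2, x ≠ (1, 0) → x ≠ (-1, 0) → m x ≠ 0 := by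
    intro x h1 h2 h3
    rcases mul_eq_zero.1 h3 with h4 | h4
    · rw [← hz1] at h4
      have := K3_norm_le_z (x - (1, 0))
      rw [h4, norm_zero] at this
      exact h1 (sub_eq_zero.1 (norm_le_zero_iff.1 this))
    · rw [← hz2] at h4
      have := K3_norm_le_z (x - (-1, 0))
      rw [← K3_norm_zb, h4, norm_zero] at this
      exact h2 (sub_eq_zero.1 (norm_le_zero_iff.1 this))
  have hm_re : ∀ x : E2, (m x).re = x.1 ^ 2 + x.2 ^ 2 - 1 := by
    intro x
    show ((K3_z x - 1) * (K3_zb x + 1)).re = _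
    rw [K3_z_apply, K3_zb_apply]
    simp
    ring
  have hm_im : ∀ x : E2, (m x).im = 2 * x.2 := by
    intro x
    show ((K3_z x - 1) * (K3_zb x + 1)).im = _
    rw [K3_z_apply, K3_zb_apply]
    simp
    ring
  have hρ0 : ∀ x, 0 ≤ ρ x := fun x => mul_nonneg β1.nonneg β2.nonneg
  have hBz : ∀ x : E2, B x ≠ 0 := by
    intro x h
    have h1 : (B x).re = x.1 ^ 2 + x.2 ^ 2 - 1 + 2 * ρ x := by
      show (m x + 2 * (ρ x : ℂ)).re = _
      rw [Complex.add_re, hm_re]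
      simp
    have h2 : (B x).im = 2 * x.2 := by
      show (m x + 2 * (ρ x : ℂ)).im = _
      rw [Complex.add_im, hm_im]
      simp
    rw [h] at h1 h2
    simp only [Complex.zero_re, Complex.zero_im] at h1 h2
    have hx2 : x.2 = 0 := by linarith
    rcases le_or_gt |x.1| 1 with h3 | h3
    · have h4 : ρ x = 1 := by
        show β1 x.1 * β2 x.2 = 1
        rw [β1.one_of_mem_closedBall, β2.one_of_mem_closedBall, one_mul]
        · rw [hx2]
          exact Metric.mem_closedBall_self (by positivity)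
        · rw [mem_closedBall_zero_iff, Real.norm_eq_abs]
          show |x.1| ≤ 1 + ε / 4
          linarith
      rw [h4, hx2] at h1
      nlinarith [sq_nonneg x.1]
    · have h4 : 1 < x.1 ^ 2 := by
        rw [← sq_abs]
        nlinarith
      have := hρ0 x
      rw [hx2] at h1
      nlinarith
  have hψz : ∀ x ∈ Rct ε, x ≠ (1, 0) → x ≠ (-1, 0) → ψ x ≠ 0 := by
    intro x hx h1 h2
    have hφx : φ x ≠ 0 := fun h3 => by
      rcases (hz x hx).1 h3 with h4 | h4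
      · exact h2 h4
      · exact h1 h4
    rcases lt_or_ge ‖x - (1, 0)‖ r with h3 | h3
    · have h4 := hχ2z x (hsep x h3)
      show φ x + (χ1 x : ℝ) * (k1 * K3_z (x - (1, 0)) - φ x) +
        (χ2 x : ℝ) * (k2 * K3_zb (x - (-1, 0)) - φ x) ≠ 0
      rw [h4, Complex.ofReal_zero, zero_mul, add_zero]
      exact hl1 x h1 (h3.le.trans hrr1) _ χ1.nonneg χ1.le_one
    · have h4 := hχ1z x h3
      show φ x + (χ1 x : ℝ) * (k1 * K3_z (x - (1, 0)) - φ x) +
        (χ2 x : ℝ) * (k2 * K3_zb (x - (-1, 0)) - φ x) ≠ 0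
      rw [h4, Complex.ofReal_zero, zero_mul, add_zero]
      rcases lt_or_ge ‖x - (-1, 0)‖ r with h5 | h5
      · exact hl2 x h2 (h5.le.trans hrr2) _ χ2.nonneg χ2.le_one
      · rw [hχ2z x h5, Complex.ofReal_zero, zero_mul, add_zero]
        exact hφx
  have hmc : ContDiff ℝ ∞ m := by
    have h1 : ContDiff ℝ ∞ (fun x : E2 => K3_z x) := K3_z.contDiff
    have h2 : ContDiff ℝ ∞ (fun x : E2 => K3_zb x) := K3_zb.contDiff
    exact (h1.sub contDiff_const).mul (h2.add contDiff_const)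
  have hρc : ContDiff ℝ ∞ (fun x : E2 => ((ρ x : ℝ) : ℂ)) := by
    have h1 : ContDiff ℝ ∞ ρ := (β1.contDiff.comp contDiff_fst).mul (β2.contDiff.comp contDiff_snd)
    exact Complex.ofRealCLM.contDiff.comp h1
  have hBc : ContDiff ℝ ∞ B := hmc.add (contDiff_const.mul hρc)
  have hχ1c : ContDiff ℝ ∞ (fun x : E2 => ((χ1 x : ℝ) : ℂ)) :=
    Complex.ofRealCLM.contDiff.comp χ1.contDiff
  have hχ2c : ContDiff ℝ ∞ (fun x : E2 => ((χ2 x : ℝ) : ℂ)) :=
    Complex.ofRealCLM.contDiff.comp χ2.contDiff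
  have hψc : ∀ x ∈ Rct ε, ContDiffAt ℝ ∞ ψ x := by
    intro x hx
    have h1 : ContDiff ℝ ∞ (fun x : E2 => k1 * K3_z (x - (1, 0))) :=
      contDiff_const.mul (K3_z.contDiff.comp (contDiff_id.sub contDiff_const))
    have h2 : ContDiff ℝ ∞ (fun x : E2 => k2 * K3_zb (x - (-1, 0))) :=
      contDiff_const.mul (K3_zb.contDiff.comp (contDiff_id.sub contDiff_const))
    exact ((hφa x hx).add (hχ1c.contDiffAt.mul (h1.contDiffAt.sub (hφa x hx)))).add
      (hχ2c.contDiffAt.mul (h2.contDiffAt.sub (hφa x hx)))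
  classical
  let b0 : E2 → ℂ := fun x => if x = (1, 0) then k1 * B x / (K3_zb x + 1) else
    if x = (-1, 0) then k2 * B x / (K3_z x - 1) else ψ x * B x / m x
  have hne : ((1, 0) : E2) ≠ (-1, 0) := by
    intro h
    have := congrArg Prod.fst h
    norm_num at this
  have hA1 : K3_zb ((1, 0) : E2) + 1 ≠ 0 := by
    rw [K3_zb_apply]
    norm_num
  have hA2 : K3_z ((-1, 0) : E2) - 1 ≠ 0 := by
    rw [K3_z_apply]
    norm_num
  have hb1 : ∀ᶠ x in 𝓝 ((1, 0) : E2), b0 x = k1 * B x / (K3_zb x + 1) := by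
    filter_upwards [Metric.ball_mem_nhds ((1, 0) : E2) (show (0 : ℝ) < r / 2 by positivity)]
      with x hx
    by_cases h1 : x = (1, 0)
    · show (if x = (1, 0) then _ else _) = _
      rw [if_pos h1]
    · rw [mem_ball_iff_norm] at hx
      have h2 : χ2 x = 0 := hχ2z x (hsep x (by linarith))
      have h3 : χ1 x = 1 := χ1.one_of_mem_closedBall (by
        rw [mem_closedBall_iff_norm]; exact hx.le)
      have h4 : x ≠ (-1, 0) := by
        rintro rfl
        have h5 := hsep (-1, 0) (by linarith)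
        rw [sub_self, norm_zero] at h5
        linarith
      have h5 : ψ x = k1 * (K3_z x - 1) := by
        show φ x + (χ1 x : ℝ) * (k1 * K3_z (x - (1, 0)) - φ x) +
          (χ2 x : ℝ) * (k2 * K3_zb (x - (-1, 0)) - φ x) = _
        rw [h2, h3, hz1, Complex.ofReal_zero, Complex.ofReal_one]
        ring
      have h6 := hmz x h1 h4
      have h7 : K3_z x - 1 ≠ 0 := left_ne_zero_of_mul h6
      have h8 : K3_zb x + 1 ≠ 0 := right_ne_zero_of_mul h6
      show (if x = (1, 0) then _ else if x = (-1, 0) then _ else ψ x * B x / m x) = _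
      rw [if_neg h1, if_neg h4, h5]
      show k1 * (K3_z x - 1) * B x / ((K3_z x - 1) * (K3_zb x + 1)) = _
      field_simp
  have hb2 : ∀ᶠ x in 𝓝 ((-1, 0) : E2), b0 x = k2 * B x / (K3_z x - 1) := by
    filter_upwards [Metric.ball_mem_nhds ((-1, 0) : E2) (show (0 : ℝ) < r / 2 by positivity)]
      with x hx
    rw [mem_ball_iff_norm] at hx
    have h4 : x ≠ (1, 0) := by
      rintro rfl
      have h5 := hsep (1, 0) (by rw [sub_self, norm_zero]; exact hr0)
      linarith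
    by_cases h1 : x = (-1, 0)
    · show (if x = (1, 0) then _ else if x = (-1, 0) then _ else _) = _
      rw [if_neg h4, if_pos h1]
    · have h2 : χ1 x = 0 := hχ1z x (by
        by_contra h5
        push Not at h5
        have := hsep x h5
        linarith)
      have h3 : χ2 x = 1 := χ2.one_of_mem_closedBall (by
        rw [mem_closedBall_iff_norm]; exact hx.le)
      have h5 : ψ x = k2 * (K3_zb x + 1) := by
        show φ x + (χ1 x : ℝ) * (k1 * K3_z (x - (1, 0)) - φ x) +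
          (χ2 x : ℝ) * (k2 * K3_zb (x - (-1, 0)) - φ x) = _
        rw [h2, h3, hz2, Complex.ofReal_zero, Complex.ofReal_one]
        ring
      have h6 := hmz x h4 h1
      have h7 : K3_z x - 1 ≠ 0 := left_ne_zero_of_mul h6
      have h8 : K3_zb x + 1 ≠ 0 := right_ne_zero_of_mul h6
      show (if x = (1, 0) then _ else if x = (-1, 0) then _ else ψ x * B x / m x) = _
      rw [if_neg h4, if_neg h1, h5]
      show k2 * (K3_zb x + 1) * B x / ((K3_z x - 1) * (K3_zb x + 1)) = _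
      field_simp
  have hb3 : ∀ x : E2, x ≠ (1, 0) → x ≠ (-1, 0) → b0 x = ψ x * B x / m x := by
    intro x h1 h2
    show (if x = (1, 0) then _ else if x = (-1, 0) then _ else ψ x * B x / m x) = _
    rw [if_neg h1, if_neg h2]
  refine ⟨b0, ?_, ?_, Icc (-(1 + ε / 2)) (1 + ε / 2) ×ˢ Icc (-(ε / 2)) (ε / 2), ?_,
    isCompact_Icc.prod isCompact_Icc, ?_⟩
  · intro x hx
    refine ContDiffAt.contDiffWithinAt ?_
    by_cases h1 : x = (1, 0)
    · subst h1
      refine ContDiffAt.congr_of_eventuallyEq ?_ hb1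
      exact K3_div (contDiffAt_const.mul hBc.contDiffAt)
        (K3_zb.contDiff.contDiffAt.add contDiffAt_const) hA1
    · by_cases h2 : x = (-1, 0)
      · subst h2
        refine ContDiffAt.congr_of_eventuallyEq ?_ hb2
        exact K3_div (contDiffAt_const.mul hBc.contDiffAt)
          (K3_z.contDiff.contDiffAt.sub contDiffAt_const) hA2
      · have h3 : b0 =ᶠ[𝓝 x] fun y => ψ y * B y / m y := by
          filter_upwards [isOpen_compl_singleton.mem_nhds h1, isOpen_compl_singleton.mem_nhds h2]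
            with y hy1 hy2
          exact hb3 y hy1 hy2
        refine ContDiffAt.congr_of_eventuallyEq ?_ h3
        exact K3_div ((hψc x hx).mul hBc.contDiffAt) hmc.contDiffAt (hmz x h1 h2)
  · intro x hx
    by_cases h1 : x = (1, 0)
    · subst h1
      rw [hb1.self_of_nhds]
      exact div_ne_zero (mul_ne_zero hk1 (hBz _)) hA1
    · by_cases h2 : x = (-1, 0)
      · subst h2
        rw [hb2.self_of_nhds]
        exact div_ne_zero (mul_ne_zero hk2 (hBz _)) hA2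
      · rw [hb3 x h1 h2]
        exact div_ne_zero (mul_ne_zero (hψz x hx h1 h2) (hBz _)) (hmz x h1 h2)
  · rintro x ⟨h1, h2⟩
    refine ⟨?_, ?_⟩
    · have := abs_le.2 ⟨h1.1, h1.2⟩
      show |x.1| < 1 + ε
      linarith
    · have := abs_le.2 ⟨h2.1, h2.2⟩
      show |x.2| < ε
      linarith
  · intro x hx hxK
    have hK : 1 + ε / 2 < |x.1| ∨ ε / 2 < |x.2| := by
      by_contra h
      push Not at h
      exact hxK ⟨abs_le.1 h.1, abs_le.1 h.2⟩
    have hd1 : r ≤ ‖x - (1, 0)‖ := by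
      rw [Prod.norm_def]
      rcases hK with h | h
      · refine le_max_of_le_left ?_
        show r ≤ |x.1 - 1|
        have := abs_sub_abs_le_abs_sub x.1 1
        rw [abs_one] at this
        linarith
      · refine le_max_of_le_right ?_
        show r ≤ |x.2 - 0|
        rw [sub_zero]
        linarith
    have hd2 : r ≤ ‖x - (-1, 0)‖ := by
      rw [Prod.norm_def]
      rcases hK with h | h
      · refine le_max_of_le_left ?_
        show r ≤ |x.1 - -1|
        have := abs_sub_abs_le_abs_sub x.1 (-1)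
        rw [abs_neg, abs_one] at this
        linarith
      · refine le_max_of_le_right ?_
        show r ≤ |x.2 - 0|
        rw [sub_zero]
        linarith
    have hρ : ρ x = 0 := by
      show β1 x.1 * β2 x.2 = 0
      rcases hK with h | h
      · rw [β1.zero_of_le_dist, zero_mul]
        rw [dist_zero_right, Real.norm_eq_abs]
        exact h.le
      · rw [β2.zero_of_le_dist, mul_zero]
        rw [dist_zero_right, Real.norm_eq_abs]
        exact h.le
    have hx1 : x ≠ (1, 0) := by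
      rintro rfl
      rw [sub_self, norm_zero] at hd1
      linarith
    have hx2 : x ≠ (-1, 0) := by
      rintro rfl
      rw [sub_self, norm_zero] at hd2
      linarith
    have h1 : ψ x = φ x := by
      show φ x + (χ1 x : ℝ) * (k1 * K3_z (x - (1, 0)) - φ x) +
          (χ2 x : ℝ) * (k2 * K3_zb (x - (-1, 0)) - φ x) = _
      rw [hχ1z x hd1, hχ2z x hd2]
      simp
    have h2 : B x = m x := by
      show m x + 2 * (ρ x : ℂ) = m x
      rw [hρ]
      simp
    rw [hb3 x hx1 hx2, h1, h2, mul_div_assoc, div_self (hmz x hx1 hx2), mul_one]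

theorem exists_b0 {ε : ℝ} (hε : 0 < ε) {φ : E2 → ℂ} (hφ : ContDiffOn ℝ ∞ φ (Rct ε))
    (hz : ∀ x ∈ Rct ε, φ x = 0 ↔ (x = (-1, 0) ∨ x = (1, 0)))
    (hs : jacC φ (-1, 0) * jacC φ (1, 0) < 0) :
    ∃ b0 : E2 → ℂ, ContDiffOn ℝ ∞ b0 (Rct ε) ∧ (∀ x ∈ Rct ε, b0 x ≠ 0) ∧
      ∃ K ⊆ Rct ε, IsCompact K ∧ ∀ x ∈ Rct ε, x ∉ K → b0 x = φ x := by
  rcases mul_neg_iff.1 hs with ⟨h1, h2⟩ | ⟨h1, h2⟩
  · have hj : ∀ c : E2, DifferentiableAt ℝ φ c →
        jacC (fun x => Complex.conjCLE (φ x)) c = - jacC φ c := by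
      intro c hc
      have h3 : fderiv ℝ (fun x => Complex.conjCLE (φ x)) c =
          (Complex.conjCLE : ℂ →L[ℝ] ℂ).comp (fderiv ℝ φ c) :=
        (Complex.conjCLE : ℂ →L[ℝ] ℂ).hasFDerivAt.comp c hc.hasFDerivAt |>.fderiv
      rw [jacC, jacC, h3]
      simp
      ring
    have hd : ∀ x ∈ Rct ε, DifferentiableAt ℝ φ x := fun x hx =>
      (hφ.contDiffAt ((K3_rct_open ε).mem_nhds hx)).differentiableAt (by simp)
    have hc1 : ((1, 0) : E2) ∈ Rct ε := by
      refine ⟨?_, ?_⟩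
      · show |(1 : ℝ)| < 1 + ε
        rw [abs_one]; linarith
      · show |(0 : ℝ)| < ε
        rwa [abs_zero]
    have hc2 : ((-1, 0) : E2) ∈ Rct ε := by
      refine ⟨?_, ?_⟩
      · show |(-1 : ℝ)| < 1 + ε
        rw [abs_neg, abs_one]; linarith
      · show |(0 : ℝ)| < ε
        rwa [abs_zero]
    obtain ⟨b, hb, hb0, K, hK, hKc, hbK⟩ := K3_main hε (φ := fun x => Complex.conjCLE (φ x))
      (Complex.conjCLE.contDiff.comp_contDiffOn hφ)
      (fun x hx => by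
        rw [← hz x hx]
        exact map_eq_zero_iff _ Complex.conjCLE.injective)
      (by rw [hj _ (hd _ hc1)]; linarith) (by rw [hj _ (hd _ hc2)]; linarith)
    refine ⟨fun x => Complex.conjCLE (b x), Complex.conjCLE.contDiff.comp_contDiffOn hb,
      fun x hx h => hb0 x hx ((map_eq_zero_iff _ Complex.conjCLE.injective).1 h), K, hK, hKc,
      fun x hx hxK => ?_⟩
    show Complex.conjCLE (b x) = φ x
    rw [hbK x hx hxK]
    simp
  · exact K3_main hε hφ hz h2 h1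

end P205F
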