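import Mathlib
import Vale.Agent.Lib.P205I.IDefs
import Vale.Agent.Lib.P205I.K3

/-!
# P205I K4: the frame and the complex function `φ`

`b = ∂₂F`, `v₀ ∉ ℝ b(x)` for `x` in the segment `[-1,1] × {0}`: the map `(t, s) ↦ t b(s, 0)` from `ℝ²` to `ℝ³` does not have
dense range complement otherwise (`ContDiff.dense_compl_range_of_finrank_lt_finrank`); openness and compactness give `ε`.
`e = v₀ × b`, `f = b × e`; `φ = ⟨∂₁F, e⟩/|e|² + i ⟨∂₁F, f⟩/|f|²`.  At a zero `c` of `φ`: `∂₁F = μ b`, `n = (1, -μ)`,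
`D_uφ = ⟨D_u D_n F, e⟩/|e|² + i ⟨D_u D_n F, f⟩/|f|²` (because `⟨b, D_u e⟩ = -⟨D_u b, e⟩`), and
`jacC φ c = det3 (D₁D_nF) (D₂D_nF) b / |f|²` (`e × f = |e|² b`).
-/

noncomputable section

namespace P205F

open scoped Manifold ContDiff Topology RealInnerProductSpace
open Set

set_option maxSynthPendingDepth 3

/-- sign data of a cross-cap: `∂₁F = μ ∂₂F` at `c`, `n = (1, -μ)` -/
def sgC (F : E2 → V3) (c : E2) (μ : ℝ) : ℝ :=
  det3 (fderiv ℝ (fun y => fderiv ℝ F y (1, -μ)) c e1) (fderiv ℝ (fun y => fderiv ℝ F y (1, -μ)) c e2)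
    (fderiv ℝ F c e2)

/-- dot product in coordinates -/
def K4_ip (a b : V3) : ℝ := a 0 * b 0 + a 1 * b 1 + a 2 * b 2

theorem K4_ip_pos {a : V3} (ha : a ≠ 0) : 0 < K4_ip a a := by
  have h : ¬ (a 0 = 0 ∧ a 1 = 0 ∧ a 2 = 0) := by
    rintro ⟨h0, h1, h2⟩
    apply ha
    ext i
    fin_cases i
    · simpa using h0
    · simpa using h1
    · simpa using h2
  unfold K4_ip
  by_contra hneg
  push Not at hneg
  have h0 : a 0 = 0 := by nlinarith [sq_nonneg (a 0), sq_nonneg (a 1), sq_nonneg (a 2)]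
  have h1 : a 1 = 0 := by nlinarith [sq_nonneg (a 0), sq_nonneg (a 1), sq_nonneg (a 2)]
  have h2 : a 2 = 0 := by nlinarith [sq_nonneg (a 0), sq_nonneg (a 1), sq_nonneg (a 2)]
  exact h ⟨h0, h1, h2⟩

theorem K4_cr0 (a b : V3) : cr a b 0 = a 1 * b 2 - a 2 * b 1 := by simp [cr]
theorem K4_cr1 (a b : V3) : cr a b 1 = a 2 * b 0 - a 0 * b 2 := by simp [cr]
theorem K4_cr2 (a b : V3) : cr a b 2 = a 0 * b 1 - a 1 * b 0 := by simp [cr]

theorem K4_ext {a b : V3} (h0 : a 0 = b 0) (h1 : a 1 = b 1) (h2 : a 2 = b 2) : a = b := by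
  ext i
  fin_cases i
  · simpa using h0
  · simpa using h1
  · simpa using h2

/-- the norm square of `f = b × (v × b)` -/
theorem K4_ff (v b : V3) : K4_ip (cr b (cr v b)) (cr b (cr v b)) =
    K4_ip b b * K4_ip (cr v b) (cr v b) := by
  simp only [K4_ip, K4_cr0, K4_cr1, K4_cr2]
  ring

theorem K4_det (v b : V3) : det3 b (cr v b) (cr b (cr v b)) =
    K4_ip b b * K4_ip (cr v b) (cr v b) := by
  simp only [det3, K4_ip, K4_cr0, K4_cr1, K4_cr2]
  ring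

theorem K4_be (v b : V3) : K4_ip b (cr v b) = 0 := by
  simp only [K4_ip, K4_cr0, K4_cr1, K4_cr2]
  ring

theorem K4_bf (v b : V3) : K4_ip b (cr b (cr v b)) = 0 := by
  simp only [K4_ip, K4_cr0, K4_cr1, K4_cr2]
  ring

/-- `v × b ≠ 0` -/
theorem K4_cr_ne {v b : V3} (hb : b ≠ 0) (h : ∀ t : ℝ, v ≠ t • b) : cr v b ≠ 0 := by
  intro h0
  have hbb := K4_ip_pos hb
  have e0 : v 1 * b 2 - v 2 * b 1 = 0 := by rw [← K4_cr0, h0]; rfl
  have e1 : v 2 * b 0 - v 0 * b 2 = 0 := by rw [← K4_cr1, h0]; rfl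
  have e2 : v 0 * b 1 - v 1 * b 0 = 0 := by rw [← K4_cr2, h0]; rfl
  apply h (K4_ip v b / K4_ip b b)
  apply K4_ext
  · rw [PiLp.smul_apply, smul_eq_mul, div_mul_eq_mul_div, eq_div_iff hbb.ne']
    unfold K4_ip
    linear_combination b 2 * e1 * (-1) + b 1 * e2
  · rw [PiLp.smul_apply, smul_eq_mul, div_mul_eq_mul_div, eq_div_iff hbb.ne']
    unfold K4_ip
    linear_combination b 2 * e0 - b 0 * e2
  · rw [PiLp.smul_apply, smul_eq_mul, div_mul_eq_mul_div, eq_div_iff hbb.ne']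
    unfold K4_ip
    linear_combination b 0 * e1 - b 1 * e0

/-- expansion in the orthogonal basis `b, e = v × b, f = b × e` -/
theorem K4_expand {v b : V3} (hb : b ≠ 0) (he : cr v b ≠ 0) (w : V3) :
    w = (K4_ip w b / K4_ip b b) • b + (K4_ip w (cr v b) / K4_ip (cr v b) (cr v b)) • cr v b +
      (K4_ip w (cr b (cr v b)) / K4_ip (cr b (cr v b)) (cr b (cr v b))) • cr b (cr v b) := by
  have h1 := K4_ip_pos hb
  have h2 := K4_ip_pos he
  rw [K4_ff]
  have key : (K4_ip b b * K4_ip (cr v b) (cr v b)) • w =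
      (K4_ip w b * K4_ip (cr v b) (cr v b)) • b + (K4_ip w (cr v b) * K4_ip b b) • cr v b +
      K4_ip w (cr b (cr v b)) • cr b (cr v b) := by
    apply K4_ext <;>
    · simp only [PiLp.add_apply, PiLp.smul_apply, smul_eq_mul, K4_ip, K4_cr0, K4_cr1, K4_cr2]
      ring
  have h12 : K4_ip b b * K4_ip (cr v b) (cr v b) ≠ 0 := (mul_pos h1 h2).ne'
  have key2 : w = (K4_ip b b * K4_ip (cr v b) (cr v b))⁻¹ •
      ((K4_ip w b * K4_ip (cr v b) (cr v b)) • b + (K4_ip w (cr v b) * K4_ip b b) • cr v b +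
      K4_ip w (cr b (cr v b)) • cr b (cr v b)) := by
    rw [← key, smul_smul, inv_mul_cancel₀ h12, one_smul]
  have h1' := h1.ne'
  have h2' := h2.ne'
  conv_lhs => rw [key2]
  rw [smul_add, smul_add, smul_smul, smul_smul, smul_smul]
  congr 1
  · congr 1
    · congr 1
      field_simp
    · congr 1
      field_simp
  · congr 1
    field_simp

/-- a vector off the lines spanned by `b(s, 0)` -/
theorem K4_exists_v {b : E2 → V3} (hb : ContDiff ℝ ∞ b) : ∃ v : V3, ∀ s t : ℝ, v ≠ t • b (s, 0) := by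
  have hg : ContDiff ℝ 1 (fun q : ℝ × ℝ => q.1 • b (q.2, 0)) := by
    refine contDiff_fst.smul ((hb.of_le (by simp)).comp ?_)
    exact contDiff_snd.prodMk contDiff_const
  have hd := hg.dense_compl_range_of_finrank_lt_finrank (by simp)
  obtain ⟨v, hv⟩ := hd.nonempty
  refine ⟨v, fun s t h => hv ⟨(t, s), h.symm⟩⟩

/-- small rectangles are contained in neighbourhoods of the segment -/
theorem K4_exists_rct {U : Set E2} (hU : IsOpen U) (hs : ∀ s : ℝ, |s| ≤ 1 → (s, (0 : ℝ)) ∈ U) :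
    ∃ ε : ℝ, 0 < ε ∧ Rct ε ⊆ U := by
  have hc : IsCompact (Icc (-1 : ℝ) 1 ×ˢ {(0 : ℝ)}) := isCompact_Icc.prod isCompact_singleton
  have hsub : Icc (-1 : ℝ) 1 ×ˢ {(0 : ℝ)} ⊆ U := by
    rintro ⟨s, r⟩ ⟨h1, h2⟩
    have h2' : r = 0 := h2
    subst h2'
    exact hs s (abs_le.2 h1)
  obtain ⟨δ, hδ, h⟩ := hc.exists_thickening_subset_open hU hsub
  refine ⟨δ, hδ, fun x hx => h ?_⟩
  rw [Metric.mem_thickening_iff]
  obtain ⟨h1, h2⟩ := hx
  rw [abs_lt] at h1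
  refine ⟨(max (-1) (min x.1 1), 0), ⟨⟨le_max_left _ _, max_le (by norm_num) (min_le_right _ _)⟩, rfl⟩, ?_⟩
  rw [Prod.dist_eq, max_lt_iff]
  refine ⟨?_, by simpa [Real.dist_eq] using h2⟩
  rw [Real.dist_eq, abs_lt]
  dsimp only
  rcases le_total x.1 1 with h3 | h3
  · rw [min_eq_left h3]
    rcases le_total (-1) x.1 with h4 | h4
    · rw [max_eq_right h4]
      constructor <;> linarith
    · rw [max_eq_left h4]
      constructor <;> linarith
  · rw [min_eq_right h3, max_eq_right (by norm_num)]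
    constructor <;> linarith

theorem K4_isOpen_rct (ε : ℝ) : IsOpen (Rct ε) :=
  (isOpen_lt (continuous_fst.abs) continuous_const).inter
    (isOpen_lt (continuous_snd.abs) continuous_const)

theorem K4_mem_rct {ε : ℝ} (hε : 0 < ε) {s : ℝ} (hs : |s| ≤ 1) : ((s, 0) : E2) ∈ Rct ε := by
  refine ⟨?_, ?_⟩
  · dsimp only
    linarith
  · simpa using hε

theorem K4_comp {a : E2 → V3} {n : ℕ∞} (ha : ContDiff ℝ n a) (i : Fin 3) :
    ContDiff ℝ n (fun x => a x i) := by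
  rw [contDiff_euclidean] at ha
  exact ha i

theorem K4_cr_smooth {a b : E2 → V3} {n : ℕ∞} (ha : ContDiff ℝ n a) (hb : ContDiff ℝ n b) :
    ContDiff ℝ n (fun x => cr (a x) (b x)) := by
  rw [contDiff_euclidean]
  intro i
  have h := K4_comp ha
  have h' := K4_comp hb
  fin_cases i
  · simpa [K4_cr0] using ((h 1).mul (h' 2)).sub ((h 2).mul (h' 1))
  · simpa [K4_cr1] using ((h 2).mul (h' 0)).sub ((h 0).mul (h' 2))
  · simpa [K4_cr2] using ((h 0).mul (h' 1)).sub ((h 1).mul (h' 0))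

theorem K4_ip_smooth {a b : E2 → V3} {n : ℕ∞} (ha : ContDiff ℝ n a) (hb : ContDiff ℝ n b) :
    ContDiff ℝ n (fun x => K4_ip (a x) (b x)) := by
  have h := K4_comp ha
  have h' := K4_comp hb
  exact (((h 0).mul (h' 0)).add ((h 1).mul (h' 1))).add ((h 2).mul (h' 2))

/-- derivative of `⟨G, e⟩ h` at a zero of `G` -/
theorem K4_hasF {G e : E2 → V3} {h : E2 → ℝ} {c : E2} (hG : DifferentiableAt ℝ G c)
    (he : DifferentiableAt ℝ e c) (hh : DifferentiableAt ℝ h c) (h0 : G c = 0) :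
    ∃ L : E2 →L[ℝ] ℝ, HasFDerivAt (fun x => K4_ip (G x) (e x) * h x) L c ∧
      ∀ u, L u = K4_ip (fderiv ℝ G c u) (e c) * h c := by
  have hGi : ∀ i : Fin 3, HasFDerivAt (fun x => G x i)
      ((EuclideanSpace.proj i : V3 →L[ℝ] ℝ).comp (fderiv ℝ G c)) c := fun i =>
    (EuclideanSpace.proj i : V3 →L[ℝ] ℝ).hasFDerivAt.comp c hG.hasFDerivAt
  have hei : ∀ i : Fin 3, HasFDerivAt (fun x => e x i)
      ((EuclideanSpace.proj i : V3 →L[ℝ] ℝ).comp (fderiv ℝ e c)) c := fun i =>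
    (EuclideanSpace.proj i : V3 →L[ℝ] ℝ).hasFDerivAt.comp c he.hasFDerivAt
  have hG0 : ∀ i : Fin 3, G c i = 0 := fun i => by rw [h0]; rfl
  have h1 := ((((hGi 0).mul (hei 0)).add ((hGi 1).mul (hei 1))).add ((hGi 2).mul (hei 2))).mul
    hh.hasFDerivAt
  refine ⟨_, h1, fun u => ?_⟩
  simp [K4_ip, hG0]
  ring

theorem K4_alg (v b G1 G2 : V3) :
    K4_ip G1 (cr v b) * K4_ip G2 (cr b (cr v b)) - K4_ip G1 (cr b (cr v b)) * K4_ip G2 (cr v b) =
      det3 G1 G2 b * K4_ip (cr v b) (cr v b) := by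
  simp only [det3, K4_ip, K4_cr0, K4_cr1, K4_cr2]
  ring

/-- the complex function -/
def K4_phi (F : E2 → V3) (v : V3) (x : E2) : ℂ :=
  ((K4_ip (fderiv ℝ F x e1) (cr v (fderiv ℝ F x e2)) *
      (K4_ip (cr v (fderiv ℝ F x e2)) (cr v (fderiv ℝ F x e2)))⁻¹ : ℝ) : ℂ) +
    ((K4_ip (fderiv ℝ F x e1) (cr (fderiv ℝ F x e2) (cr v (fderiv ℝ F x e2))) *
      (K4_ip (cr (fderiv ℝ F x e2) (cr v (fderiv ℝ F x e2)))
        (cr (fderiv ℝ F x e2) (cr v (fderiv ℝ F x e2))))⁻¹ : ℝ) : ℂ) * Complex.I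

theorem K4_jac {F : E2 → V3} (hF : ContDiff ℝ ∞ F) {v : V3} {c : E2} {μ : ℝ}
    (hb : fderiv ℝ F c e2 ≠ 0) (he : cr v (fderiv ℝ F c e2) ≠ 0)
    (h1 : fderiv ℝ F c e1 = μ • fderiv ℝ F c e2) :
    jacC (K4_phi F v) c * K4_ip (cr (fderiv ℝ F c e2) (cr v (fderiv ℝ F c e2)))
        (cr (fderiv ℝ F c e2) (cr v (fderiv ℝ F c e2))) = sgC F c μ := by
  have hd : ContDiff ℝ ∞ (fderiv ℝ F) := hF.fderiv_right (by simp)
  have hbs : ContDiff ℝ ∞ (fun x => fderiv ℝ F x e2) := hd.clm_apply contDiff_const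
  have hGs : ContDiff ℝ ∞ (fun x => fderiv ℝ F x (1, -μ)) := hd.clm_apply contDiff_const
  have hes : ContDiff ℝ ∞ (fun x => cr v (fderiv ℝ F x e2)) := K4_cr_smooth contDiff_const hbs
  have hfs : ContDiff ℝ ∞ (fun x => cr (fderiv ℝ F x e2) (cr v (fderiv ℝ F x e2))) :=
    K4_cr_smooth hbs hes
  have hees := K4_ip_smooth hes hes
  have hffs := K4_ip_smooth hfs hfs
  have hee := K4_ip_pos he
  have hff : 0 < K4_ip (cr (fderiv ℝ F c e2) (cr v (fderiv ℝ F c e2)))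
        (cr (fderiv ℝ F c e2) (cr v (fderiv ℝ F c e2))) := by
    rw [K4_ff]
    exact mul_pos (K4_ip_pos hb) hee
  have hn : ∀ x, fderiv ℝ F x (1, -μ) = fderiv ℝ F x e1 - μ • fderiv ℝ F x e2 := by
    intro x
    have : ((1, -μ) : E2) = e1 - μ • e2 := by
      simp [e1, e2]
    rw [this, map_sub, map_smul]
  have hG0 : fderiv ℝ F c (1, -μ) = 0 := by rw [hn, h1, sub_self]
  obtain ⟨L1, hL1, hL1'⟩ := K4_hasF (G := fun x => fderiv ℝ F x (1, -μ))
    (e := fun x => cr v (fderiv ℝ F x e2))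
    (h := fun x => (K4_ip (cr v (fderiv ℝ F x e2)) (cr v (fderiv ℝ F x e2)))⁻¹)
    (hGs.differentiable (by simp) c) (hes.differentiable (by simp) c)
    ((hees.differentiable (by simp) c).inv hee.ne') hG0
  obtain ⟨L2, hL2, hL2'⟩ := K4_hasF (G := fun x => fderiv ℝ F x (1, -μ))
    (e := fun x => cr (fderiv ℝ F x e2) (cr v (fderiv ℝ F x e2)))
    (h := fun x => (K4_ip (cr (fderiv ℝ F x e2) (cr v (fderiv ℝ F x e2)))
        (cr (fderiv ℝ F x e2) (cr v (fderiv ℝ F x e2))))⁻¹)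
    (hGs.differentiable (by simp) c) (hfs.differentiable (by simp) c)
    ((hffs.differentiable (by simp) c).inv hff.ne') hG0
  have hfun : K4_phi F v = fun x =>
      ((K4_ip (fderiv ℝ F x (1, -μ)) (cr v (fderiv ℝ F x e2)) *
        (K4_ip (cr v (fderiv ℝ F x e2)) (cr v (fderiv ℝ F x e2)))⁻¹ : ℝ) : ℂ) +
      ((K4_ip (fderiv ℝ F x (1, -μ)) (cr (fderiv ℝ F x e2) (cr v (fderiv ℝ F x e2))) *
        (K4_ip (cr (fderiv ℝ F x e2) (cr v (fderiv ℝ F x e2)))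
          (cr (fderiv ℝ F x e2) (cr v (fderiv ℝ F x e2))))⁻¹ : ℝ) : ℂ) * Complex.I := by
    funext x
    have e1' : K4_ip (fderiv ℝ F x (1, -μ)) (cr v (fderiv ℝ F x e2)) =
        K4_ip (fderiv ℝ F x e1) (cr v (fderiv ℝ F x e2)) := by
      have := K4_be v (fderiv ℝ F x e2)
      rw [hn]
      simp only [K4_ip, PiLp.sub_apply, PiLp.smul_apply, smul_eq_mul] at this ⊢
      linear_combination (-μ) * this
    have e2' : K4_ip (fderiv ℝ F x (1, -μ)) (cr (fderiv ℝ F x e2) (cr v (fderiv ℝ F x e2))) =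
        K4_ip (fderiv ℝ F x e1) (cr (fderiv ℝ F x e2) (cr v (fderiv ℝ F x e2))) := by
      have := K4_bf v (fderiv ℝ F x e2)
      rw [hn]
      simp only [K4_ip, PiLp.sub_apply, PiLp.smul_apply, smul_eq_mul] at this ⊢
      linear_combination (-μ) * this
    rw [e1', e2']
    rfl
  have hφ : HasFDerivAt (K4_phi F v) (Complex.ofRealCLM.comp L1 +
      Complex.I • (Complex.ofRealCLM.comp L2)) c := by
    rw [hfun]
    have a1 : HasFDerivAt (fun x => ((K4_ip (fderiv ℝ F x (1, -μ)) (cr v (fderiv ℝ F x e2)) *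
        (K4_ip (cr v (fderiv ℝ F x e2)) (cr v (fderiv ℝ F x e2)))⁻¹ : ℝ) : ℂ))
        (Complex.ofRealCLM.comp L1) c := Complex.ofRealCLM.hasFDerivAt.comp c hL1
    have a2 : HasFDerivAt (fun x =>
        ((K4_ip (fderiv ℝ F x (1, -μ)) (cr (fderiv ℝ F x e2) (cr v (fderiv ℝ F x e2))) *
        (K4_ip (cr (fderiv ℝ F x e2) (cr v (fderiv ℝ F x e2)))
          (cr (fderiv ℝ F x e2) (cr v (fderiv ℝ F x e2))))⁻¹ : ℝ) : ℂ))
        (Complex.ofRealCLM.comp L2) c := Complex.ofRealCLM.hasFDerivAt.comp c hL2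
    exact a1.add (a2.mul_const Complex.I)
  have hre : ∀ u, (fderiv ℝ (K4_phi F v) c u).re = L1 u := by
    intro u
    rw [hφ.fderiv]
    simp
  have him : ∀ u, (fderiv ℝ (K4_phi F v) c u).im = L2 u := by
    intro u
    rw [hφ.fderiv]
    simp
  unfold jacC
  rw [hre, hre, him, him, hL1', hL1', hL2', hL2']
  have halg := K4_alg v (fderiv ℝ F c e2) (fderiv ℝ (fun x => fderiv ℝ F x (1, -μ)) c e1)
    (fderiv ℝ (fun x => fderiv ℝ F x (1, -μ)) c e2)
  unfold sgC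
  have hee' := hee.ne'
  have hff' := hff.ne'
  field_simp
  linear_combination halg

theorem exists_frame {F : E2 → V3} (hF : ContDiff ℝ ∞ F) (hb : ∀ x, fderiv ℝ F x e2 ≠ 0)
    (hi : ∀ x, x ≠ (-1, 0) → x ≠ (1, 0) → Function.Injective (fderiv ℝ F x)) {μ₁ μ₂ : ℝ}
    (h1 : fderiv ℝ F (-1, 0) e1 = μ₁ • fderiv ℝ F (-1, 0) e2)
    (h2 : fderiv ℝ F (1, 0) e1 = μ₂ • fderiv ℝ F (1, 0) e2)
    (hs : sgC F (-1, 0) μ₁ * sgC F (1, 0) μ₂ < 0) :
    ∃ ε : ℝ, 0 < ε ∧ ∃ (e f : E2 → V3) (φ : E2 → ℂ) (μ : E2 → ℝ),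
      ContDiffOn ℝ ∞ e (Rct ε) ∧ ContDiffOn ℝ ∞ f (Rct ε) ∧ ContDiffOn ℝ ∞ φ (Rct ε) ∧
      (∀ x ∈ Rct ε, det3 (fderiv ℝ F x e2) (e x) (f x) ≠ 0) ∧
      (∀ x ∈ Rct ε, fderiv ℝ F x e1 = μ x • fderiv ℝ F x e2 + (φ x).re • e x + (φ x).im • f x) ∧
      (∀ x ∈ Rct ε, φ x = 0 ↔ (x = (-1, 0) ∨ x = (1, 0))) ∧
      jacC φ (-1, 0) * jacC φ (1, 0) < 0 := by
  have hd : ContDiff ℝ ∞ (fderiv ℝ F) := hF.fderiv_right (by simp)
  have has : ContDiff ℝ ∞ (fun x => fderiv ℝ F x e1) := hd.clm_apply contDiff_const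
  have hbs : ContDiff ℝ ∞ (fun x => fderiv ℝ F x e2) := hd.clm_apply contDiff_const
  obtain ⟨v, hv⟩ := K4_exists_v hbs
  have hes : ContDiff ℝ ∞ (fun x => cr v (fderiv ℝ F x e2)) := K4_cr_smooth contDiff_const hbs
  have hfs : ContDiff ℝ ∞ (fun x => cr (fderiv ℝ F x e2) (cr v (fderiv ℝ F x e2))) :=
    K4_cr_smooth hbs hes
  have hees := K4_ip_smooth hes hes
  have hffs := K4_ip_smooth hfs hfs
  have hU : IsOpen {x : E2 | cr v (fderiv ℝ F x e2) ≠ 0} :=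
    isOpen_ne.preimage hes.continuous
  obtain ⟨ε, hε, hsub⟩ := K4_exists_rct hU fun s _ => K4_cr_ne (hb _) (hv s)
  have hee : ∀ x ∈ Rct ε, 0 < K4_ip (cr v (fderiv ℝ F x e2)) (cr v (fderiv ℝ F x e2)) :=
    fun x hx => K4_ip_pos (hsub hx)
  have hff : ∀ x ∈ Rct ε, 0 < K4_ip (cr (fderiv ℝ F x e2) (cr v (fderiv ℝ F x e2)))
      (cr (fderiv ℝ F x e2) (cr v (fderiv ℝ F x e2))) := by
    intro x hx
    rw [K4_ff]
    exact mul_pos (K4_ip_pos (hb x)) (hee x hx)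
  have hre : ∀ x, (K4_phi F v x).re = K4_ip (fderiv ℝ F x e1) (cr v (fderiv ℝ F x e2)) *
      (K4_ip (cr v (fderiv ℝ F x e2)) (cr v (fderiv ℝ F x e2)))⁻¹ := fun x => by
    simp [K4_phi]
  have him : ∀ x, (K4_phi F v x).im =
      K4_ip (fderiv ℝ F x e1) (cr (fderiv ℝ F x e2) (cr v (fderiv ℝ F x e2))) *
      (K4_ip (cr (fderiv ℝ F x e2) (cr v (fderiv ℝ F x e2)))
        (cr (fderiv ℝ F x e2) (cr v (fderiv ℝ F x e2))))⁻¹ := fun x => by
    simp [K4_phi]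
  have hexp : ∀ x ∈ Rct ε, fderiv ℝ F x e1 =
      (K4_ip (fderiv ℝ F x e1) (fderiv ℝ F x e2) / K4_ip (fderiv ℝ F x e2) (fderiv ℝ F x e2)) •
        fderiv ℝ F x e2 + (K4_phi F v x).re • cr v (fderiv ℝ F x e2) +
        (K4_phi F v x).im • cr (fderiv ℝ F x e2) (cr v (fderiv ℝ F x e2)) := by
    intro x hx
    rw [hre, him, ← div_eq_mul_inv, ← div_eq_mul_inv]
    exact K4_expand (hb x) (hsub hx) (fderiv ℝ F x e1)
  have hm1 : ((-1, 0) : E2) ∈ Rct ε := K4_mem_rct hε (by norm_num)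
  have hm2 : ((1, 0) : E2) ∈ Rct ε := K4_mem_rct hε (by norm_num)
  have hzero : ∀ (x : E2) (μ : ℝ), fderiv ℝ F x e1 = μ • fderiv ℝ F x e2 →
      K4_phi F v x = 0 := by
    intro x μ hx
    have a1 : K4_ip (fderiv ℝ F x e1) (cr v (fderiv ℝ F x e2)) = 0 := by
      have := K4_be v (fderiv ℝ F x e2)
      rw [hx]
      simp only [K4_ip, PiLp.smul_apply, smul_eq_mul] at this ⊢
      linear_combination μ * this
    have a2 : K4_ip (fderiv ℝ F x e1) (cr (fderiv ℝ F x e2) (cr v (fderiv ℝ F x e2))) = 0 := by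
      have := K4_bf v (fderiv ℝ F x e2)
      rw [hx]
      simp only [K4_ip, PiLp.smul_apply, smul_eq_mul] at this ⊢
      linear_combination μ * this
    apply Complex.ext
    · rw [hre, a1, zero_mul, Complex.zero_re]
    · rw [him, a2, zero_mul, Complex.zero_im]
  refine ⟨ε, hε, fun x => cr v (fderiv ℝ F x e2),
    fun x => cr (fderiv ℝ F x e2) (cr v (fderiv ℝ F x e2)), K4_phi F v,
    fun x => K4_ip (fderiv ℝ F x e1) (fderiv ℝ F x e2) / K4_ip (fderiv ℝ F x e2) (fderiv ℝ F x e2),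
    hes.contDiffOn, hfs.contDiffOn, ?_, ?_, hexp, ?_, ?_⟩
  · have c1 : ContDiffOn ℝ ∞ (fun x => K4_ip (fderiv ℝ F x e1) (cr v (fderiv ℝ F x e2)) *
        (K4_ip (cr v (fderiv ℝ F x e2)) (cr v (fderiv ℝ F x e2)))⁻¹) (Rct ε) :=
      (K4_ip_smooth has hes).contDiffOn.mul (hees.contDiffOn.inv fun x hx => (hee x hx).ne')
    have c2 : ContDiffOn ℝ ∞ (fun x =>
        K4_ip (fderiv ℝ F x e1) (cr (fderiv ℝ F x e2) (cr v (fderiv ℝ F x e2))) *
        (K4_ip (cr (fderiv ℝ F x e2) (cr v (fderiv ℝ F x e2)))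
          (cr (fderiv ℝ F x e2) (cr v (fderiv ℝ F x e2))))⁻¹) (Rct ε) :=
      (K4_ip_smooth has hfs).contDiffOn.mul (hffs.contDiffOn.inv fun x hx => (hff x hx).ne')
    exact (Complex.ofRealCLM.contDiff.comp_contDiffOn c1).add
      ((Complex.ofRealCLM.contDiff.comp_contDiffOn c2).mul contDiffOn_const)
  · intro x hx
    dsimp only
    rw [K4_det]
    exact (mul_pos (K4_ip_pos (hb x)) (hee x hx)).ne'
  · intro x hx
    constructor
    · intro h0
      by_contra hne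
      push Not at hne
      have hinj := hi x hne.1 hne.2
      have h3 := hexp x hx
      rw [h0, Complex.zero_re, Complex.zero_im, zero_smul, zero_smul, add_zero, add_zero] at h3
      obtain ⟨m, hm⟩ : ∃ m, m = K4_ip (fderiv ℝ F x e1) (fderiv ℝ F x e2) /
        K4_ip (fderiv ℝ F x e2) (fderiv ℝ F x e2) := ⟨_, rfl⟩
      rw [← hm] at h3
      have h4 : fderiv ℝ F x e1 = fderiv ℝ F x (m • e2) := by rw [map_smul]; exact h3
      have h5 := hinj h4
      have h6 := congrArg Prod.fst h5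
      simp [e1, e2] at h6
    · rintro (rfl | rfl)
      · exact hzero _ _ h1
      · exact hzero _ _ h2
  · have j1 := K4_jac hF (hb _) (hsub hm1) h1
    have j2 := K4_jac hF (hb _) (hsub hm2) h2
    have f1 := hff _ hm1
    have f2 := hff _ hm2
    rw [← j1, ← j2] at hs
    have hprod := mul_pos f1 f2
    by_contra hneg
    push Not at hneg
    have := mul_nonneg hneg hprod.le
    linarith [this]

end P205F
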