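import Mathlib
import Vale.Agent.Lib.P205I.IDefs
import Vale.Agent.Lib.P205I.K2
import Vale.Agent.Lib.P205I.K3

/-!
# P205I K5: the corrugation

`c = φ/b0` on `Rct ε` (`= 1` off `K`), `s` cutoff with values in `[0,1]`: `s = 1` near `K`, compact support `K' ⊆ Rct ε`
(so `c = 1` where `s ≠ 1`); `Γ(x, t) = Re (b0 P(c, s, t)) e + Im (b0 P(c, s, t)) f`, `0` off `K'`; `2π`-periodic in `t`.
`F' = F + (1/N) Γ(x, N x₁)`: `∂₁F' = μ ∂₂F + Re(b0 g) e + Im (b0 g) f + O(1/N)`, `∂₂F' = ∂₂F + O(1/N)` uniformly on `K'`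
(`b0 (g - c) = b0 g - φ`), and `|b0 g| ≥ const > 0` on `K' × ℝ`; `F' = F` off `K'`, where `F` is an immersion.
-/

noncomputable section

namespace P205F

open scoped Manifold ContDiff Topology RealInnerProductSpace
open Set

set_option maxSynthPendingDepth 3

private theorem K5_det3_indep {a b c : V3} (h : det3 a b c ≠ 0) {α β γ : ℝ}
    (h0 : α • a + β • b + γ • c = 0) : α = 0 ∧ β = 0 ∧ γ = 0 := by
  have h1 : ∀ i, α * a i + β * b i + γ * c i = 0 := by
    intro i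
    have := congrArg (fun v : V3 => v i) h0
    simpa using this
  have h10 := h1 0
  have h11 := h1 1
  have h12 := h1 2
  unfold det3 at h
  refine ⟨?_, ?_, ?_⟩
  · refine (mul_eq_zero.mp (?_ : α * (a 0 * (b 1 * c 2 - b 2 * c 1) - a 1 * (b 0 * c 2 - b 2 * c 0) +
      a 2 * (b 0 * c 1 - b 1 * c 0)) = 0)).resolve_right h
    linear_combination (b 1 * c 2 - b 2 * c 1) * h10 - (b 0 * c 2 - b 2 * c 0) * h11 +
      (b 0 * c 1 - b 1 * c 0) * h12
  · refine (mul_eq_zero.mp (?_ : β * (a 0 * (b 1 * c 2 - b 2 * c 1) - a 1 * (b 0 * c 2 - b 2 * c 0) +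
      a 2 * (b 0 * c 1 - b 1 * c 0)) = 0)).resolve_right h
    linear_combination (c 1 * a 2 - c 2 * a 1) * h10 - (c 0 * a 2 - c 2 * a 0) * h11 +
      (c 0 * a 1 - c 1 * a 0) * h12
  · refine (mul_eq_zero.mp (?_ : γ * (a 0 * (b 1 * c 2 - b 2 * c 1) - a 1 * (b 0 * c 2 - b 2 * c 0) +
      a 2 * (b 0 * c 1 - b 1 * c 0)) = 0)).resolve_right h
    linear_combination (a 1 * b 2 - a 2 * b 1) * h10 - (a 0 * b 2 - a 2 * b 0) * h11 +
      (a 0 * b 1 - a 1 * b 0) * h12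

private theorem K5_unif {A R : E2 × ℝ → E2 →L[ℝ] V3} (hA : Continuous A) (hR : Continuous R)
    (hAp : ∀ x t, A (x, t + 2 * Real.pi) = A (x, t))
    (hRp : ∀ x t, R (x, t + 2 * Real.pi) = R (x, t))
    {L : Set E2} (hL : IsCompact L) (hi : ∀ x ∈ L, ∀ t, Function.Injective (A (x, t))) :
    ∃ η : ℝ, 0 < η ∧ ∀ x ∈ L, ∀ t, Function.Injective (A (x, t) + η • R (x, t)) := by
  have hc : IsCompact (L ×ˢ Icc (0 : ℝ) (2 * Real.pi)) := hL.prod isCompact_Icc
  have ho : ∀ᶠ η : ℝ in 𝓝 0, ∀ q ∈ L ×ˢ Icc (0 : ℝ) (2 * Real.pi),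
      Function.Injective (A q + η • R q) := by
    refine hc.eventually_forall_of_forall_eventually ?_
    intro q hq
    have hcont : Continuous fun z : ℝ × (E2 × ℝ) => A z.2 + z.1 • R z.2 :=
      (hA.comp continuous_snd).add (continuous_fst.smul (hR.comp continuous_snd))
    have h0 : A q + (0 : ℝ) • R q ∈ {T : E2 →L[ℝ] V3 | Function.Injective T} := by
      rw [zero_smul, add_zero]
      exact hi q.1 hq.1 q.2
    exact hcont.continuousAt.eventually (ContinuousLinearMap.isOpen_injective.mem_nhds h0)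
  obtain ⟨η, h1, h2⟩ := ((ho.filter_mono nhdsWithin_le_nhds).and
    (self_mem_nhdsWithin (s := Ioi (0 : ℝ)))).exists
  refine ⟨η, h2, fun x hx t => ?_⟩
  have hper : Function.Periodic (fun t => A (x, t) + η • R (x, t)) (2 * Real.pi) := by
    intro t
    change A (x, t + 2 * Real.pi) + η • R (x, t + 2 * Real.pi) = A (x, t) + η • R (x, t)
    rw [hAp, hRp]
  obtain ⟨y, hy, hy'⟩ := hper.exists_mem_Ico₀ Real.two_pi_pos t
  have h3 := h1 (x, y) ⟨hx, Ico_subset_Icc_self hy⟩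
  have h4 : A (x, t) + η • R (x, t) = A (x, y) + η • R (x, y) := hy'
  rw [h4]
  exact h3

theorem corrugate {F : E2 → V3} (hF : ContDiff ℝ ∞ F) {ε : ℝ} (hε : 0 < ε) {e f : E2 → V3}
    {φ b0 : E2 → ℂ} {μ : E2 → ℝ} (he : ContDiffOn ℝ ∞ e (Rct ε)) (hf : ContDiffOn ℝ ∞ f (Rct ε))
    (hφ : ContDiffOn ℝ ∞ φ (Rct ε)) (hb : ContDiffOn ℝ ∞ b0 (Rct ε))
    (hdet : ∀ x ∈ Rct ε, det3 (fderiv ℝ F x e2) (e x) (f x) ≠ 0)
    (h1 : ∀ x ∈ Rct ε, fderiv ℝ F x e1 =
      μ x • fderiv ℝ F x e2 + (φ x).re • e x + (φ x).im • f x)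
    (hb0 : ∀ x ∈ Rct ε, b0 x ≠ 0) {K : Set E2} (hK : IsCompact K) (hKR : K ⊆ Rct ε)
    (hbφ : ∀ x ∈ Rct ε, x ∉ K → b0 x = φ x)
    (hi : ∀ x, x ∉ K → Function.Injective (fderiv ℝ F x)) :
    ∃ F' : E2 → V3, ContDiff ℝ ∞ F' ∧ (∀ x, Function.Injective (fderiv ℝ F' x)) ∧
      ∃ K' : Set E2, IsCompact K' ∧ ∀ x, x ∉ K' → F' x = F x := by
  have hRo : IsOpen (Rct ε) := by
    have a1 : IsOpen {x : E2 | |x.1| < 1 + ε} :=
      isOpen_lt (continuous_abs.comp continuous_fst) continuous_const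
    have a2 : IsOpen {x : E2 | |x.2| < ε} :=
      isOpen_lt (continuous_abs.comp continuous_snd) continuous_const
    exact a1.inter a2
  obtain ⟨g, P, hg, hP, hg0, hgP, hPp, hgp, hP0, hg1⟩ := exists_loops
  obtain ⟨L, hL, hKL, hLR⟩ := exists_compact_between hK hRo hKR
  obtain ⟨s, hs1, hs0, hs⟩ := exists_contMDiffMap_one_nhds_of_subset_interior (n := ⊤)
    𝓘(ℝ, E2) hK.isClosed hKL
  have hsK : ∀ x ∈ K, s x = 1 := fun x hx => hs1.self_of_nhdsSet x hx
  have hsC : ContDiff ℝ ∞ (fun x : E2 => s x) := s.contMDiff.contDiff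
  -- the function `c`
  obtain ⟨c, hc⟩ : ∃ c : E2 → ℂ, c = fun x => φ x * (b0 x)⁻¹ := ⟨_, rfl⟩
  have hcb : ∀ x ∈ Rct ε, b0 x * c x = φ x := by
    intro x hx
    rw [hc]
    have := hb0 x hx
    field_simp
  have hc1 : ∀ x ∈ Rct ε, x ∉ K → c x = 1 := by
    intro x hx hxK
    have h2 := hbφ x hx hxK
    rw [hc]
    change φ x * (b0 x)⁻¹ = 1
    rw [← h2]
    exact mul_inv_cancel₀ (hb0 x hx)
  have hcC : ∀ x ∈ Rct ε, ContDiffAt ℝ ∞ c x := by
    intro x hx
    rw [hc]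
    have hx' := hRo.mem_nhds hx
    exact ((hφ.contDiffAt hx').mul ((hb.contDiffAt hx').inv (hb0 x hx)))
  obtain ⟨Z, hZ⟩ : ∃ Z : E2 × ℝ → ℂ, Z = fun q => b0 q.1 * P (c q.1) (s q.1) q.2 := ⟨_, rfl⟩
  have hZC : ∀ q : E2 × ℝ, q.1 ∈ Rct ε → ContDiffAt ℝ ∞ Z q := by
    intro q hq
    rw [hZ]
    have hx' := hRo.mem_nhds hq
    have a1 : ContDiffAt ℝ ∞ (fun q : E2 × ℝ => b0 q.1) q :=
      (hb.contDiffAt hx').comp q contDiffAt_fst
    have a2 : ContDiffAt ℝ ∞ (fun q : E2 × ℝ => c q.1) q :=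
      (hcC q.1 hq).comp q contDiffAt_fst
    have a3 : ContDiffAt ℝ ∞ (fun q : E2 × ℝ => s q.1) q :=
      hsC.contDiffAt.comp q contDiffAt_fst
    have a4 : ContDiffAt ℝ ∞ (fun q : E2 × ℝ => P (c q.1) (s q.1) q.2) q :=
      hP.contDiffAt.comp q (a2.prodMk (a3.prodMk contDiffAt_snd))
    exact a1.mul a4
  obtain ⟨Γ, hΓ⟩ : ∃ Γ : E2 × ℝ → V3, Γ = fun q => (Rct ε).indicator
    (fun x => (Z (x, q.2)).re • e x + (Z (x, q.2)).im • f x) q.1 := ⟨_, rfl⟩
  have hΓin : ∀ q : E2 × ℝ, q.1 ∈ Rct ε → Γ q = (Z q).re • e q.1 + (Z q).im • f q.1 := by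
    intro q hq
    rw [hΓ]
    change (Rct ε).indicator (fun x => (Z (x, q.2)).re • e x + (Z (x, q.2)).im • f x) q.1 = _
    rw [indicator_of_mem hq]
  have hΓout : ∀ q : E2 × ℝ, q.1 ∉ L → Γ q = 0 := by
    intro q hq
    by_cases hqR : q.1 ∈ Rct ε
    · have hqK : q.1 ∉ K := fun h => hq (interior_subset (hKL h))
      have h2 : Z q = 0 := by
        rw [hZ]
        change b0 q.1 * P (c q.1) (s q.1) q.2 = 0
        rw [hc1 q.1 hqR hqK, hs0 q.1 hq, hP0, mul_zero]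
      rw [hΓin q hqR, h2]
      simp
    · rw [hΓ]
      change (Rct ε).indicator (fun x => (Z (x, q.2)).re • e x + (Z (x, q.2)).im • f x) q.1 = _
      rw [indicator_of_notMem hqR]
  have hΓC : ContDiff ℝ ∞ Γ := by
    rw [contDiff_iff_contDiffAt]
    intro q
    by_cases hqR : q.1 ∈ Rct ε
    · have hev : Γ =ᶠ[𝓝 q] fun q => (Z q).re • e q.1 + (Z q).im • f q.1 := by
        filter_upwards [(hRo.preimage continuous_fst).mem_nhds hqR] with q' hq'
        exact hΓin q' hq'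
      refine ContDiffAt.congr_of_eventuallyEq ?_ hev
      have hx' := hRo.mem_nhds hqR
      have a1 : ContDiffAt ℝ ∞ (fun q : E2 × ℝ => (Z q).re) q :=
        Complex.reCLM.contDiff.contDiffAt.comp q (hZC q hqR)
      have a2 : ContDiffAt ℝ ∞ (fun q : E2 × ℝ => (Z q).im) q :=
        Complex.imCLM.contDiff.contDiffAt.comp q (hZC q hqR)
      have a3 : ContDiffAt ℝ ∞ (fun q : E2 × ℝ => e q.1) q :=
        (he.contDiffAt hx').comp q contDiffAt_fst
      have a4 : ContDiffAt ℝ ∞ (fun q : E2 × ℝ => f q.1) q :=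
        (hf.contDiffAt hx').comp q contDiffAt_fst
      exact (a1.smul a3).add (a2.smul a4)
    · have hqL : q.1 ∉ L := fun h => hqR (hLR h)
      have hev : Γ =ᶠ[𝓝 q] fun _ => 0 := by
        filter_upwards [(hL.isClosed.isOpen_compl.preimage continuous_fst).mem_nhds hqL]
          with q' hq'
        exact hΓout q' hq'
      exact contDiffAt_const.congr_of_eventuallyEq hev
  have hΓd : Differentiable ℝ Γ := hΓC.differentiable (by simp)
  have hΓp : ∀ x t, Γ (x, t + 2 * Real.pi) = Γ (x, t) := by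
    intro x t
    by_cases hxR : x ∈ Rct ε
    · have h2 : Z (x, t + 2 * Real.pi) = Z (x, t) := by
        rw [hZ]
        change b0 x * P (c x) (s x) (t + 2 * Real.pi) = b0 x * P (c x) (s x) t
        rw [hPp]
      rw [hΓin (x, t + 2 * Real.pi) hxR, hΓin (x, t) hxR, h2]
    · have hxL : x ∉ L := fun h => hxR (hLR h)
      rw [hΓout (x, t + 2 * Real.pi) hxL, hΓout (x, t) hxL]
  have hDp : ∀ x t, fderiv ℝ Γ (x, t + 2 * Real.pi) = fderiv ℝ Γ (x, t) := by
    intro x t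
    have h2 : (fun q : E2 × ℝ => Γ (q + (0, 2 * Real.pi))) = Γ := by
      funext q
      obtain ⟨x, t⟩ := q
      change Γ (x + 0, t + 2 * Real.pi) = Γ (x, t)
      rw [add_zero, hΓp]
    have h3 := fderiv_comp_add_right (𝕜 := ℝ) (f := Γ) (x := (x, t)) ((0, 2 * Real.pi) : E2 × ℝ)
    rw [h2] at h3
    rw [h3]
    congr 1
    ext <;> simp
  have hDt : ∀ x ∈ Rct ε, ∀ t, fderiv ℝ Γ (x, t) (0, 1) =
      (b0 x * (g (c x) (s x) t - c x)).re • e x + (b0 x * (g (c x) (s x) t - c x)).im • f x := by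
    intro x hx t
    have h2 : s x = 1 ∨ c x = 1 := by
      by_cases hxK : x ∈ K
      · exact Or.inl (hsK x hxK)
      · exact Or.inr (hc1 x hx hxK)
    have h3 : HasDerivAt (fun t => Z (x, t)) (b0 x * (g (c x) (s x) t - c x)) t := by
      rw [hZ]
      exact (hgP (c x) (s x) t (hs x) h2).const_mul (b0 x)
    have h4 : HasDerivAt (fun t => (Z (x, t)).re) (b0 x * (g (c x) (s x) t - c x)).re t :=
      Complex.reCLM.hasFDerivAt.comp_hasDerivAt t h3
    have h5 : HasDerivAt (fun t => (Z (x, t)).im) (b0 x * (g (c x) (s x) t - c x)).im t :=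
      Complex.imCLM.hasFDerivAt.comp_hasDerivAt t h3
    have h6 := (h4.smul_const (e x)).add (h5.smul_const (f x))
    have h7 : HasDerivAt (fun t => Γ (x, t)) (fderiv ℝ Γ (x, t) (0, 1)) t :=
      (hΓd (x, t)).hasFDerivAt.comp_hasDerivAt t
        ((hasDerivAt_const t x).prodMk (hasDerivAt_id t))
    have h8 : (fun t => Γ (x, t)) = fun t => (Z (x, t)).re • e x + (Z (x, t)).im • f x := by
      funext t
      exact hΓin (x, t) hx
    rw [h8] at h7
    exact h7.unique h6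
  -- the two families of linear maps
  have hFD : Differentiable ℝ F := hF.differentiable (by simp)
  have hFc : Continuous (fderiv ℝ F) := hF.continuous_fderiv (by simp)
  have hΓc : Continuous (fderiv ℝ Γ) := hΓC.continuous_fderiv (by simp)
  obtain ⟨A, hA⟩ : ∃ A : E2 × ℝ → E2 →L[ℝ] V3, A = fun q => fderiv ℝ F q.1 +
    ((fderiv ℝ Γ q).comp ((ContinuousLinearMap.inr ℝ E2 ℝ).comp
      (ContinuousLinearMap.fst ℝ ℝ ℝ))) := ⟨_, rfl⟩
  obtain ⟨R, hR⟩ : ∃ R : E2 × ℝ → E2 →L[ℝ] V3, R = fun q =>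
    (fderiv ℝ Γ q).comp (ContinuousLinearMap.inl ℝ E2 ℝ) := ⟨_, rfl⟩
  have hAc : Continuous A := by
    rw [hA]
    exact (hFc.comp continuous_fst).add (hΓc.clm_comp continuous_const)
  have hRc : Continuous R := by
    rw [hR]
    exact hΓc.clm_comp continuous_const
  have hAi : ∀ x ∈ L, ∀ t, Function.Injective (A (x, t)) := by
    intro x hx t
    have hxR := hLR hx
    rw [injective_iff_map_eq_zero]
    intro v hv
    obtain ⟨z, hz⟩ : ∃ z : ℂ, z = b0 x * g (c x) (s x) t := ⟨_, rfl⟩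
    have hz0 : z ≠ 0 := by
      rw [hz]
      exact mul_ne_zero (hb0 x hxR) (hg0 _ _ _ (hs x))
    have h2 : A (x, t) v = fderiv ℝ F x v + v.1 • fderiv ℝ Γ (x, t) (0, 1) := by
      rw [hA]
      change fderiv ℝ F x v + fderiv ℝ Γ (x, t) (0, v.1) = _
      have h3 : ((0, v.1) : E2 × ℝ) = v.1 • ((0, 1) : E2 × ℝ) := by
        ext <;> simp
      rw [h3, map_smul]
    have h4 : v = v.1 • e1 + v.2 • e2 := by
      unfold e1 e2
      ext <;> simp
    have h5 : fderiv ℝ F x v = v.1 • fderiv ℝ F x e1 + v.2 • fderiv ℝ F x e2 := by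
      conv_lhs => rw [h4]
      rw [map_add, map_smul, map_smul]
    have h6 : b0 x * (g (c x) (s x) t - c x) = z - φ x := by
      rw [mul_sub, hcb x hxR, hz]
    rw [h2, h5, hDt x hxR t, h6, h1 x hxR, Complex.sub_re, Complex.sub_im] at hv
    have h7 : (v.1 * μ x + v.2) • fderiv ℝ F x e2 + (v.1 * z.re) • e x + (v.1 * z.im) • f x
        = 0 := by
      rw [← hv]
      module
    obtain ⟨h8, h9, h10⟩ := K5_det3_indep (hdet x hxR) h7
    have h11 : v.1 = 0 := by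
      by_contra hne
      apply hz0
      apply Complex.ext
      · simpa using (mul_eq_zero.mp h9).resolve_left hne
      · simpa using (mul_eq_zero.mp h10).resolve_left hne
    have h12 : v.2 = 0 := by
      rw [h11, zero_mul, zero_add] at h8
      exact h8
    exact Prod.ext h11 h12
  obtain ⟨η, hη, hinj⟩ := K5_unif hAc hRc
    (fun x t => by rw [hA]; change fderiv ℝ F x + (fderiv ℝ Γ (x, t + 2 * Real.pi)).comp _ = fderiv ℝ F x + (fderiv ℝ Γ (x, t)).comp _; rw [hDp])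
    (fun x t => by rw [hR]; change (fderiv ℝ Γ (x, t + 2 * Real.pi)).comp _ = (fderiv ℝ Γ (x, t)).comp _; rw [hDp])
    hL hAi
  refine ⟨fun x => F x + η • Γ (x, η⁻¹ * x.1), ?_, ?_, L, hL, ?_⟩
  · have a1 : ContDiff ℝ ∞ (fun x : E2 => (x, η⁻¹ * x.1)) :=
      contDiff_id.prodMk (contDiff_const.mul contDiff_fst)
    exact hF.add ((hΓC.comp a1).const_smul η)
  · intro x
    by_cases hx : x ∈ L
    · have h2 : HasFDerivAt (fun x : E2 => F x + η • Γ (x, η⁻¹ * x.1))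
          (A (x, η⁻¹ * x.1) + η • R (x, η⁻¹ * x.1)) x := by
        have h3 : HasFDerivAt (fun x : E2 => (x, η⁻¹ * x.1))
            ((ContinuousLinearMap.id ℝ E2).prod (η⁻¹ • ContinuousLinearMap.fst ℝ ℝ ℝ)) x :=
          (hasFDerivAt_id x).prodMk (hasFDerivAt_fst.const_mul η⁻¹)
        have h4 := (hΓd (x, η⁻¹ * x.1)).hasFDerivAt.comp x h3
        have h5 := (hFD x).hasFDerivAt.add (h4.const_smul η)
        refine h5.congr_fderiv ?_
        refine ContinuousLinearMap.ext fun v => ?_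
        rw [hA, hR]
        change fderiv ℝ F x v + η • fderiv ℝ Γ (x, η⁻¹ * x.1) (v, η⁻¹ * v.1) =
          (fderiv ℝ F x v + fderiv ℝ Γ (x, η⁻¹ * x.1) (0, v.1)) +
            η • fderiv ℝ Γ (x, η⁻¹ * x.1) (v, 0)
        have h6 : η • ((v, η⁻¹ * v.1) : E2 × ℝ) = (0, v.1) + η • ((v, 0) : E2 × ℝ) := by
          have h7 : η * (η⁻¹ * v.1) = v.1 := by
            rw [← mul_assoc, mul_inv_cancel₀ hη.ne', one_mul]
          ext
          · simp
          · simp
          · simp [h7]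
        rw [← map_smul, h6, map_add, map_smul, add_assoc]
      rw [h2.fderiv]
      exact hinj x hx _
    · have hev : (fun x : E2 => F x + η • Γ (x, η⁻¹ * x.1)) =ᶠ[𝓝 x] F := by
        filter_upwards [hL.isClosed.isOpen_compl.mem_nhds hx] with y hy
        have hy' : Γ (y, η⁻¹ * y.1) = 0 := hΓout (y, η⁻¹ * y.1) hy
        rw [hy', smul_zero, add_zero]
      rw [hev.fderiv_eq]
      exact hi x fun h => hx (interior_subset (hKL h))
  · intro x hx
    change F x + η • Γ (x, η⁻¹ * x.1) = F x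
    rw [hΓout (x, η⁻¹ * x.1) hx, smul_zero, add_zero]

end P205F
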