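import Vale.Agent.Lib.P205I.K1
import Vale.Agent.Lib.P205I.K4
import Vale.Agent.Lib.P205I.K5

/-!
# P205I K6: the planar cancellation theorem

Transport: if `h, k` are mutually inverse smooth maps of the plane and the conclusion holds for `F ∘ h` then it holds for
`F` (`F' ∘ k`).  Step 1: `h(x) = (c₁+c₂)/2 + x₁ (c₂-c₁)/2 + x₂ w` with `w` not parallel to `c₂-c₁`, not in
`ker DF(c₁) ∪ ker DF(c₂)`.  Step 2: if the signs `sgC` at the two points are equal, compose with the twist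
`h(x) = c₂ + Rot(π χ(|x-c₂|²)) (x - c₂)`, `χ = 1` near `0`, `χ(r²) = 0` for `r ≥ 1/2` (inverse: the opposite twist); near `c₂`,
`F ∘ h = F(2c₂ - x)`, so `∂_jF` changes sign, second derivatives do not, and `sgC` changes its sign; `∂₂(F ∘ h) ≠ 0`
everywhere because `F` is an immersion off `c₁, c₂`.
-/

noncomputable section

namespace P205F

open scoped Manifold ContDiff Topology RealInnerProductSpace
open Set

set_option maxSynthPendingDepth 3

theorem planar_special {F : E2 → V3} (hF : ContDiff ℝ ∞ F) (hb : ∀ x, fderiv ℝ F x e2 ≠ 0)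
    (hi : ∀ x, x ≠ (-1, 0) → x ≠ (1, 0) → Function.Injective (fderiv ℝ F x)) {μ₁ μ₂ : ℝ}
    (h1 : fderiv ℝ F (-1, 0) e1 = μ₁ • fderiv ℝ F (-1, 0) e2)
    (h2 : fderiv ℝ F (1, 0) e1 = μ₂ • fderiv ℝ F (1, 0) e2)
    (hs : sgC F (-1, 0) μ₁ * sgC F (1, 0) μ₂ < 0) :
    ∃ F' : E2 → V3, ContDiff ℝ ∞ F' ∧ (∀ x, Function.Injective (fderiv ℝ F' x)) ∧
      ∃ K' : Set E2, IsCompact K' ∧ ∀ x, x ∉ K' → F' x = F x := by
  obtain ⟨ε, hε, e, f, φ, μ, he, hf, hφ, hdet, hD, hz, hj⟩ := exists_frame hF hb hi h1 h2 hs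
  obtain ⟨b0, hb0, hne, K, hKR, hK, hbK⟩ := exists_b0 hε hφ hz hj
  refine corrugate hF hε he hf hφ hb0 hdet hD hne hK hKR hbK fun x hx => hi x ?_ ?_
  · rintro rfl
    have hm : ((-1, 0) : E2) ∈ Rct ε := by
      constructor
      · change |(-1 : ℝ)| < 1 + ε
        rw [abs_neg, abs_one]
        linarith
      · change |(0 : ℝ)| < ε
        rw [abs_zero]
        exact hε
    exact hne _ hm ((hbK _ hm hx).trans ((hz _ hm).2 (Or.inl rfl)))
  · rintro rfl
    have hm : ((1, 0) : E2) ∈ Rct ε := by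
      constructor
      · change |(1 : ℝ)| < 1 + ε
        rw [abs_one]
        linarith
      · change |(0 : ℝ)| < ε
        rw [abs_zero]
        exact hε
    exact hne _ hm ((hbK _ hm hx).trans ((hz _ hm).2 (Or.inr rfl)))

/-- derivatives of invertible maps are injective -/
theorem K6_inj {h k : E2 → E2} (hh : ContDiff ℝ ∞ h) (hk : ContDiff ℝ ∞ k)
    (hkh : ∀ x, k (h x) = x) (x : E2) : Function.Injective (fderiv ℝ h x) := by
  have h1 : HasFDerivAt (fun y => k (h y)) ((fderiv ℝ k (h x)).comp (fderiv ℝ h x)) x :=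
    HasFDerivAt.comp x ((hk.differentiable (by simp)).differentiableAt.hasFDerivAt)
      ((hh.differentiable (by simp)).differentiableAt.hasFDerivAt)
  have h2 : HasFDerivAt (fun y => k (h y)) (ContinuousLinearMap.id ℝ E2) x := by
    have e : (fun y => k (h y)) = id := funext hkh
    rw [e]
    exact hasFDerivAt_id x
  have h3 := h1.unique h2
  intro a b hab
  have h4 := congrArg (fun L : E2 →L[ℝ] E2 => L a) h3
  have h5 := congrArg (fun L : E2 →L[ℝ] E2 => L b) h3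
  simp only [ContinuousLinearMap.comp_apply, ContinuousLinearMap.id_apply] at h4 h5
  rw [← h4, ← h5, hab]

theorem K6_comp_fderiv {F : E2 → V3} {h : E2 → E2} (hF : ContDiff ℝ ∞ F) (hh : ContDiff ℝ ∞ h)
    (x : E2) : fderiv ℝ (F ∘ h) x = (fderiv ℝ F (h x)).comp (fderiv ℝ h x) :=
  fderiv_comp x ((hF.differentiable (by simp)).differentiableAt)
    ((hh.differentiable (by simp)).differentiableAt)

/-- transport by a diffeomorphism of the plane -/
theorem K6_transport {F : E2 → V3} {h k : E2 → E2} (hh : ContDiff ℝ ∞ h) (hk : ContDiff ℝ ∞ k)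
    (hhk : ∀ x, h (k x) = x)
    (H : ∃ F' : E2 → V3, ContDiff ℝ ∞ F' ∧ (∀ x, Function.Injective (fderiv ℝ F' x)) ∧
      ∃ K' : Set E2, IsCompact K' ∧ ∀ x, x ∉ K' → F' x = (F ∘ h) x) :
    ∃ F' : E2 → V3, ContDiff ℝ ∞ F' ∧ (∀ x, Function.Injective (fderiv ℝ F' x)) ∧
      ∃ K' : Set E2, IsCompact K' ∧ ∀ x, x ∉ K' → F' x = F x := by
  obtain ⟨F1, hF1, hi1, K1, hK1, heq⟩ := H
  refine ⟨F1 ∘ k, hF1.comp hk, fun x => ?_, h '' K1, hK1.image hh.continuous, fun x hx => ?_⟩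
  · rw [K6_comp_fderiv hF1 hk]
    exact (hi1 (k x)).comp (K6_inj hk hh hhk x)
  · have h1 : k x ∉ K1 := fun h2 => hx ⟨k x, h2, hhk x⟩
    have h3 := heq (k x) h1
    change F1 (k x) = F (h (k x)) at h3
    rw [hhk] at h3
    exact h3

theorem K6_expand (L : E2 →L[ℝ] V3) (a : E2) : L a = a.1 • L e1 + a.2 • L e2 := by
  have h : a = a.1 • e1 + a.2 • e2 := by
    simp [e1, e2]
  conv_lhs => rw [h]
  rw [map_add, map_smul, map_smul]

/-- three vectors of zero determinant are dependent -/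
theorem K6_det {a b c : V3} (h : det3 a b c = 0) :
    ∃ x y z : ℝ, (x ≠ 0 ∨ y ≠ 0 ∨ z ≠ 0) ∧ x • a + y • b + z • c = 0 := by
  have h1 : (Matrix.of ![fun i => a i, fun i => b i, fun i => c i] : Matrix (Fin 3) (Fin 3) ℝ).det
      = 0 := by
    rw [Matrix.det_fin_three, ← h]
    simp only [det3, Matrix.of_apply, Matrix.cons_val_zero, Matrix.cons_val_one, Matrix.cons_val]
    ring
  obtain ⟨v, hv, hM⟩ := Matrix.exists_vecMul_eq_zero_iff.2 h1
  refine ⟨v 0, v 1, v 2, ?_, ?_⟩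
  · by_contra hcon
    push Not at hcon
    apply hv
    funext i
    fin_cases i
    · exact hcon.1
    · exact hcon.2.1
    · exact hcon.2.2
  · ext i
    have h2 := congrFun hM i
    simp only [Matrix.vecMul, dotProduct, Fin.sum_univ_three, Matrix.of_apply,
      Matrix.cons_val_zero, Matrix.cons_val_one, Matrix.cons_val, Pi.zero_apply] at h2
    simpa using h2

theorem K6_mu {F : E2 → V3} (hF : ContDiff ℝ ∞ F) {c : E2} (h : CC F c)
    (h2 : fderiv ℝ F c e2 ≠ 0) :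
    ∃ μ : ℝ, fderiv ℝ F c e1 = μ • fderiv ℝ F c e2 ∧ sgC F c μ ≠ 0 := by
  obtain ⟨n, hn0, hn, -, hcc⟩ := h
  have hn' := hn
  rw [K6_expand] at hn'
  have ha : n.1 ≠ 0 := by
    intro ha
    rw [ha, zero_smul, zero_add] at hn'
    rcases smul_eq_zero.1 hn' with hb | hb
    · exact hn0 (Prod.ext ha hb)
    · exact h2 hb
  refine ⟨-(n.2 / n.1), ?_, ?_⟩
  · have h3 : n.1 • fderiv ℝ F c e1 = n.1 • ((-(n.2 / n.1)) • fderiv ℝ F c e2) := by
      rw [smul_smul]
      have e : n.1 * -(n.2 / n.1) = -n.2 := by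
        field_simp
      rw [e, neg_smul]
      exact eq_neg_of_add_eq_zero_left hn'
    exact smul_right_injective _ ha h3
  · set μ := -(n.2 / n.1) with hμ
    intro hs
    unfold sgC at hs
    obtain ⟨x, y, z, hne, hsum⟩ := K6_det hs
    have en : n = n.1 • ((1, -μ) : E2) := by
      refine Prod.ext ?_ ?_
      · change n.1 = n.1 * 1
        rw [mul_one]
      · change n.2 = n.1 * -μ
        rw [hμ]
        field_simp
    have e3 : (fun y => fderiv ℝ F y n) = fun y => n.1 • fderiv ℝ F y ((1, -μ) : E2) := by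
      funext y
      conv_lhs => rw [en]
      rw [map_smul]
    have hd : DifferentiableAt ℝ (fun y => fderiv ℝ F y ((1, -μ) : E2)) c := by
      have h4 : ContDiff ℝ ∞ (fun y => fderiv ℝ F y) :=
        hF.fderiv_right (m := ∞) (by simp)
      have h5 : ContDiff ℝ ∞ (fun y => fderiv ℝ F y ((1, -μ) : E2)) :=
        h4.clm_apply contDiff_const
      exact (h5.differentiable (by simp)).differentiableAt
    have e4 : ∀ u : E2, fderiv ℝ (fun y => fderiv ℝ F y n) c u =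
        n.1 • fderiv ℝ (fun y => fderiv ℝ F y ((1, -μ) : E2)) c u := by
      intro u
      rw [e3, fderiv_fun_const_smul hd, smul_apply]
    have h6 := hcc (x, y) (0, n.1 * z) (by
      rw [e4, K6_expand, K6_expand (fderiv ℝ F c)]
      change n.1 • (x • _ + y • _) + ((0 : ℝ) • _ + (n.1 * z) • _) = 0
      rw [zero_smul, zero_add, mul_smul, ← smul_add]
      rw [hsum, smul_zero])
    have hx : x = 0 := congrArg Prod.fst h6
    have hy : y = 0 := congrArg Prod.snd h6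
    rw [hx, hy, zero_smul, zero_smul, zero_add, zero_add] at hsum
    rcases smul_eq_zero.1 hsum with hz | hz
    · rcases hne with h7 | h7 | h7
      · exact h7 hx
      · exact h7 hy
      · exact h7 hz
    · exact h2 hz

theorem K6_ker {L : E2 →L[ℝ] V3} {n w : E2} (hn : L n = 0) (hw : L w = 0)
    (hd : n.1 * w.2 - n.2 * w.1 ≠ 0) : L = 0 := by
  have h1 : (n.1 * w.2 - n.2 * w.1) • L e1 = 0 := by
    have e : (n.1 * w.2 - n.2 * w.1) • e1 = w.2 • n - n.2 • w := by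
      refine Prod.ext ?_ ?_
      · simp only [e1, Prod.smul_fst, Prod.fst_sub, smul_eq_mul]
        ring
      · simp only [e1, Prod.smul_snd, Prod.snd_sub, smul_eq_mul]
        ring
    rw [← map_smul, e, map_sub, map_smul, map_smul, hn, hw, smul_zero, smul_zero, sub_zero]
  have h2 : (n.1 * w.2 - n.2 * w.1) • L e2 = 0 := by
    have e : (n.1 * w.2 - n.2 * w.1) • e2 = n.1 • w - w.1 • n := by
      refine Prod.ext ?_ ?_
      · simp only [e2, Prod.smul_fst, Prod.fst_sub, smul_eq_mul]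
        ring
      · simp only [e2, Prod.smul_snd, Prod.snd_sub, smul_eq_mul]
        ring
    rw [← map_smul, e, map_sub, map_smul, map_smul, hn, hw, smul_zero, smul_zero, sub_zero]
  have h3 := (smul_eq_zero.1 h1).resolve_left hd
  have h4 := (smul_eq_zero.1 h2).resolve_left hd
  refine ContinuousLinearMap.ext fun a => ?_
  rw [K6_expand, h3, h4, smul_zero, smul_zero, add_zero]
  rfl

theorem K6_ne {a : E2} (ha : a ≠ 0) {t : ℝ} (ht : t ≠ a.2 / a.1) : a.1 * t - a.2 * 1 ≠ 0 := by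
  intro h
  by_cases h1 : a.1 = 0
  · apply ha
    refine Prod.ext h1 ?_
    rw [h1] at h
    change a.2 = 0
    linarith
  · apply ht
    rw [eq_div_iff h1]
    linarith

theorem K6_avoid {a b c : E2} (ha : a ≠ 0) (hb : b ≠ 0) (hc : c ≠ 0) :
    ∃ t : ℝ, a.1 * t - a.2 * 1 ≠ 0 ∧ b.1 * t - b.2 * 1 ≠ 0 ∧ c.1 * t - c.2 * 1 ≠ 0 := by
  classical
  obtain ⟨t, ht⟩ := Infinite.exists_notMem_finset ({a.2 / a.1, b.2 / b.1, c.2 / c.1} : Finset ℝ)
  simp only [Finset.mem_insert, Finset.mem_singleton, not_or] at ht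
  exact ⟨t, K6_ne ha ht.1, K6_ne hb ht.2.1, K6_ne hc ht.2.2⟩

/-- an affine change of coordinates -/
theorem K6_affine {F : E2 → V3} (hF : ContDiff ℝ ∞ F) {c₁ c₂ : E2} (hne : c₁ ≠ c₂)
    (h1 : CC F c₁) (h2 : CC F c₂)
    (hi : ∀ x, x ≠ c₁ → x ≠ c₂ → Function.Injective (fderiv ℝ F x)) :
    ∃ h k : E2 → E2, ContDiff ℝ ∞ h ∧ ContDiff ℝ ∞ k ∧ (∀ x, k (h x) = x) ∧ (∀ x, h (k x) = x) ∧
      h (-1, 0) = c₁ ∧ h (1, 0) = c₂ ∧ ∀ x, fderiv ℝ (F ∘ h) x e2 ≠ 0 := by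
  obtain ⟨n1, hn1, hk1, hz1, -⟩ := h1
  obtain ⟨n2, hn2, hk2, hz2, -⟩ := h2
  set v : E2 := (1 / 2 : ℝ) • (c₂ - c₁) with hv
  set m : E2 := (1 / 2 : ℝ) • (c₁ + c₂) with hm
  have hv0 : v ≠ 0 := by
    intro h
    rcases smul_eq_zero.1 h with h | h
    · norm_num at h
    · exact hne (sub_eq_zero.1 h).symm
  obtain ⟨t, ht1, ht2, ht3⟩ := K6_avoid hn1 hn2 hv0
  set w : E2 := (1, t) with hw
  set L : E2 →L[ℝ] E2 := (ContinuousLinearMap.fst ℝ ℝ ℝ).smulRight v +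
    (ContinuousLinearMap.snd ℝ ℝ ℝ).smulRight w with hL
  have hLx : ∀ x : E2, L x = x.1 • v + x.2 • w := fun x => rfl
  set D : ℝ := v.1 * t - v.2 * 1 with hD
  set h : E2 → E2 := fun x => m + L x with hh
  set k : E2 → E2 := fun y => (((y.1 - m.1) * t - (y.2 - m.2)) / D,
    (v.1 * (y.2 - m.2) - v.2 * (y.1 - m.1)) / D) with hk
  have hhs : ContDiff ℝ ∞ h := contDiff_const.add L.contDiff
  have hks : ContDiff ℝ ∞ k := by
    refine ContDiff.prodMk ?_ ?_
    · exact (((contDiff_fst.sub contDiff_const).mul contDiff_const).sub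
        (contDiff_snd.sub contDiff_const)).div_const _
    · exact ((contDiff_const.mul (contDiff_snd.sub contDiff_const)).sub
        (contDiff_const.mul (contDiff_fst.sub contDiff_const))).div_const _
  have hd : ∀ x, fderiv ℝ h x = L := fun x => (L.hasFDerivAt.const_add m).fderiv
  refine ⟨h, k, hhs, hks, ?_, ?_, ?_, ?_, ?_⟩
  · intro x
    refine Prod.ext ?_ ?_
    · change ((m.1 + (x.1 * v.1 + x.2 * 1) - m.1) * t - (m.2 + (x.1 * v.2 + x.2 * t) - m.2)) / D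
        = x.1
      rw [div_eq_iff ht3]
      ring
    · change (v.1 * (m.2 + (x.1 * v.2 + x.2 * t) - m.2) -
        v.2 * (m.1 + (x.1 * v.1 + x.2 * 1) - m.1)) / D = x.2
      rw [div_eq_iff ht3]
      ring
  · intro y
    refine Prod.ext ?_ ?_
    · change m.1 + (((y.1 - m.1) * t - (y.2 - m.2)) / D * v.1 +
        (v.1 * (y.2 - m.2) - v.2 * (y.1 - m.1)) / D * 1) = y.1
      have : ((y.1 - m.1) * t - (y.2 - m.2)) / D * v.1 +
        (v.1 * (y.2 - m.2) - v.2 * (y.1 - m.1)) / D * 1 = (y.1 - m.1) * (D / D) := by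
        rw [hD]
        ring
      rw [this, div_self ht3]
      ring
    · change m.2 + (((y.1 - m.1) * t - (y.2 - m.2)) / D * v.2 +
        (v.1 * (y.2 - m.2) - v.2 * (y.1 - m.1)) / D * t) = y.2
      have : ((y.1 - m.1) * t - (y.2 - m.2)) / D * v.2 +
        (v.1 * (y.2 - m.2) - v.2 * (y.1 - m.1)) / D * t = (y.2 - m.2) * (D / D) := by
        rw [hD]
        ring
      rw [this, div_self ht3]
      ring
  · refine Prod.ext ?_ ?_
    · change 1 / 2 * (c₁.1 + c₂.1) + (-1 * (1 / 2 * (c₂.1 - c₁.1)) + 0 * 1) = c₁.1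
      ring
    · change 1 / 2 * (c₁.2 + c₂.2) + (-1 * (1 / 2 * (c₂.2 - c₁.2)) + 0 * t) = c₁.2
      ring
  · refine Prod.ext ?_ ?_
    · change 1 / 2 * (c₁.1 + c₂.1) + (1 * (1 / 2 * (c₂.1 - c₁.1)) + 0 * 1) = c₂.1
      ring
    · change 1 / 2 * (c₁.2 + c₂.2) + (1 * (1 / 2 * (c₂.2 - c₁.2)) + 0 * t) = c₂.2
      ring
  · intro x
    rw [K6_comp_fderiv hF hhs, hd, ContinuousLinearMap.comp_apply]
    have hw2 : L e2 = w := by
      rw [hLx]
      change (0 : ℝ) • v + (1 : ℝ) • w = w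
      rw [zero_smul, zero_add, one_smul]
    rw [hw2]
    intro hzero
    by_cases hx1 : h x = c₁
    · rw [hx1] at hzero
      exact hz1 (K6_ker hk1 hzero ht1)
    · by_cases hx2 : h x = c₂
      · rw [hx2] at hzero
        exact hz2 (K6_ker hk2 hzero ht2)
      · have h3 := hi _ hx1 hx2 (hzero.trans (map_zero _).symm)
        have h4 : (1 : ℝ) = 0 := congrArg Prod.fst h3
        exact one_ne_zero h4

/-- the angle of the twist -/
def K6_th (x : E2) : ℝ :=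
  Real.pi * Real.smoothTransition (2 - 4 * ((x.1 - 1) ^ 2 + x.2 ^ 2))

/-- the twist about `(1, 0)` -/
def K6_tw (s : ℝ) (x : E2) : E2 :=
  (1 + (Real.cos (s * K6_th x) * (x.1 - 1) - Real.sin (s * K6_th x) * x.2),
    Real.sin (s * K6_th x) * (x.1 - 1) + Real.cos (s * K6_th x) * x.2)

theorem K6_th_smooth : ContDiff ℝ ∞ K6_th := by
  unfold K6_th
  refine contDiff_const.mul (Real.smoothTransition.contDiff.comp ?_)
  fun_prop

theorem K6_tw_smooth (s : ℝ) : ContDiff ℝ ∞ (K6_tw s) := by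
  have h1 : ContDiff ℝ ∞ (fun x => s * K6_th x) := contDiff_const.mul K6_th_smooth
  have hx : ContDiff ℝ ∞ (fun x : E2 => x.1 - 1) := contDiff_fst.sub contDiff_const
  unfold K6_tw
  exact (contDiff_const.add ((h1.cos.mul hx).sub (h1.sin.mul contDiff_snd))).prodMk
    ((h1.sin.mul hx).add (h1.cos.mul contDiff_snd))

theorem K6_th_tw (s : ℝ) (x : E2) : K6_th (K6_tw s x) = K6_th x := by
  have h : ((K6_tw s x).1 - 1) ^ 2 + (K6_tw s x).2 ^ 2 = (x.1 - 1) ^ 2 + x.2 ^ 2 := by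
    change (1 + (Real.cos (s * K6_th x) * (x.1 - 1) - Real.sin (s * K6_th x) * x.2) - 1) ^ 2 +
      (Real.sin (s * K6_th x) * (x.1 - 1) + Real.cos (s * K6_th x) * x.2) ^ 2 = _
    have h1 := Real.sin_sq_add_cos_sq (s * K6_th x)
    linear_combination ((x.1 - 1) ^ 2 + x.2 ^ 2) * h1
  unfold K6_th
  rw [h]

theorem K6_tw_inv (s : ℝ) (x : E2) : K6_tw (-s) (K6_tw s x) = x := by
  have h0 := K6_th_tw s x
  have h1 := Real.sin_sq_add_cos_sq (s * K6_th x)
  refine Prod.ext ?_ ?_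
  · change 1 + (Real.cos (-s * K6_th (K6_tw s x)) *
      (1 + (Real.cos (s * K6_th x) * (x.1 - 1) - Real.sin (s * K6_th x) * x.2) - 1) -
      Real.sin (-s * K6_th (K6_tw s x)) *
      (Real.sin (s * K6_th x) * (x.1 - 1) + Real.cos (s * K6_th x) * x.2)) = x.1
    rw [h0, neg_mul, Real.cos_neg, Real.sin_neg]
    linear_combination (x.1 - 1) * h1
  · change Real.sin (-s * K6_th (K6_tw s x)) *
      (1 + (Real.cos (s * K6_th x) * (x.1 - 1) - Real.sin (s * K6_th x) * x.2) - 1) +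
      Real.cos (-s * K6_th (K6_tw s x)) *
      (Real.sin (s * K6_th x) * (x.1 - 1) + Real.cos (s * K6_th x) * x.2) = x.2
    rw [h0, neg_mul, Real.cos_neg, Real.sin_neg]
    linear_combination x.2 * h1

theorem K6_tw_far (s : ℝ) {x : E2} (hx : 1 / 2 ≤ (x.1 - 1) ^ 2 + x.2 ^ 2) : K6_tw s x = x := by
  have h : K6_th x = 0 := by
    unfold K6_th
    rw [Real.smoothTransition.zero_of_nonpos (by linarith), mul_zero]
  unfold K6_tw
  rw [h, mul_zero, Real.cos_zero, Real.sin_zero]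
  refine Prod.ext ?_ ?_
  · change 1 + (1 * (x.1 - 1) - 0 * x.2) = x.1
    ring
  · change 0 * (x.1 - 1) + 1 * x.2 = x.2
    ring

theorem K6_tw_near {x : E2} (hx : (x.1 - 1) ^ 2 + x.2 ^ 2 ≤ 1 / 4) :
    K6_tw 1 x = ((2 : ℝ), (0 : ℝ)) - x := by
  have h : K6_th x = Real.pi := by
    unfold K6_th
    rw [Real.smoothTransition.one_of_one_le (by linarith), mul_one]
  unfold K6_tw
  rw [h, one_mul, Real.cos_pi, Real.sin_pi]
  refine Prod.ext ?_ ?_
  · change 1 + (-1 * (x.1 - 1) - 0 * x.2) = 2 - x.1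
    ring
  · change 0 * (x.1 - 1) + -1 * x.2 = 0 - x.2
    ring

theorem K6_sg_congr {F G : E2 → V3} {c : E2} (h : F =ᶠ[𝓝 c] G) (μ : ℝ) :
    sgC F c μ = sgC G c μ := by
  have h1 := h.fderiv (𝕜 := ℝ)
  have h2 : (fun y => fderiv ℝ F y ((1, -μ) : E2)) =ᶠ[𝓝 c]
      fun y => fderiv ℝ G y ((1, -μ) : E2) := by
    filter_upwards [h1] with y hy
    rw [hy]
  unfold sgC
  rw [h2.fderiv_eq, h.fderiv_eq]

theorem K6_sg_neg {F G : E2 → V3} (hF : ContDiff ℝ ∞ F) {c : E2}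
    (h : G =ᶠ[𝓝 c] fun y => F (c + c - y)) (μ : ℝ) :
    fderiv ℝ G c = -fderiv ℝ F c ∧ sgC G c μ = -sgC F c μ := by
  have hsub : ∀ y : E2, HasFDerivAt (fun y : E2 => c + c - y) (-ContinuousLinearMap.id ℝ E2) y :=
    fun y => (hasFDerivAt_id y).const_sub (c + c)
  have hFd : ∀ y : E2, HasFDerivAt F (fderiv ℝ F y) y := fun y =>
    ((hF.differentiable (by simp)).differentiableAt).hasFDerivAt
  have hder : ∀ y : E2, fderiv ℝ (fun y => F (c + c - y)) y = -fderiv ℝ F (c + c - y) := by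
    intro y
    have h1 := HasFDerivAt.comp y (hFd (c + c - y)) (hsub y)
    have h2 := h1.fderiv
    rw [ContinuousLinearMap.comp_neg, ContinuousLinearMap.comp_id] at h2
    exact h2
  have hcc : c + c - c = c := by abel
  have h1 : fderiv ℝ G c = -fderiv ℝ F c := by
    rw [h.fderiv_eq, hder, hcc]
  refine ⟨h1, ?_⟩
  have h2 : (fun y => fderiv ℝ G y ((1, -μ) : E2)) =ᶠ[𝓝 c]
      fun y => -(fderiv ℝ F (c + c - y) ((1, -μ) : E2)) := by
    filter_upwards [h.fderiv (𝕜 := ℝ)] with y hy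
    rw [hy, hder]
    rfl
  have h4 : ContDiff ℝ ∞ (fun y => fderiv ℝ F y ((1, -μ) : E2)) :=
    (hF.fderiv_right (m := ∞) (by simp)).clm_apply contDiff_const
  have h5 : HasFDerivAt (fun y => fderiv ℝ F y ((1, -μ) : E2))
      (fderiv ℝ (fun y => fderiv ℝ F y ((1, -μ) : E2)) (c + c - c)) (c + c - c) :=
    ((h4.differentiable (by simp)).differentiableAt).hasFDerivAt
  have h6 := (HasFDerivAt.comp c h5 (hsub c)).neg
  rw [hcc, ContinuousLinearMap.comp_neg, ContinuousLinearMap.comp_id, neg_neg] at h6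
  have h7 : fderiv ℝ (fun y => fderiv ℝ G y ((1, -μ) : E2)) c =
      fderiv ℝ (fun y => fderiv ℝ F y ((1, -μ) : E2)) c := by
    rw [h2.fderiv_eq]
    exact h6.fderiv
  unfold sgC
  rw [h7, h1, neg_apply]
  simp only [det3, PiLp.neg_apply]
  ring

theorem K6_twist {F : E2 → V3} (hF : ContDiff ℝ ∞ F) (hb : ∀ x, fderiv ℝ F x e2 ≠ 0)
    (hi : ∀ x, x ≠ (-1, 0) → x ≠ (1, 0) → Function.Injective (fderiv ℝ F x)) {μ₁ μ₂ : ℝ}
    (h1 : fderiv ℝ F (-1, 0) e1 = μ₁ • fderiv ℝ F (-1, 0) e2)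
    (h2 : fderiv ℝ F (1, 0) e1 = μ₂ • fderiv ℝ F (1, 0) e2)
    (hs : 0 < sgC F (-1, 0) μ₁ * sgC F (1, 0) μ₂) :
    ∃ F' : E2 → V3, ContDiff ℝ ∞ F' ∧ (∀ x, Function.Injective (fderiv ℝ F' x)) ∧
      ∃ K' : Set E2, IsCompact K' ∧ ∀ x, x ∉ K' → F' x = F x := by
  have hinv1 : ∀ x, K6_tw (-1) (K6_tw 1 x) = x := K6_tw_inv 1
  have hinv2 : ∀ x, K6_tw 1 (K6_tw (-1) x) = x := by
    intro x
    have h := K6_tw_inv (-1) x
    rwa [neg_neg] at h
  refine K6_transport (K6_tw_smooth 1) (K6_tw_smooth (-1)) hinv2 ?_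
  have hsm : ContDiff ℝ ∞ (F ∘ K6_tw 1) := hF.comp (K6_tw_smooth 1)
  have hfarm : K6_tw 1 ((-1, 0) : E2) = (-1, 0) := K6_tw_far 1 (by norm_num)
  have hnearm : K6_tw 1 ((1, 0) : E2) = (1, 0) := by
    rw [K6_tw_near (by norm_num)]
    refine Prod.ext ?_ ?_
    · change (2 : ℝ) - 1 = 1
      norm_num
    · change (0 : ℝ) - 0 = 0
      norm_num
  have hcont : Continuous fun x : E2 => (x.1 - 1) ^ 2 + x.2 ^ 2 := by fun_prop
  have hfar : F ∘ K6_tw 1 =ᶠ[𝓝 ((-1, 0) : E2)] F := by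
    have h3 : ∀ᶠ x in 𝓝 ((-1, 0) : E2), 1 / 2 < (x.1 - 1) ^ 2 + x.2 ^ 2 :=
      (hcont.tendsto _).eventually_const_lt (by norm_num)
    filter_upwards [h3] with x hx
    change F (K6_tw 1 x) = F x
    rw [K6_tw_far 1 hx.le]
  have hnear : F ∘ K6_tw 1 =ᶠ[𝓝 ((1, 0) : E2)]
      fun y => F (((1, 0) : E2) + ((1, 0) : E2) - y) := by
    have h3 : ∀ᶠ x in 𝓝 ((1, 0) : E2), (x.1 - 1) ^ 2 + x.2 ^ 2 < 1 / 4 :=
      (hcont.tendsto _).eventually_lt_const (by norm_num)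
    filter_upwards [h3] with x hx
    change F (K6_tw 1 x) = F (((1, 0) : E2) + ((1, 0) : E2) - x)
    rw [K6_tw_near hx.le]
    congr 2
    refine Prod.ext ?_ ?_
    · change (2 : ℝ) = 1 + 1
      norm_num
    · change (0 : ℝ) = 0 + 0
      norm_num
  have hdm : fderiv ℝ (F ∘ K6_tw 1) ((-1, 0) : E2) = fderiv ℝ F (-1, 0) := hfar.fderiv_eq
  obtain ⟨hdp, hsp⟩ := K6_sg_neg hF hnear μ₂
  have hinj : ∀ x : E2, x ≠ (-1, 0) → x ≠ (1, 0) →
      Function.Injective (fderiv ℝ (F ∘ K6_tw 1) x) := by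
    intro x hx1 hx2
    rw [K6_comp_fderiv hF (K6_tw_smooth 1)]
    refine (hi _ ?_ ?_).comp (K6_inj (K6_tw_smooth 1) (K6_tw_smooth (-1)) hinv1 x)
    · intro h
      apply hx1
      rw [← hinv1 x, h, ← hfarm, hinv1, hfarm]
    · intro h
      apply hx2
      rw [← hinv1 x, h, ← hnearm, hinv1, hnearm]
  refine planar_special hsm ?_ hinj (μ₁ := μ₁) (μ₂ := μ₂) ?_ ?_ ?_
  · intro x
    by_cases hx1 : x = (-1, 0)
    · rw [hx1, hdm]
      exact hb _
    · by_cases hx2 : x = (1, 0)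
      · rw [hx2, hdp, neg_apply]
        exact neg_ne_zero.2 (hb _)
      · intro h
        have h3 := hinj x hx1 hx2 (h.trans (map_zero _).symm)
        have h4 : (1 : ℝ) = 0 := congrArg Prod.snd h3
        exact one_ne_zero h4
  · rw [hdm]
    exact h1
  · rw [hdp, neg_apply, neg_apply, smul_neg, h2]
  · rw [K6_sg_congr hfar, hsp]
    linarith

theorem planar_cancel {F : E2 → V3} (hF : ContDiff ℝ ∞ F) {c₁ c₂ : E2} (hne : c₁ ≠ c₂)
    (h1 : CC F c₁) (h2 : CC F c₂)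
    (hi : ∀ x, x ≠ c₁ → x ≠ c₂ → Function.Injective (fderiv ℝ F x)) :
    ∃ F' : E2 → V3, ContDiff ℝ ∞ F' ∧ (∀ x, Function.Injective (fderiv ℝ F' x)) ∧
      ∃ K' : Set E2, IsCompact K' ∧ ∀ x, x ∉ K' → F' x = F x := by
  obtain ⟨h, k, hh, hk, hkh, hhk, hm1, hp1, hb⟩ := K6_affine hF hne h1 h2 hi
  refine K6_transport hh hk hhk ?_
  have hsm : ContDiff ℝ ∞ (F ∘ h) := hF.comp hh
  have hc1 : CC (F ∘ h) (-1, 0) := cc_comp hF.contDiffAt hh.contDiffAt (K6_inj hh hk hkh _)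
    (by rw [hm1]; exact h1)
  have hc2 : CC (F ∘ h) (1, 0) := cc_comp hF.contDiffAt hh.contDiffAt (K6_inj hh hk hkh _)
    (by rw [hp1]; exact h2)
  have hinj : ∀ x : E2, x ≠ (-1, 0) → x ≠ (1, 0) → Function.Injective (fderiv ℝ (F ∘ h) x) := by
    intro x hx1 hx2
    rw [K6_comp_fderiv hF hh]
    refine (hi _ ?_ ?_).comp (K6_inj hh hk hkh x)
    · intro h3
      apply hx1
      rw [← hkh x, h3, ← hm1, hkh]
    · intro h3
      apply hx2
      rw [← hkh x, h3, ← hp1, hkh]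
  obtain ⟨μ₁, hμ₁, hs1⟩ := K6_mu hsm hc1 (hb _)
  obtain ⟨μ₂, hμ₂, hs2⟩ := K6_mu hsm hc2 (hb _)
  rcases lt_or_gt_of_ne (mul_ne_zero hs1 hs2) with hs | hs
  · exact planar_special hsm hb hinj hμ₁ hμ₂ hs
  · exact K6_twist hsm hb hinj hμ₁ hμ₂ hs

end P205F
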