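import Mathlib
import Vale.Agent.Lib.P205F.MD3

/-!
# P205I K7: a chart containing two given points

Fix `c₁` and the finite set `S' = S \ {c₁, c₂}`.  `𝒜 := {q ∉ S' ∪ {c₁} : there is κ ∈ ATL, κ.target = univ, c₁, q ∈ κ.source,
κ.source ∩ S' = ∅}`.  It is open, nonempty and relatively closed in (component of `c₁`) \ (S' ∪ {c₁}), which is preconnected.
Closedness: `q` in the closure, `ψ` a chart around `q` avoiding `S' ∪ {c₁}`, with target `univ`; choose `q' ∈ 𝒜` with
`ψ q'` very close to `ψ q`; `h : M → M` the diffeomorphism equal to `ψ⁻¹ (y ↦ y + χ(y) (ψ q - ψ q')) ψ` on `ψ.source` (`χ` a bump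
function, `= 1` at `ψ q'`; a diffeomorphism of the plane for small displacement) and the identity elsewhere; then
`κ' := h⁻¹ ≫ κ` (source `h(κ.source)`) works for `q`.
-/

noncomputable section

namespace P205F

open scoped Manifold ContDiff Topology RealInnerProductSpace
open Set

set_option maxSynthPendingDepth 3

/-- small displacement: a diffeomorphism of the plane with compact support moving `a` to `b` -/
theorem plane_move (a : E2) : ∃ r : ℝ, 0 < r ∧ ∀ b ∈ Metric.ball a r, ∃ h k : E2 → E2,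
    ContDiff ℝ ∞ h ∧ ContDiff ℝ ∞ k ∧ (∀ x, h (k x) = x) ∧ (∀ x, k (h x) = x) ∧ h a = b ∧
    ∀ x, x ∉ Metric.closedBall a 1 → h x = x ∧ k x = x := by
  let χ : ContDiffBump a := ⟨1 / 4, 1 / 2, by norm_num, by norm_num⟩
  have hχs : ContDiff ℝ ∞ (χ : E2 → ℝ) := χ.contDiff
  obtain ⟨C, hC⟩ := ContDiff.lipschitzWith_of_hasCompactSupport (𝕂 := ℝ) χ.hasCompactSupport
    (n := ∞) hχs (by simp)
  refine ⟨(2 * ((C : ℝ) + 1))⁻¹, by positivity, fun b hb => ?_⟩
  set v : E2 := b - a with hv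
  have hvn : ‖v‖ < (2 * ((C : ℝ) + 1))⁻¹ := by
    rw [hv, ← dist_eq_norm]
    exact Metric.mem_ball.1 hb
  have hCv : (C : ℝ) * ‖v‖ < 1 := by
    have h1 : (C : ℝ) * ‖v‖ ≤ ((C : ℝ) + 1) * ‖v‖ :=
      mul_le_mul_of_nonneg_right (by linarith) (norm_nonneg _)
    have h2 : ((C : ℝ) + 1) * ‖v‖ < ((C : ℝ) + 1) * (2 * ((C : ℝ) + 1))⁻¹ :=
      mul_lt_mul_of_pos_left hvn (by positivity)
    have h3 : ((C : ℝ) + 1) * (2 * ((C : ℝ) + 1))⁻¹ = 1 / 2 := by
      have : (C : ℝ) + 1 ≠ 0 := by positivity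
      field_simp
    linarith
  set h : E2 → E2 := fun x => x + χ x • v with hh
  have hhs : ContDiff ℝ ∞ h := contDiff_id.add (hχs.smul contDiff_const)
  -- the map is close to the identity
  have hap : ApproximatesLinearOn h ((ContinuousLinearEquiv.refl ℝ E2 : E2 ≃L[ℝ] E2) : E2 →L[ℝ] E2)
      univ (C * ‖v‖₊) := by
    intro x _ y _
    have h1 : h x - h y - ((ContinuousLinearEquiv.refl ℝ E2 : E2 ≃L[ℝ] E2) : E2 →L[ℝ] E2) (x - y) =
        (χ x - χ y) • v := by
      simp only [hh, ContinuousLinearEquiv.coe_refl, ContinuousLinearMap.id_apply, sub_smul]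
      abel
    rw [h1, norm_smul]
    have h2 : ‖χ x - χ y‖ ≤ C * ‖x - y‖ := by
      have := hC.dist_le_mul x y
      rwa [dist_eq_norm, dist_eq_norm] at this
    push_cast
    calc ‖χ x - χ y‖ * ‖v‖ ≤ (C * ‖x - y‖) * ‖v‖ :=
          mul_le_mul_of_nonneg_right h2 (norm_nonneg _)
      _ = C * ‖v‖ * ‖x - y‖ := by ring
  have hc : Subsingleton E2 ∨ C * ‖v‖₊ <
      ‖((ContinuousLinearEquiv.refl ℝ E2).symm : E2 →L[ℝ] E2)‖₊⁻¹ := by
    right
    have h1 : ‖((ContinuousLinearEquiv.refl ℝ E2).symm : E2 →L[ℝ] E2)‖₊ = 1 := by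
      have h2 : ((ContinuousLinearEquiv.refl ℝ E2).symm : E2 →L[ℝ] E2) =
        ContinuousLinearMap.id ℝ E2 := rfl
      rw [h2]
      exact ContinuousLinearMap.nnnorm_id
    rw [h1, inv_one]
    exact_mod_cast hCv
  set H : E2 ≃ₜ E2 := hap.toHomeomorph h hc with hH
  have hHh : ∀ x, H x = h x := fun x => rfl
  have hχd : ∀ x, DifferentiableAt ℝ (χ : E2 → ℝ) x := fun x => hχs.differentiable (by simp) x
  have hLn : ∀ x, ‖-((fderiv ℝ (χ : E2 → ℝ) x).smulRight v)‖ < 1 := by
    intro x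
    rw [norm_neg, ContinuousLinearMap.norm_smulRight_apply]
    refine lt_of_le_of_lt ?_ hCv
    exact mul_le_mul_of_nonneg_right (norm_fderiv_le_of_lipschitz ℝ hC) (norm_nonneg _)
  have hder : ∀ x, HasFDerivAt H ((ContinuousLinearEquiv.unitsEquiv ℝ E2
      (Units.oneSub (-((fderiv ℝ (χ : E2 → ℝ) x).smulRight v)) (hLn x)) : E2 ≃L[ℝ] E2) :
        E2 →L[ℝ] E2) x := by
    intro x
    have h1 : HasFDerivAt h (ContinuousLinearMap.id ℝ E2 + (fderiv ℝ (χ : E2 → ℝ) x).smulRight v)
        x := (hasFDerivAt_id x).add ((hχd x).hasFDerivAt.smul_const v)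
    have h2 : ((ContinuousLinearEquiv.unitsEquiv ℝ E2
      (Units.oneSub (-((fderiv ℝ (χ : E2 → ℝ) x).smulRight v)) (hLn x)) : E2 ≃L[ℝ] E2) :
        E2 →L[ℝ] E2) =
        ContinuousLinearMap.id ℝ E2 + (fderiv ℝ (χ : E2 → ℝ) x).smulRight v := by
      refine ContinuousLinearMap.ext fun y => ?_
      change ((1 : E2 →L[ℝ] E2) - (-((fderiv ℝ (χ : E2 → ℝ) x).smulRight v))) y = _
      simp
    rw [h2]
    exact h1
  have hks : ContDiff ℝ ∞ (H.symm : E2 → E2) := H.contDiff_symm hder hhs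
  refine ⟨h, H.symm, hhs, hks, fun x => H.apply_symm_apply x, fun x => H.symm_apply_apply x, ?_,
    fun x hx => ?_⟩
  · have h1 : χ a = 1 := χ.one_of_mem_closedBall (Metric.mem_closedBall_self (by norm_num))
    simp only [hh, h1, one_smul, hv]
    abel
  · have h1 : χ x = 0 := by
      refine χ.zero_of_le_dist ?_
      have := not_le.1 (fun h' => hx (Metric.mem_closedBall.2 h'))
      have h2 : χ.rOut = 1 / 2 := rfl
      rw [h2]
      linarith
    have h2 : h x = x := by simp only [hh, h1, zero_smul, add_zero]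
    refine ⟨h2, ?_⟩
    conv_lhs => rw [← h2]
    exact H.symm_apply_apply x

variable {M : Type} [TopologicalSpace M] [ChartedSpace E2 M] [IsManifold 𝓘(ℝ, E2) ∞ M]


/-- a chart with target `univ` and source in a given neighbourhood -/
theorem exists_chart_univ (p : M) {W : Set M} (hW : W ∈ 𝓝 p) :
    ∃ φ ∈ ATL M, p ∈ φ.source ∧ φ.target = univ ∧ φ.source ⊆ W := by
  obtain ⟨φ, hφ, hp, hp0, ht, hsW⟩ := exists_chart_in p hW
  set U : OpenPartialHomeomorph E2 E2 :=
    (OpenPartialHomeomorph.univUnitBall (E := ℝ)).prod (OpenPartialHomeomorph.univUnitBall (E := ℝ))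
    with hU
  have hUs : U.source = univ := by
    rw [hU, OpenPartialHomeomorph.prod_source]
    exact univ_prod_univ
  have hUt : U.target = Metric.ball (0 : E2) 1 := by
    rw [hU, OpenPartialHomeomorph.prod_target]
    exact ball_prod_same (0 : ℝ) (0 : ℝ) 1
  have hUc : ContDiff ℝ ∞ U :=
    ((OpenPartialHomeomorph.contDiff_univUnitBall (E := ℝ)).comp contDiff_fst).prodMk
      ((OpenPartialHomeomorph.contDiff_univUnitBall (E := ℝ)).comp contDiff_snd)
  have hUi : ContDiffOn ℝ ∞ U.symm (Metric.ball (0 : E2) 1) := by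
    have h1 : ∀ x ∈ Metric.ball (0 : E2) 1, x.1 ∈ Metric.ball (0 : ℝ) 1 ∧
        x.2 ∈ Metric.ball (0 : ℝ) 1 := by
      intro x hx
      rw [mem_ball_zero_iff] at hx
      exact ⟨mem_ball_zero_iff.2 ((norm_fst_le x).trans_lt hx),
        mem_ball_zero_iff.2 ((norm_snd_le x).trans_lt hx)⟩
    exact ((OpenPartialHomeomorph.contDiffOn_univUnitBall_symm (E := ℝ)).comp
      contDiff_fst.contDiffOn (fun x hx => (h1 x hx).1)).prodMk
      ((OpenPartialHomeomorph.contDiffOn_univUnitBall_symm (E := ℝ)).comp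
        contDiff_snd.contDiffOn (fun x hx => (h1 x hx).2))
  have h14 : Metric.ball (0 : E2) 1 ⊆ φ.target :=
    (Metric.ball_subset_closedBall.trans (Metric.closedBall_subset_closedBall (by norm_num))).trans
      ht
  have hUm : ∀ z, U z ∈ Metric.ball (0 : E2) 1 := by
    intro z
    rw [← hUt]
    exact U.map_source (by rw [hUs]; exact mem_univ z)
  refine ⟨φ.trans U.symm, ?_, ?_, ?_, ?_⟩
  · refine OpenPartialHomeomorph.mem_maximalAtlas_of_contMDiffOn _ ?_ ?_
    · have h1 := contMDiffOn_of_mem_maximalAtlas hφ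
      refine (contMDiffOn_iff_contDiffOn.2 hUi).comp
        (h1.mono (OpenPartialHomeomorph.trans_source φ U.symm ▸ inter_subset_left)) ?_
      intro x hx
      rw [OpenPartialHomeomorph.trans_source, OpenPartialHomeomorph.symm_source, hUt] at hx
      exact hx.2
    · have h1 := contMDiffOn_symm_of_mem_maximalAtlas hφ
      exact h1.comp (hUc.contMDiff.contMDiffOn (s := _)) (fun z _ => h14 (hUm z))
  · rw [OpenPartialHomeomorph.trans_source, OpenPartialHomeomorph.symm_source, hUt]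
    refine ⟨hp, ?_⟩
    change φ p ∈ Metric.ball (0 : E2) 1
    rw [hp0]
    exact Metric.mem_ball_self one_pos
  · rw [OpenPartialHomeomorph.trans_target, OpenPartialHomeomorph.symm_target, hUs]
    rw [univ_inter]
    exact eq_univ_of_forall fun z => h14 (hUm z)
  · intro x hx
    rw [OpenPartialHomeomorph.trans_source] at hx
    exact hsW hx.1

/-- removing one point from a connected open set of a surface -/
theorem K7_remove {C : Set M} (hC : IsPreconnected C) (hCo : IsOpen C) [T2Space M] (s : M) :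
    IsPreconnected (C \ {s}) := by
  by_cases hs : s ∈ C
  · obtain ⟨φ, hφ, hsφ, hφt, hφC⟩ := exists_chart_univ s (hCo.mem_nhds hs)
    have hB : IsPreconnected (φ.source \ {s}) := by
      have h1 : φ.source \ {s} = φ.symm '' ({φ s}ᶜ : Set E2) := by
        ext y
        constructor
        · rintro ⟨hy, hys⟩
          refine ⟨φ y, fun h => hys ?_, φ.left_inv hy⟩
          exact φ.injOn hy hsφ h
        · rintro ⟨z, hz, rfl⟩
          have hzt : z ∈ φ.target := by rw [hφt]; exact mem_univ z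
          refine ⟨φ.map_target hzt, fun h => hz ?_⟩
          have h2 : φ.symm z = s := h
          change z = φ s
          rw [← h2, φ.right_inv hzt]
      rw [h1]
      refine IsPreconnected.image ?_ _ ?_
      · refine (isConnected_compl_singleton_of_one_lt_rank ?_ _).isPreconnected
        simp only [rank_prod', Module.rank_self]
        rw [one_add_one_eq_two]
        exact Cardinal.one_lt_two
      · refine φ.continuousOn_symm.mono ?_
        rw [hφt]
        exact subset_univ _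
    -- the main argument
    have key : ∀ u v : Set M, IsOpen u → IsOpen v → C \ {s} ⊆ u ∪ v →
        (C \ {s} ∩ v).Nonempty → (φ.source \ {s} ∩ v) = ∅ → (C \ {s} ∩ (u ∩ v)).Nonempty := by
      intro u v hu hv hcov hne hemp
      have hBu : φ.source \ {s} ⊆ u := by
        intro x hx
        rcases hcov ⟨hφC hx.1, hx.2⟩ with h | h
        · exact h
        · exfalso
          have : x ∈ (φ.source \ {s} ∩ v) := ⟨hx, h⟩
          rw [hemp] at this
          exact this
      have hv' : IsOpen (v \ {s}) := hv.sdiff isClosed_singleton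
      have hu' : IsOpen (u ∪ φ.source) := hu.union φ.open_source
      obtain ⟨x, hxC, hx1, hx2⟩ := hC (u ∪ φ.source) (v \ {s}) hu' hv' (by
          intro x hx
          by_cases hxs : x = s
          · left
            right
            rw [hxs]
            exact hsφ
          · rcases hcov ⟨hx, hxs⟩ with h | h
            · exact Or.inl (Or.inl h)
            · exact Or.inr ⟨h, hxs⟩)
        ⟨s, hs, Or.inr hsφ⟩ (by
          obtain ⟨x, hx, hxv⟩ := hne
          exact ⟨x, hx.1, hxv, hx.2⟩)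
      rcases hx1 with h | h
      · exact ⟨x, ⟨hxC, hx2.2⟩, h, hx2.1⟩
      · exact ⟨x, ⟨hxC, hx2.2⟩, hBu ⟨h, hx2.2⟩, hx2.1⟩
    intro u v hu hv hcov hnu hnv
    by_cases h1 : (φ.source \ {s} ∩ v) = ∅
    · exact key u v hu hv hcov hnv h1
    · by_cases h2 : (φ.source \ {s} ∩ u) = ∅
      · have h3 := key v u hv hu (by rw [union_comm]; exact hcov) hnu h2
        rwa [inter_comm u v]
      · obtain ⟨x, hx, hxu⟩ := hB u v hu hv
          ((sdiff_subset_sdiff_left hφC).trans hcov) (nonempty_iff_ne_empty.2 h2)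
          (nonempty_iff_ne_empty.2 h1)
        exact ⟨x, ⟨hφC hx.1, hx.2⟩, hxu⟩
  · rw [sdiff_singleton_eq_self hs]
    exact hC

/-- a connected surface minus a finite set is connected -/
theorem preconnected_compl_finite {C : Set M} (hC : IsPreconnected C) (hCo : IsOpen C)
    [T2Space M] (S : Finset M) : IsPreconnected (C \ S) := by
  classical
  induction S using Finset.induction_on with
  | empty => simpa using hC
  | insert a S _ ih =>
    have h1 : C \ ((insert a S : Finset M) : Set M) = (C \ (S : Set M)) \ {a} := by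
      ext x
      simp only [Finset.coe_insert, mem_sdiff, mem_insert_iff, mem_singleton_iff]
      tauto
    rw [h1]
    exact K7_remove ih (hCo.sdiff S.finite_toSet.isClosed) a

/-- a diffeomorphism of the plane with support in a compact set, transported to `M` -/
theorem K7_move [T2Space M] {ψ : OpenPartialHomeomorph M E2} (hψ : ψ ∈ ATL M)
    (hψt : ψ.target = univ) {a : E2} {h k : E2 → E2} (hh : ContDiff ℝ ∞ h)
    (hhk : ∀ x, h (k x) = x)
    (hout : ∀ x, x ∉ Metric.closedBall a 1 → h x = x ∧ k x = x) :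
    ∃ f : M → M, ContMDiff 𝓘(ℝ, E2) 𝓘(ℝ, E2) ∞ f ∧ (∀ x ∈ ψ.source, f x = ψ.symm (h (ψ x))) ∧
      ∀ x, x ∉ ψ.source → f x = x := by
  classical
  set f : M → M := fun x => if x ∈ ψ.source then ψ.symm (h (ψ x)) else x with hf
  have h1 : ∀ x ∈ ψ.source, f x = ψ.symm (h (ψ x)) := fun x hx => by
    simp only [hf, if_pos hx]
  have h2 : ∀ x, x ∉ ψ.source → f x = x := fun x hx => by
    simp only [hf, if_neg hx]
  refine ⟨f, ?_, h1, h2⟩
  have hKc : IsClosed (ψ.symm '' Metric.closedBall a 1) := by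
    have h3 : ContinuousOn ψ.symm (Metric.closedBall a 1) :=
      ψ.continuousOn_symm.mono (by rw [hψt]; exact subset_univ _)
    exact ((isCompact_closedBall a 1).image_of_continuousOn h3).isClosed
  intro x
  by_cases hx : x ∈ ψ.source
  · have h3 : ContMDiffOn 𝓘(ℝ, E2) 𝓘(ℝ, E2) ∞ (ψ.symm ∘ (h ∘ ψ)) ψ.source := by
      have e1 := contMDiffOn_of_mem_maximalAtlas hψ
      have e2 := contMDiffOn_symm_of_mem_maximalAtlas hψ
      have e3 : ContMDiffOn 𝓘(ℝ, E2) 𝓘(ℝ, E2) ∞ (h ∘ ψ) ψ.source :=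
        (hh.contMDiff.contMDiffOn (s := univ)).comp e1 (fun _ _ => mem_univ _)
      exact e2.comp e3 (fun y _ => by rw [hψt]; exact mem_univ _)
    have h4 : ContMDiffAt 𝓘(ℝ, E2) 𝓘(ℝ, E2) ∞ (ψ.symm ∘ (h ∘ ψ)) x :=
      h3.contMDiffAt (ψ.open_source.mem_nhds hx)
    refine h4.congr_of_eventuallyEq ?_
    filter_upwards [ψ.open_source.mem_nhds hx] with y hy
    exact h1 y hy
  · have h3 : x ∉ ψ.symm '' Metric.closedBall a 1 := by
      rintro ⟨y, _, rfl⟩
      exact hx (ψ.map_target (by rw [hψt]; exact mem_univ _))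
    have h4 : ContMDiffAt 𝓘(ℝ, E2) 𝓘(ℝ, E2) ∞ (id : M → M) x := contMDiffAt_id
    refine h4.congr_of_eventuallyEq ?_
    filter_upwards [hKc.isOpen_compl.mem_nhds h3] with y hy
    by_cases hyψ : y ∈ ψ.source
    · have h5 : ψ y ∉ Metric.closedBall a 1 := by
        intro h6
        exact hy ⟨ψ y, h6, ψ.left_inv hyψ⟩
      rw [h1 y hyψ, (hout _ h5).1, ψ.left_inv hyψ]
      rfl
    · exact h2 y hyψ

theorem K7_move_inv {ψ : OpenPartialHomeomorph M E2}
    (hψt : ψ.target = univ) {h k : E2 → E2} (hhk : ∀ x, h (k x) = x) {f g : M → M}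
    (hf1 : ∀ x ∈ ψ.source, f x = ψ.symm (h (ψ x))) (hf2 : ∀ x, x ∉ ψ.source → f x = x)
    (hg1 : ∀ x ∈ ψ.source, g x = ψ.symm (k (ψ x))) (hg2 : ∀ x, x ∉ ψ.source → g x = x) (x : M) :
    f (g x) = x := by
  have ht : ∀ y, y ∈ ψ.target := fun y => by rw [hψt]; exact mem_univ _
  by_cases hx : x ∈ ψ.source
  · rw [hg1 x hx, hf1 _ (ψ.map_target (ht _)), ψ.right_inv (ht _), hhk, ψ.left_inv hx]
  · rw [hg2 x hx, hf2 x hx]

theorem two_point_chart [CompactSpace M] [T2Space M] {S : Finset M} {c₁ c₂ : M} (hne : c₁ ≠ c₂)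
    (hc : c₂ ∈ connectedComponent c₁) :
    ∃ κ ∈ ATL M, κ.target = univ ∧ c₁ ∈ κ.source ∧ c₂ ∈ κ.source ∧
      ∀ s ∈ S, s ∈ κ.source → s = c₁ ∨ s = c₂ := by
  classical
  haveI : LocallyConnectedSpace M := ChartedSpace.locallyConnectedSpace E2 M
  set S' : Finset M := (S.erase c₁).erase c₂ with hS'
  have hc₁S' : c₁ ∉ S' := by simp [hS']
  have hc₂S' : c₂ ∉ S' := by simp [hS']
  set 𝒜 : Set M := {q | ∃ κ ∈ ATL M, κ.target = univ ∧ c₁ ∈ κ.source ∧ q ∈ κ.source ∧
    ∀ s ∈ S', s ∉ κ.source} with h𝒜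
  set D : Set M := connectedComponent c₁ \ (insert c₁ S' : Finset M) with hD
  have hDp : IsPreconnected D :=
    preconnected_compl_finite isPreconnected_connectedComponent isOpen_connectedComponent _
  have hAo : IsOpen 𝒜 := by
    rw [isOpen_iff_mem_nhds]
    rintro q ⟨κ, h1, h2, h3, h4, h5⟩
    filter_upwards [κ.open_source.mem_nhds h4] with y hy
    exact ⟨κ, h1, h2, h3, hy, h5⟩
  -- nonempty
  have hne' : (D ∩ 𝒜).Nonempty := by
    have hW : ((S' : Set M))ᶜ ∈ 𝓝 c₁ :=
      (S'.finite_toSet.isClosed.isOpen_compl).mem_nhds (by simpa using hc₁S')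
    obtain ⟨κ, h1, h2, h3, h4⟩ := exists_chart_univ c₁ hW
    have ht : ∀ y, y ∈ κ.target := fun y => by rw [h3]; exact mem_univ _
    set q : M := κ.symm (κ c₁ + (1, 0)) with hq
    have hqs : q ∈ κ.source := κ.map_target (ht _)
    have hκq : κ q = κ c₁ + (1, 0) := κ.right_inv (ht _)
    have hqc : q ≠ c₁ := by
      intro h
      rw [h] at hκq
      have h6 : ((1 : ℝ), (0 : ℝ)) = 0 := by
        have := hκq
        exact left_eq_add.1 this
      have h7 := congrArg Prod.fst h6
      simp at h7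
    have hκ5 : ∀ s ∈ S', s ∉ κ.source := fun s hs hs' => (h4 hs') (by simpa using hs)
    have hconn : κ.source ⊆ connectedComponent c₁ := by
      have h5 : κ.symm '' univ = κ.source := by
        rw [← h3]
        exact κ.symm.image_source_eq_target
      have h6 : IsPreconnected κ.source := by
        rw [← h5]
        exact isPreconnected_univ.image _ (by rw [← h3]; exact κ.continuousOn_symm)
      exact h6.subset_connectedComponent h2
    refine ⟨q, ⟨hconn hqs, ?_⟩, κ, h1, h3, h2, hqs, hκ5⟩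
    intro h6
    rw [Finset.coe_insert] at h6
    rcases h6 with h6 | h6
    · exact hqc h6
    · exact hκ5 q (by simpa using h6) hqs
  -- relatively closed
  have hcl : closure 𝒜 ∩ D ⊆ 𝒜 := by
    rintro q ⟨hq1, hq2⟩
    have hW : ((insert c₁ S' : Finset M) : Set M)ᶜ ∈ 𝓝 q :=
      ((insert c₁ S').finite_toSet.isClosed.isOpen_compl).mem_nhds hq2.2
    obtain ⟨ψ, h1, h2, h3, h4⟩ := exists_chart_univ q hW
    have ht : ∀ y, y ∈ ψ.target := fun y => by rw [h3]; exact mem_univ _
    obtain ⟨r, hr, hmove⟩ := plane_move (ψ q)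
    have hN : ψ.source ∩ ψ ⁻¹' Metric.ball (ψ q) r ∈ 𝓝 q :=
      (ψ.isOpen_inter_preimage Metric.isOpen_ball).mem_nhds ⟨h2, Metric.mem_ball_self hr⟩
    obtain ⟨q', ⟨hq's, hq'b⟩, κ, k1, k2, k3, k4, k5⟩ := mem_closure_iff_nhds.1 hq1 _ hN
    obtain ⟨h, k, hh, hk, hhk, hkh, hab, hout⟩ := hmove _ hq'b
    obtain ⟨f, hf, hf1, hf2⟩ := K7_move h1 h3 hh hhk hout
    obtain ⟨g, hg, hg1, hg2⟩ := K7_move h1 h3 hk hkh (fun x hx => (hout x hx).symm)
    have hfg := K7_move_inv h3 hhk hf1 hf2 hg1 hg2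
    have hgf := K7_move_inv h3 hkh hg1 hg2 hf1 hf2
    let Φ : M ≃ₜ M :=
      { toFun := f
        invFun := g
        left_inv := hgf
        right_inv := hfg
        continuous_toFun := hf.continuous
        continuous_invFun := hg.continuous }
    have hfq : f q = q' := by
      rw [hf1 q h2, hab, ψ.left_inv hq's]
    have hψ5 : ∀ s ∈ insert c₁ S', s ∉ ψ.source := fun s hs hs' => (h4 hs') (by
      exact Finset.mem_coe.2 hs)
    refine ⟨Φ.transOpenPartialHomeomorph κ, ?_, k2, ?_, ?_, ?_⟩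
    · refine OpenPartialHomeomorph.mem_maximalAtlas_of_contMDiffOn _ ?_ ?_
      · have e1 := contMDiffOn_of_mem_maximalAtlas k1
        exact e1.comp (hf.contMDiffOn (s := f ⁻¹' κ.source)) (fun z hz => hz)
      · have e1 := contMDiffOn_symm_of_mem_maximalAtlas k1
        exact (hg.contMDiffOn (s := univ)).comp e1 (fun z _ => mem_univ _)
    · change f c₁ ∈ κ.source
      rw [hf2 c₁ (hψ5 c₁ (Finset.mem_insert_self _ _))]
      exact k3
    · change f q ∈ κ.source
      rw [hfq]
      exact k4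
    · intro s hs
      change f s ∉ κ.source
      rw [hf2 s (hψ5 s (Finset.mem_insert_of_mem hs))]
      exact k5 s hs
  have hsub : D ⊆ 𝒜 := hDp.subset_of_closure_inter_subset hAo hne' hcl
  have hc₂D : c₂ ∈ D := by
    refine ⟨hc, ?_⟩
    rw [Finset.coe_insert]
    rintro (h | h)
    · exact hne h.symm
    · exact hc₂S' (by simpa using h)
  obtain ⟨κ, h1, h2, h3, h4, h5⟩ := hsub hc₂D
  refine ⟨κ, h1, h2, h3, h4, fun s hs hsκ => ?_⟩
  by_contra h6
  push Not at h6
  exact h5 s (by rw [hS', Finset.mem_erase, Finset.mem_erase]; exact ⟨h6.2, h6.1, hs⟩) hsκ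

end P205F
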