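import Vale.Agent.Lib.P205I.K6
import Vale.Agent.Lib.P205I.K7

/-!
# P205I K8: cancellation of a pair of cross-caps on `M`, and the iteration
-/

noncomputable section

namespace P205F

open scoped Manifold ContDiff Topology RealInnerProductSpace
open Set

set_option maxSynthPendingDepth 3

theorem K8_cc_congr {F F' : E2 → V3} {x : E2} (h : F =ᶠ[𝓝 x] F') (hc : CC F x) : CC F' x := by
  obtain ⟨n, hn, h1, h2, h3⟩ := hc
  have hf : fderiv ℝ F x = fderiv ℝ F' x := h.fderiv_eq
  have hg : (fun y => fderiv ℝ F y n) =ᶠ[𝓝 x] fun y => fderiv ℝ F' y n := by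
    filter_upwards [Filter.EventuallyEq.fderiv (𝕜 := ℝ) h] with y hy
    rw [hy]
  refine ⟨n, hn, by rw [← hf]; exact h1, by rw [← hf]; exact h2, fun u w huw => h3 u w ?_⟩
  rw [hg.fderiv_eq, hf]
  exact huw

theorem K8_ev {M : Type} [TopologicalSpace M] [ChartedSpace E2 M] {G G' : M → V3} {p : M}
    (h : G =ᶠ[𝓝 p] G') {φ : OpenPartialHomeomorph M E2} (hp : p ∈ φ.source) :
    (G ∘ φ.symm) =ᶠ[𝓝 (φ p)] (G' ∘ φ.symm) := by
  have hc : ContinuousAt φ.symm (φ p) := φ.symm.continuousAt (φ.map_source hp)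
  have h' : ∀ᶠ y in 𝓝 (φ.symm (φ p)), G y = G' y := by
    rw [φ.left_inv hp]; exact h
  exact hc.eventually h'

theorem K8_ccm_congr {M : Type} [TopologicalSpace M] [ChartedSpace E2 M] {G G' : M → V3} {p : M}
    (h : G =ᶠ[𝓝 p] G') (hc : CCM G p) : CCM G' p :=
  K8_cc_congr (K8_ev h (mem_chart_source E2 p)) hc

theorem K8_dP_congr {M : Type} [TopologicalSpace M] [ChartedSpace E2 M] {G G' : M → V3} {p : M}
    (h : G =ᶠ[𝓝 p] G') : dP G p = dP G' p :=
  (K8_ev h (mem_chart_source E2 p)).fderiv_eq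

variable {M : Type} [TopologicalSpace M] [ChartedSpace E2 M] [IsManifold 𝓘(ℝ, E2) ∞ M]


open Classical in
theorem cancel_pair [CompactSpace M] [T2Space M] {G : M → V3} {S : Finset M} (hG : GenMap G S)
    {c₁ c₂ : M} (h1 : c₁ ∈ S) (h2 : c₂ ∈ S) (hne : c₁ ≠ c₂) (hc : c₂ ∈ connectedComponent c₁) :
    ∃ G' : M → V3, GenMap G' ((S.erase c₁).erase c₂) := by
  obtain ⟨κ, hκ, hκu, hs1, hs2, hS⟩ := two_point_chart (S := S) hne hc
  obtain ⟨hG1, hG2, hG3⟩ := hG
  have hu : ∀ x, x ∈ κ.target := fun x => by rw [hκu]; trivial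
  have hms : ∀ x, κ.symm x ∈ κ.source := fun x => κ.map_target (hu x)
  have hri : ∀ x, κ (κ.symm x) = x := fun x => κ.right_inv (hu x)
  have hFs : ContDiff ℝ ∞ (G ∘ κ.symm) := by
    have := hG1.loc hκ
    rw [hκu] at this
    exact contDiffOn_univ.mp this
  have hx1 : CC (G ∘ κ.symm) (κ c₁) := (ccm_loc hG1 hκ hs1).mp (hG3 c₁ h1)
  have hx2 : CC (G ∘ κ.symm) (κ c₂) := (ccm_loc hG1 hκ hs2).mp (hG3 c₂ h2)
  have hκne : κ c₁ ≠ κ c₂ := fun h => hne (κ.injOn hs1 hs2 h)
  have hi : ∀ x, x ≠ κ c₁ → x ≠ κ c₂ → Function.Injective (fderiv ℝ (G ∘ κ.symm) x) := by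
    intro x hx hx'
    have hxS : κ.symm x ∉ S := by
      intro hxS
      rcases hS _ hxS (hms x) with h | h
      · exact hx (by rw [← h, hri])
      · exact hx' (by rw [← h, hri])
    have h := (inj_loc hG1 hκ (hms x)).mp (hG2 _ hxS)
    rwa [hri] at h
  obtain ⟨F', hF's, hF'i, K', hK', hKF⟩ := planar_cancel hFs hκne hx1 hx2 hi
  have hZ : IsClosed (κ.symm '' K') :=
    (hK'.image_of_continuousOn (κ.symm.continuousOn.mono fun x _ => hu x)).isClosed
  let G' : M → V3 := fun p => if p ∈ κ.source then F' (κ p) else G p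
  have hin : G' ∘ κ.symm = F' := by
    funext x
    simp only [G', Function.comp, if_pos (hms x), hri]
  have hout : ∀ p, p ∉ κ.symm '' K' → G' p = G p := by
    intro p hp
    by_cases hps : p ∈ κ.source
    · have hk : κ p ∉ K' := fun h => hp ⟨κ p, h, κ.left_inv hps⟩
      simp only [G', if_pos hps]
      rw [hKF _ hk, Function.comp, κ.left_inv hps]
    · simp only [G', if_neg hps]
  have hZs : κ.symm '' K' ⊆ κ.source := by
    rintro _ ⟨x, -, rfl⟩
    exact hms x
  have hev : ∀ p, p ∉ κ.source → G' =ᶠ[𝓝 p] G := by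
    intro p hp
    filter_upwards [hZ.isOpen_compl.mem_nhds fun h => hp (hZs h)] with y hy
    exact hout y hy
  have hsm : Sm G' := by
    refine sm_of_loc fun p => ?_
    by_cases hps : p ∈ κ.source
    · exact ⟨κ, hκ, hps, by rw [hin]; exact hF's.contDiffAt⟩
    · have hps' := mem_chart_source E2 p
      refine ⟨chartAt E2 p, chart_mem_ATL p, hps', ?_⟩
      exact (((hG1.loc (chart_mem_ATL p)).contDiffAt ((chartAt E2 p).open_target.mem_nhds
        ((chartAt E2 p).map_source hps'))).congr_of_eventuallyEq (K8_ev (hev p hps) hps'))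
  refine ⟨G', hsm, ?_, ?_⟩
  · intro p hp
    by_cases hps : p ∈ κ.source
    · rw [inj_loc hsm hκ hps, hin]
      exact hF'i _
    · rw [K8_dP_congr (hev p hps)]
      refine hG2 p fun hpS => hp ?_
      refine Finset.mem_erase.mpr ⟨?_, Finset.mem_erase.mpr ⟨?_, hpS⟩⟩
      · rintro rfl; exact hps hs2
      · rintro rfl; exact hps hs1
  · intro p hp
    have hp1 := Finset.mem_erase.mp hp
    have hp2 := Finset.mem_erase.mp hp1.2
    have hps : p ∉ κ.source := fun h => by
      rcases hS p hp2.2 h with h | h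
      · exact hp2.1 h
      · exact hp1.1 h
    exact K8_ccm_congr (hev p hps).symm (hG3 p hp2.2)

open Classical in
/-- even number of cross-caps in every clopen set: they can all be removed -/
theorem imm_of_even [CompactSpace M] [T2Space M] {G : M → V3} {S : Finset M} (hG : GenMap G S)
    (he : ∀ C : Set M, IsClopen C → Even (S.filter (fun p => p ∈ C)).card) :
    ∃ ι : M → V3, Sm ι ∧ ∀ p, Function.Injective (dP ι p) := by
  have : LocallyConnectedSpace M := ChartedSpace.locallyConnectedSpace E2 M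
  induction hn : S.card using Nat.strong_induction_on generalizing G S with
  | _ n ih =>
  rcases S.eq_empty_or_nonempty with hS | ⟨c₁, h1⟩
  · subst hS
    exact ⟨G, hG.1, fun p => hG.2.1 p (Finset.notMem_empty p)⟩
  · have hcl : ∀ p : M, IsClopen (connectedComponent p) :=
      fun p => ⟨isClosed_connectedComponent, isOpen_connectedComponent⟩
    have hev := he _ (hcl c₁)
    have hmem : c₁ ∈ S.filter (fun p => p ∈ connectedComponent c₁) :=
      Finset.mem_filter.mpr ⟨h1, mem_connectedComponent⟩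
    have hpos : 0 < (S.filter (fun p => p ∈ connectedComponent c₁)).card :=
      Finset.card_pos.mpr ⟨_, hmem⟩
    have h2 : 1 < (S.filter (fun p => p ∈ connectedComponent c₁)).card := by
      obtain ⟨k, hk⟩ := hev
      omega
    obtain ⟨c₂, hc2, hne⟩ := Finset.exists_mem_ne h2 c₁
    obtain ⟨h2S, h2c⟩ := Finset.mem_filter.mp hc2
    obtain ⟨G', hG'⟩ := cancel_pair hG h1 h2S hne.symm h2c
    have hcard : ((S.erase c₁).erase c₂).card < n := by
      rw [← hn]
      exact (Finset.card_erase_le).trans_lt (Finset.card_erase_lt_of_mem h1)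
    refine ih _ hcard hG' (fun C hC => ?_) rfl
    have hiff : c₁ ∈ C ↔ c₂ ∈ C := by
      have hsub : ∀ p ∈ C, connectedComponent p ⊆ C := fun p hp =>
        hC.connectedComponent_subset hp
      constructor
      · intro h; exact hsub _ h h2c
      · intro h
        refine hsub _ h ?_
        rw [← connectedComponent_eq h2c]
        exact mem_connectedComponent
    have hC' := he C hC
    rw [Finset.erase_right_comm, Finset.filter_erase, Finset.filter_erase]
    by_cases hcC : c₁ ∈ C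
    · have m1 : c₁ ∈ S.filter (fun p => p ∈ C) := Finset.mem_filter.mpr ⟨h1, hcC⟩
      have m2 : c₂ ∈ S.filter (fun p => p ∈ C) := Finset.mem_filter.mpr ⟨h2S, hiff.mp hcC⟩
      have m3 : c₁ ∈ (S.filter (fun p => p ∈ C)).erase c₂ := Finset.mem_erase.mpr ⟨hne.symm, m1⟩
      rw [Finset.card_erase_of_mem m3, Finset.card_erase_of_mem m2]
      obtain ⟨k, hk⟩ := hC'
      have : 1 < (S.filter (fun p => p ∈ C)).card := by
        refine Finset.one_lt_card.mpr ⟨c₁, m1, c₂, m2, hne.symm⟩
      exact ⟨k - 1, by omega⟩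
    · have m1 : c₁ ∉ S.filter (fun p => p ∈ C) := fun h => hcC (Finset.mem_filter.mp h).2
      have m2 : c₂ ∉ S.filter (fun p => p ∈ C) := fun h => hcC (hiff.mpr (Finset.mem_filter.mp h).2)
      rw [Finset.erase_eq_of_notMem m2, Finset.erase_eq_of_notMem m1]
      exact hC'

end P205F
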